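import Vale.Agent.Lib.P058C.SSum

/-!
# P058C, module Amal: amalgamation along a class

PROOF.  `E = EuclideanSpace ℝ ι`, `E' = EuclideanSpace ℝ ι'`, `x γ = v γ q`.  Applying `mu` (`SForm.real'`),
`⟪p κ γ, p κ γ'⟫ = ⟪x γ, x γ'⟫`.  Hence for every `κ` there is a linear map `A κ : E → E'` with
`A κ (x γ) = p κ γ`, `A κ = A κ ∘ P` and `⟪A κ u, A κ u'⟫ = ⟪P u, P u'⟫`, `P` = orthogonal projection of `E`
onto `S = span {x γ}` (a linear isometry `S → E'`: `∑ r γ • x γ ↦ ∑ r γ • p κ γ` is well defined since norms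
of combinations agree; e.g. `LinearMap.exists_...`, or choose a basis of `S` among the `x γ`).
Let `A' κ : E' → E` be its adjoint, `A' κ (A κ u) = P u`, `⟪A' κ y, u⟫ = ⟪y, A κ u⟫`; `B = 1 - P`.
Also `β'.B (A κ u) (A κ u') = β.B (P u) (P u')` (both sides are determined by the values on the
`x γ`: `SForm.sum_left`, `SForm.sum_right`, and `h`).

New space: `EuclideanSpace ℝ (ι' ⊕ (K × ι))`, vectors `(y, (w κ)_κ)`, `y : E'`, `w κ : E`, with the form
`B'' (y, w) (y', w') = β'.B y y' + ∑ κ, (β.B (B w_κ) (B w'_κ) + β.B (P w_κ) (P w'_κ)`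
`  + β.B (B w_κ) (A' κ y') + β.B (A' κ y) (B w'_κ))`.
Biadditive, left/right scalars, symmetric; real part `⟪y, y'⟫ + ∑ κ (⟪B w_κ, B w'_κ⟫ + ⟪P w_κ, P w'_κ⟫)`
(the cross terms vanish since `A' κ y ∈ S`) `= ⟪y, y'⟫ + ∑ κ ⟪w_κ, w'_κ⟫`.
Points `v'' (κ, γ) i = (A κ (v γ i), B (v γ i) at κ, 0 at the other indices)`.
Gram matrix in a block: `β'.B (A κ u) (A κ u') + β.B (B u) (B u') + β.B (B u) (P u') + β.B (P u) (B u')`
`= β.B (P u + B u) (P u' + B u') = β.B u u'` (`P (B u) = 0`, `A' κ (A κ u) = P u`).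
For `i = q`: `B (x γ) = 0`, `v'' (κ, γ) q = (p κ γ, 0)`: the inner products.
Columns: `⟪(y, w), v'' (κ, γ) i⟫ = ⟪y, A κ (v γ i)⟫ + ⟪w_κ, B (v γ i)⟫ = ⟪A' κ y + B w_κ, v γ i⟫`, and for
`i = q` it is `⟪y, p κ γ⟫`.  Conversely let `c ((κ, γ), i) = ⟪w_κ, v γ i⟫` and `c ((κ, γ), q) = ⟪u, p κ γ⟫`.
Then `⟪w_κ - A' κ u, x γ⟫ = 0` for all `γ`, so `w_κ - A' κ u` is orthogonal to `S`, and
`c` is the column of `(u, (w_κ - A' κ u)_κ)`:
`⟪A' κ u + B (w_κ - A' κ u), v γ i⟫ = ⟪A' κ u + w_κ - A' κ u, v γ i⟫`.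
-/

namespace Vale.Agent.Lib.P058

theorem amal_B_eq {Γ : Type} [Fintype Γ] {ι ι' : Type} [Fintype ι] [Fintype ι']
    (β : SForm (EuclideanSpace ℝ ι)) (β' : SForm (EuclideanSpace ℝ ι'))
    (x : Γ → EuclideanSpace ℝ ι) (p : Γ → EuclideanSpace ℝ ι')
    (h : ∀ γ γ', β'.B (p γ) (p γ') = β.B (x γ) (x γ')) (r r' : Γ → ℝ) :
    β'.B (Fintype.linearCombination ℝ p r) (Fintype.linearCombination ℝ p r') =
      β.B (Fintype.linearCombination ℝ x r) (Fintype.linearCombination ℝ x r') := by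
  simp only [Fintype.linearCombination_apply, SForm.sum_left, SForm.sum_right, h]

/-- the map `A` -/
theorem amal_exA {Γ : Type} [Fintype Γ] {ι ι' : Type} [Fintype ι] [Fintype ι']
    (β : SForm (EuclideanSpace ℝ ι)) (β' : SForm (EuclideanSpace ℝ ι'))
    (x : Γ → EuclideanSpace ℝ ι) (p : Γ → EuclideanSpace ℝ ι')
    (h : ∀ γ γ', β'.B (p γ) (p γ') = β.B (x γ) (x γ'))
    (P : EuclideanSpace ℝ ι →ₗ[ℝ] EuclideanSpace ℝ ι)
    (hP1 : ∀ u, P u ∈ Submodule.span ℝ (Set.range x)) (hP2 : ∀ γ, P (x γ) = x γ)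
    (hP3 : ∀ u, P (P u) = P u) :
    ∃ A : EuclideanSpace ℝ ι →ₗ[ℝ] EuclideanSpace ℝ ι', (∀ γ, A (x γ) = p γ) ∧
      (∀ u, A (P u) = A u) ∧ ∀ u u', β'.B (A u) (A u') = β.B (P u) (P u') := by
  classical
  set Tx : (Γ → ℝ) →ₗ[ℝ] EuclideanSpace ℝ ι := Fintype.linearCombination ℝ x with hTx
  set Tp : (Γ → ℝ) →ₗ[ℝ] EuclideanSpace ℝ ι' := Fintype.linearCombination ℝ p with hTp
  have hB : ∀ r r', β'.B (Tp r) (Tp r') = β.B (Tx r) (Tx r') := amal_B_eq β β' x p h
  have hker : ∀ r, Tx r = 0 → Tp r = 0 := by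
    intro r hr
    have h1 := congrArg mu (hB r r)
    rw [β'.real', β.real', hr, inner_zero_left] at h1
    exact inner_self_eq_zero.1 h1
  have hrange : ∀ u, P u ∈ LinearMap.range Tx := by
    intro u
    have := hP1 u
    rwa [← Fintype.range_linearCombination] at this
  obtain ⟨s, hs⟩ := Tx.rangeRestrict.exists_rightInverse_of_surjective Tx.range_rangeRestrict
  have hs' : ∀ z : LinearMap.range Tx, Tx (s z) = z := by
    intro z
    have := congrArg (fun f => ((f z : LinearMap.range Tx) : EuclideanSpace ℝ ι)) hs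
    simpa using this
  set P' : EuclideanSpace ℝ ι →ₗ[ℝ] LinearMap.range Tx := P.codRestrict (LinearMap.range Tx) hrange
    with hP'
  have hP'c : ∀ u, ((P' u : LinearMap.range Tx) : EuclideanSpace ℝ ι) = P u := fun u => rfl
  refine ⟨Tp ∘ₗ s ∘ₗ P', ?_, ?_, ?_⟩
  · intro γ
    have e1 : Tp (Pi.single γ 1) = p γ := by
      rw [hTp, Fintype.linearCombination_apply_single, one_smul]
    have e2 : Tx (Pi.single γ 1) = x γ := by
      rw [hTx, Fintype.linearCombination_apply_single, one_smul]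
    have e3 : Tx (s (P' (x γ)) - Pi.single γ 1) = 0 := by
      rw [map_sub, hs', hP'c, hP2, e2, sub_self]
    have e4 := hker _ e3
    rw [map_sub, sub_eq_zero, e1] at e4
    exact e4
  · intro u
    have : P' (P u) = P' u := by
      apply Subtype.ext
      rw [hP'c, hP'c, hP3]
    simp only [LinearMap.comp_apply, this]
  · intro u u'
    simp only [LinearMap.comp_apply]
    rw [hB, hs', hs', hP'c, hP'c]

theorem amal {Γ I K : Type} [Fintype Γ] [Fintype K] {ι ι' : Type} [Fintype ι] [Fintype ι']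
    (β : SForm (EuclideanSpace ℝ ι)) (v : Γ → I → EuclideanSpace ℝ ι) (q : I)
    (β' : SForm (EuclideanSpace ℝ ι')) (p : K → Γ → EuclideanSpace ℝ ι')
    (h : ∀ κ γ γ', β'.B (p κ γ) (p κ γ') = β.B (v γ q) (v γ' q)) :
    ∃ (ι'' : Type) (_ : Fintype ι'') (β'' : SForm (EuclideanSpace ℝ ι''))
      (v'' : K × Γ → I → EuclideanSpace ℝ ι''),
      (∀ κ γ γ' i i', β''.B (v'' (κ, γ) i) (v'' (κ, γ') i') = β.B (v γ i) (v γ' i')) ∧
      (∀ κ γ κ' γ', inner ℝ (v'' (κ, γ) q) (v'' (κ', γ') q) = inner ℝ (p κ γ) (p κ' γ')) ∧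
      ∀ c : (K × Γ) × I → ℝ, (∃ w, ∀ r, c r = inner ℝ w (v'' r.1 r.2)) ↔
        (∀ κ, ∃ w : EuclideanSpace ℝ ι, ∀ γ i, c ((κ, γ), i) = inner ℝ w (v γ i)) ∧
          ∃ u : EuclideanSpace ℝ ι', ∀ κ γ, c ((κ, γ), q) = inner ℝ u (p κ γ) := by
  classical
  set x : Γ → EuclideanSpace ℝ ι := fun γ => v γ q with hx
  set S : Submodule ℝ (EuclideanSpace ℝ ι) := Submodule.span ℝ (Set.range x) with hS
  set P : EuclideanSpace ℝ ι →ₗ[ℝ] EuclideanSpace ℝ ι := (S.starProjection).toLinearMap with hPdef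
  have hP1 : ∀ u, P u ∈ S := fun u => S.starProjection_apply_mem u
  have hPS : ∀ u ∈ S, P u = u := fun u hu => Submodule.starProjection_eq_self_iff.2 hu
  have hxS : ∀ γ, x γ ∈ S := fun γ => Submodule.subset_span ⟨γ, rfl⟩
  have hP2 : ∀ γ, P (x γ) = x γ := fun γ => hPS _ (hxS γ)
  have hP3 : ∀ u, P (P u) = P u := fun u => hPS _ (hP1 u)
  have hPsym : ∀ u w, inner ℝ (P u) w = inner ℝ u (P w) := fun u w =>
    S.inner_starProjection_left_eq_right u w
  choose A hA1 hA2 hA3 using fun κ => amal_exA β β' x (p κ) (h κ) P hP1 hP2 hP3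
  have hAin : ∀ κ u u', inner ℝ (A κ u) (A κ u') = inner ℝ (P u) (P u') := by
    intro κ u u'
    have := congrArg mu (hA3 κ u u')
    rwa [β'.real', β.real'] at this
  -- adjoints
  set A' : K → EuclideanSpace ℝ ι' →ₗ[ℝ] EuclideanSpace ℝ ι := fun κ => LinearMap.adjoint (A κ)
    with hA'
  have hA'in : ∀ κ y u, inner ℝ (A' κ y) u = inner ℝ y (A κ u) := fun κ y u =>
    LinearMap.adjoint_inner_left _ _ _
  have hPA' : ∀ κ y, P (A' κ y) = A' κ y := by
    intro κ y
    refine ext_inner_right ℝ fun u => ?_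
    rw [hPsym, hA'in, hA'in, hA2]
  have hA'A : ∀ κ u, A' κ (A κ u) = P u := by
    intro κ u
    refine ext_inner_right ℝ fun w => ?_
    rw [hA'in, hAin, hPsym, hP3, ← hPsym]
  -- the complementary projection
  set Q : EuclideanSpace ℝ ι →ₗ[ℝ] EuclideanSpace ℝ ι := LinearMap.id - P with hQ
  have hQa : ∀ u, Q u = u - P u := fun u => rfl
  have hPQ : ∀ u, P (Q u) = 0 := by
    intro u; rw [hQa, map_sub, hP3, sub_self]
  have hQQ : ∀ u, Q (Q u) = Q u := by
    intro u; rw [hQa (Q u), hPQ, sub_zero]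
  have hQsym : ∀ u w, inner ℝ (Q u) w = inner ℝ u (Q w) := by
    intro u w; rw [hQa, hQa, inner_sub_left, inner_sub_right, hPsym]
  have hPQs : ∀ u, P u + Q u = u := by
    intro u; rw [hQa]; abel
  -- components
  let yc : EuclideanSpace ℝ (ι' ⊕ K × ι) →ₗ[ℝ] EuclideanSpace ℝ ι' :=
    { toFun := fun z => WithLp.toLp 2 (fun i => z (Sum.inl i))
      map_add' := fun _ _ => rfl
      map_smul' := fun _ _ => rfl }
  let wc : K → EuclideanSpace ℝ (ι' ⊕ K × ι) →ₗ[ℝ] EuclideanSpace ℝ ι := fun κ =>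
    { toFun := fun z => WithLp.toLp 2 (fun i => z (Sum.inr (κ, i)))
      map_add' := fun _ _ => rfl
      map_smul' := fun _ _ => rfl }
  let mk : EuclideanSpace ℝ ι' → (K → EuclideanSpace ℝ ι) → EuclideanSpace ℝ (ι' ⊕ K × ι) :=
    fun y w => WithLp.toLp 2 (fun s => Sum.elim (fun i => y i) (fun ki => w ki.1 ki.2) s)
  have hymk : ∀ y w, yc (mk y w) = y := fun y w => rfl
  have hwmk : ∀ y w κ, wc κ (mk y w) = w κ := fun y w κ => rfl
  have hinner : ∀ z z' : EuclideanSpace ℝ (ι' ⊕ K × ι),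
      inner ℝ z z' = inner ℝ (yc z) (yc z') + ∑ κ, inner ℝ (wc κ z) (wc κ z') := by
    intro z z'
    simp only [PiLp.inner_apply]
    rw [Fintype.sum_sum_type, Fintype.sum_prod_type]
    rfl
  have hcross : ∀ κ w y, inner ℝ (Q w) (A' κ y) = 0 := by
    intro κ w y
    rw [← hPA', ← hPsym, hPQ, inner_zero_left]
  have hcross' : ∀ κ w y, inner ℝ (A' κ y) (Q w) = 0 := by
    intro κ w y
    rw [real_inner_comm, hcross]
  have hpyth : ∀ w w', inner ℝ (Q w) (Q w') + inner ℝ (P w) (P w') = inner ℝ w w' := by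
    intro w w'
    rw [hQsym, hQQ, hPsym, hP3, ← inner_add_right, add_comm, hPQs]
  let β'' : SForm (EuclideanSpace ℝ (ι' ⊕ K × ι)) :=
    { B := fun z z' => β'.B (yc z) (yc z') + ∑ κ, (β.B (Q (wc κ z)) (Q (wc κ z')) +
        β.B (P (wc κ z)) (P (wc κ z')) + β.B (Q (wc κ z)) (A' κ (yc z')) +
        β.B (A' κ (yc z)) (Q (wc κ z')))
      add_left' := fun z z' w => by
        simp only [map_add, SForm.add_left', Finset.sum_add_distrib]
        ring
      smul_left' := fun r z w => by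
        simp only [map_smul, SForm.smul_left', Finset.sum_add_distrib, ← Finset.mul_sum]
        ring
      symm' := fun z w => by
        rw [map_add, ← β'.symm', map_sum]
        congr 1
        refine Finset.sum_congr rfl fun κ _ => ?_
        rw [map_add, map_add, map_add, ← β.symm', ← β.symm', ← β.symm', ← β.symm']
        ring
      real' := fun z w => by
        rw [map_add, β'.real', map_sum, hinner]
        congr 1
        refine Finset.sum_congr rfl fun κ _ => ?_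
        rw [map_add, map_add, map_add, β.real', β.real', β.real', β.real', hcross, hcross',
          add_zero, add_zero, hpyth] }
  have hβ''B : ∀ z z', β''.B z z' = β'.B (yc z) (yc z') + ∑ κ, (β.B (Q (wc κ z)) (Q (wc κ z')) +
        β.B (P (wc κ z)) (P (wc κ z')) + β.B (Q (wc κ z)) (A' κ (yc z')) +
        β.B (A' κ (yc z)) (Q (wc κ z'))) := fun z z' => rfl
  let v'' : K × Γ → I → EuclideanSpace ℝ (ι' ⊕ K × ι) := fun kg i =>
    mk (A kg.1 (v kg.2 i)) (fun κ' => if κ' = kg.1 then Q (v kg.2 i) else 0)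
  have hyv : ∀ κ γ i, yc (v'' (κ, γ) i) = A κ (v γ i) := fun κ γ i => rfl
  have hwv : ∀ κ γ i κ', wc κ' (v'' (κ, γ) i) = if κ' = κ then Q (v γ i) else 0 :=
    fun κ γ i κ' => rfl
  have hvin : ∀ z κ γ i, inner ℝ z (v'' (κ, γ) i) =
      inner ℝ (A' κ (yc z) + Q (wc κ z)) (v γ i) := by
    intro z κ γ i
    rw [hinner, hyv, inner_add_left, hA'in, hQsym]
    congr 1
    rw [Finset.sum_eq_single κ]
    · rw [hwv, if_pos rfl]
    · intro κ' _ hne
      rw [hwv, if_neg hne, inner_zero_right]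
    · intro hκ; exact absurd (Finset.mem_univ κ) hκ
  have hvq : ∀ z κ γ, inner ℝ z (v'' (κ, γ) q) = inner ℝ (yc z) (p κ γ) := by
    intro z κ γ
    have e : Q (v γ q) = 0 := by
      rw [hQa]; exact sub_eq_zero.2 (hP2 γ).symm
    rw [hvin, inner_add_left, hA'in, hQsym, e, inner_zero_right, add_zero]
    congr 1
    exact hA1 κ γ
  refine ⟨ι' ⊕ K × ι, inferInstance, β'', v'', ?_, ?_, ?_⟩
  · intro κ γ γ' i i'
    rw [hβ''B, Finset.sum_eq_single κ]
    · rw [hyv, hyv, hwv, hwv, if_pos rfl, if_pos rfl, hA3, hPQ, hPQ, hQQ, hQQ, hA'A, hA'A,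
        β.zero_left, add_zero]
      conv_rhs => rw [← hPQs (v γ i), ← hPQs (v γ' i')]
      rw [β.add_left', β.add_right', β.add_right']
      ring
    · intro κ' _ hne
      rw [hwv, hwv, if_neg hne, if_neg hne, map_zero, map_zero, β.zero_left, β.zero_left,
        β.zero_right]
      simp
    · intro hκ; exact absurd (Finset.mem_univ κ) hκ
  · intro κ γ κ' γ'
    rw [hvq, hyv]
    congr 1
    exact hA1 κ γ
  · intro c
    constructor
    · rintro ⟨z, hz⟩
      constructor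
      · intro κ
        exact ⟨A' κ (yc z) + Q (wc κ z), fun γ i => by rw [hz, hvin]⟩
      · exact ⟨yc z, fun κ γ => by rw [hz, hvq]⟩
    · rintro ⟨h1, u, hu⟩
      choose w hw using h1
      refine ⟨mk u (fun κ => w κ - A' κ u), ?_⟩
      rintro ⟨⟨κ, γ⟩, i⟩
      change c ((κ, γ), i) = inner ℝ (mk u (fun κ => w κ - A' κ u)) (v'' (κ, γ) i)
      rw [hw, hvin]
      change inner ℝ (w κ) (v γ i) = inner ℝ (A' κ u + Q (w κ - A' κ u)) (v γ i)
      have e0 : P (w κ - A' κ u) = 0 := by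
        have h2 : ∀ s ∈ S, inner ℝ s (w κ - A' κ u) = (0 : ℝ) := by
          intro s hs
          refine Submodule.span_induction ?_ ?_ ?_ ?_ hs
          · rintro _ ⟨γ', rfl⟩
            rw [real_inner_comm, inner_sub_left, hA'in, hA1, ← hu]
            rw [sub_eq_zero]
            exact (hw κ γ' q).symm
          · exact inner_zero_left _
          · intro a b _ _ ha hb
            rw [inner_add_left, ha, hb, add_zero]
          · intro r a _ ha
            rw [inner_smul_left, ha, mul_zero]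
        have h3 := h2 _ (hP1 (w κ - A' κ u))
        rw [hPsym] at h3
        have h4 : inner ℝ (P (w κ - A' κ u)) (P (w κ - A' κ u)) = (0 : ℝ) := by
          rw [hPsym, hP3]; exact h3
        exact inner_self_eq_zero.1 h4
      rw [hQa (w κ - A' κ u), e0, sub_zero]
      congr 1
      abel

end Vale.Agent.Lib.P058
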