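import Vale.Agent.Lib.P058C.BalCalc

/-!
# P058C, module BCB: block-class-balanced lists

Rows `((κ, γ), x)`.  `V` contains all columns that depend on `x` only, and the columns
`loc f κ = (if r.1.1 = κ then f r.2 else 0)` for `f ∈ Loc`.

PROOF.  (1) If `L` is a list in `V` such that in each row the multiset of the entries depends only on
`x`, then its members are `Bal`: fix a block and `γ₀`, let `L₂ = L.map (fun c r => c ((κ₀, γ₀), r.2))`, a list of
columns depending only on `x`; `Bal.transfer`.  A column `f r.2` is `Bal`: the list of all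
`f (σ r.2)`, `σ : Equiv.Perm X`, is balanced (rows `x`, `y` are exchanged by a swap).
(2) For `f ∈ Loc` the column `loc f κ` is `Bal`: the list of all `loc f κ'` (`κ' : K`) has in a row `((κ, γ), x)` the
entries `f x` and zeros, (1).
(3) Let `L` be as in the theorem.  For `x : X`, `m : ℝ` choose `P x m`, `N x m` from `hcorr`.  Fix
`γ₀`.  Let `L₁ = L ++ L.map (-·) ++ (all loc f κ for κ : K, x : X, c ∈ L, f ∈ P x (c ((κ, γ₀), x)))` and
`L₂ = (2 |L| zero columns) ++ (all loc f κ for κ : K, x : X, c ∈ L, f ∈ N x (c ((κ, γ₀), x)))`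
`++ (zero columns)`: in a row `((κ, γ), x)`, `L ++ L.map (-·)` has the entries `m, -m` for
`m = c ((κ, γ₀), x)`, `c ∈ L` (by `hbcb` the multiset does not depend on `γ`);
the columns for the blocks `κ' ≠ κ` give zeros (the number of zeros agrees since `P x m` and `N x m`
have the same length, by the last condition of `hcorr`); the columns for `κ` and `x' ≠ x` have the same entries
`P x' m (x)` and `N x' m (x)`; those for `κ` and `x`: `m, -m, P x m (x)` is a permutation of `0, 0, N x m (x)`.
So `L₁` and `L₂` agree row by row up to permutation, the members of `L₂` are `Bal` by (2) (and `Bal.zero`), and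
`Bal.transfer` gives the claim.
-/

namespace Vale.Agent.Lib.P058

private theorem bal_of_mem {J : Type} {V : Set (J → ℝ)} {M : List (J → ℝ)}
    (hM : ∀ c ∈ M, c ∈ V) (hb : Balanced M) {c : J → ℝ} (hc : c ∈ M) : Bal V c := by
  obtain ⟨s, t, rfl⟩ := List.append_of_mem hc
  refine ⟨s ++ t, fun d hd => hM d ?_, hb.perm List.perm_middle⟩
  rcases List.mem_append.1 hd with hd | hd
  · exact List.mem_append_left _ hd
  · exact List.mem_append_right _ (List.mem_cons_of_mem _ hd)

private theorem univ_toList_perm {α : Type} [Fintype α] (e : Equiv.Perm α) :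
    ((Finset.univ : Finset α).toList.map e).Perm (Finset.univ : Finset α).toList := by
  refine (List.perm_ext_iff_of_nodup ?_ (Finset.nodup_toList _)).2 (fun a => ?_)
  · exact (List.nodup_map_iff e.injective).2 (Finset.nodup_toList _)
  · simp only [List.mem_map, Finset.mem_toList, Finset.mem_univ, true_and, iff_true]
    exact ⟨e.symm a, e.apply_symm_apply a⟩

private theorem bal_x {B X : Type} [Fintype X] [DecidableEq X]
    (V : Set (B × X → ℝ)) (hcl : ∀ f : X → ℝ, (fun r : B × X => f r.2) ∈ V) (f : X → ℝ) :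
    Bal V (fun r : B × X => f r.2) := by
  classical
  set M : List (B × X → ℝ) :=
    (Finset.univ : Finset (Equiv.Perm X)).toList.map (fun σ => fun r : B × X => f (σ r.2)) with hM
  have h1 : ∀ c ∈ M, c ∈ V := by
    intro c hc
    rw [hM] at hc
    obtain ⟨σ, -, rfl⟩ := List.mem_map.1 hc
    exact hcl (fun x => f (σ x))
  have h2 : Balanced M := by
    intro r r'
    have h3 := (univ_toList_perm (Equiv.mulRight (Equiv.swap r.2 r'.2))).map
      (fun σ : Equiv.Perm X => f (σ r.2))
    rw [List.map_map] at h3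
    have h4 : ((fun σ : Equiv.Perm X => f (σ r.2)) ∘ ⇑(Equiv.mulRight (Equiv.swap r.2 r'.2))) =
        fun σ : Equiv.Perm X => f (σ r'.2) := by
      funext σ
      simp [Equiv.swap_apply_left]
    rw [h4] at h3
    rw [hM, List.map_map, List.map_map]
    exact h3.symm
  refine bal_of_mem h1 h2 ?_
  rw [hM]
  exact List.mem_map.2 ⟨1, by simp, by simp⟩

theorem bal_class {K Γ X : Type} [Fintype X] [DecidableEq X] [Nonempty K] [Nonempty Γ]
    (V : Submodule ℝ ((K × Γ) × X → ℝ)) (hcl : ∀ f : X → ℝ, (fun r : (K × Γ) × X => f r.2) ∈ V)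
    (L : List ((K × Γ) × X → ℝ)) (hL : ∀ c ∈ L, c ∈ V)
    (h : ∀ (x : X) (b b' : K × Γ), (L.map (fun c => c (b, x))).Perm (L.map (fun c => c (b', x)))) :
    ∀ c ∈ L, Bal (V : Set ((K × Γ) × X → ℝ)) c := by
  obtain ⟨κ₀⟩ := (inferInstance : Nonempty K)
  obtain ⟨γ₀⟩ := (inferInstance : Nonempty Γ)
  refine Bal.transfer (L₂ := L.map (fun c => fun r : (K × Γ) × X => c ((κ₀, γ₀), r.2)))
    (fun c hc => hL c hc) ?_ ?_
  · intro c hc
    obtain ⟨d, -, rfl⟩ := List.mem_map.1 hc
    exact bal_x (V : Set ((K × Γ) × X → ℝ)) hcl (fun x => d ((κ₀, γ₀), x))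
  · intro r
    rw [List.map_map]
    exact h r.2 r.1 (κ₀, γ₀)

private theorem coe_flatMap {α β : Type} (l : List α) (F : α → List β) :
    ((l.flatMap F : List β) : Multiset β) = (l.map (fun a => (F a : Multiset β))).sum := by
  induction l with
  | nil => simp
  | cons a l ih => rw [List.flatMap_cons, List.map_cons, List.sum_cons, ← ih, Multiset.coe_add]

private theorem coe_map_single {α β : Type} (l : List α) (F : α → β) :
    ((l.map F : List β) : Multiset β) = (l.map (fun a => ({F a} : Multiset β))).sum := by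
  induction l with
  | nil => simp
  | cons a l ih =>
    rw [List.map_cons, List.map_cons, List.sum_cons, ← ih]
    rfl

/-- the list of the correction columns -/
private noncomputable def corrL {K Γ X : Type} [Fintype K] [DecidableEq K] [Fintype X]
    (L : List ((K × Γ) × X → ℝ)) (γ₀ : Γ) (P : X → ℝ → List (X → ℝ)) :
    List ((K × Γ) × X → ℝ) :=
  (Finset.univ : Finset K).toList.flatMap (fun κ =>
    (Finset.univ : Finset X).toList.flatMap (fun x =>
      L.flatMap (fun c => (P x (c ((κ, γ₀), x))).map
        (fun f => fun r : (K × Γ) × X => if r.1.1 = κ then f r.2 else 0))))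

private theorem mem_corrL {K Γ X : Type} [Fintype K] [DecidableEq K] [Fintype X]
    {L : List ((K × Γ) × X → ℝ)} {γ₀ : Γ} {P : X → ℝ → List (X → ℝ)}
    {d : (K × Γ) × X → ℝ} (hd : d ∈ corrL L γ₀ P) :
    ∃ (κ : K) (x : X) (m : ℝ), ∃ f ∈ P x m,
      d = fun r : (K × Γ) × X => if r.1.1 = κ then f r.2 else 0 := by
  unfold corrL at hd
  obtain ⟨κ, -, hd⟩ := List.mem_flatMap.1 hd
  obtain ⟨x, -, hd⟩ := List.mem_flatMap.1 hd
  obtain ⟨c, -, hd⟩ := List.mem_flatMap.1 hd
  obtain ⟨f, hf, rfl⟩ := List.mem_map.1 hd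
  exact ⟨κ, x, _, f, hf, rfl⟩

private theorem row_corrL {K Γ X : Type} [Fintype K] [DecidableEq K] [Fintype X]
    (L : List ((K × Γ) × X → ℝ)) (γ₀ : Γ) (P : X → ℝ → List (X → ℝ)) (r : (K × Γ) × X) :
    (((corrL L γ₀ P).map (fun d => d r) : List ℝ) : Multiset ℝ) =
      ∑ κ : K, ∑ x : X, (L.map (fun c => (((P x (c ((κ, γ₀), x))).map
        (fun f => if r.1.1 = κ then f r.2 else 0) : List ℝ) : Multiset ℝ))).sum := by
  unfold corrL
  rw [List.map_flatMap, coe_flatMap, Finset.sum_map_toList]
  refine Finset.sum_congr rfl (fun κ _ => ?_)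
  rw [List.map_flatMap, coe_flatMap, Finset.sum_map_toList]
  refine Finset.sum_congr rfl (fun x _ => ?_)
  rw [List.map_flatMap, coe_flatMap]
  congr 1
  refine List.map_congr_left (fun c _ => ?_)
  rw [List.map_map]
  rfl

theorem bal_of_bcb {K Γ X : Type} [Fintype K] [DecidableEq K] [Fintype X] [DecidableEq X]
    [Nonempty K] [Nonempty Γ]
    (V : Submodule ℝ ((K × Γ) × X → ℝ)) (hcl : ∀ f : X → ℝ, (fun r : (K × Γ) × X => f r.2) ∈ V)
    (Loc : Set (X → ℝ))
    (hloc : ∀ f ∈ Loc, ∀ κ, (fun r : (K × Γ) × X => if r.1.1 = κ then f r.2 else 0) ∈ V)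
    (hcorr : ∀ (x : X) (m : ℝ), ∃ P N : List (X → ℝ), (∀ f ∈ P ++ N, f ∈ Loc) ∧
      (∀ y, y ≠ x → (P.map (fun f => f y)).Perm (N.map (fun f => f y))) ∧
      (m :: (-m) :: P.map (fun f => f x)).Perm (0 :: 0 :: N.map (fun f => f x)))
    (L : List ((K × Γ) × X → ℝ)) (hL : ∀ c ∈ L, c ∈ V)
    (hbcb : ∀ κ x γ γ', (L.map (fun c => c ((κ, γ), x))).Perm (L.map (fun c => c ((κ, γ'), x)))) :
    ∀ c ∈ L, Bal (V : Set ((K × Γ) × X → ℝ)) c := by
  classical
  -- (2) local columns
  have hbl : ∀ f ∈ Loc, ∀ κ, Bal (V : Set ((K × Γ) × X → ℝ))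
      (fun r : (K × Γ) × X => if r.1.1 = κ then f r.2 else 0) := by
    intro f hf κ
    refine bal_class V hcl ((Finset.univ : Finset K).toList.map
      (fun κ' => fun r : (K × Γ) × X => if r.1.1 = κ' then f r.2 else 0)) ?_ ?_ _ ?_
    · intro c hc
      obtain ⟨κ', -, rfl⟩ := List.mem_map.1 hc
      exact hloc f hf κ'
    · intro x b b'
      rw [List.map_map, List.map_map]
      have h3 := (univ_toList_perm (Equiv.swap b.1 b'.1)).map
        (fun κ' : K => if b'.1 = κ' then f x else 0)
      rw [List.map_map] at h3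
      have h4 : ((fun κ' : K => if b'.1 = κ' then f x else 0) ∘ ⇑(Equiv.swap b.1 b'.1)) =
          fun κ' : K => if b.1 = κ' then f x else 0 := by
        funext κ'
        have h5 : (b'.1 = Equiv.swap b.1 b'.1 κ') ↔ (b.1 = κ') := by
          constructor
          · intro h6
            have h7 := congrArg (Equiv.swap b.1 b'.1) h6
            rw [Equiv.swap_apply_right, Equiv.swap_apply_self] at h7
            exact h7
          · rintro rfl
            rw [Equiv.swap_apply_left]
        simp only [Function.comp_apply, h5]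
      rw [h4] at h3
      exact h3
    · exact List.mem_map.2 ⟨κ, by simp, rfl⟩
  obtain ⟨γ₀⟩ := (inferInstance : Nonempty Γ)
  choose P N hPN using hcorr
  have hlen : ∀ x m, (P x m).length = (N x m).length := by
    intro x m
    have := (hPN x m).2.2.length_eq
    simpa using this
  intro c₀ hc₀
  refine Bal.transfer (V := (V : Set ((K × Γ) × X → ℝ)))
    (L₁ := (L ++ L.map (fun c => -c)) ++ corrL L γ₀ P)
    (L₂ := (L.map (fun _ => (0 : (K × Γ) × X → ℝ)) ++ L.map (fun _ => (0 : (K × Γ) × X → ℝ))) ++
      corrL L γ₀ N) ?_ ?_ ?_ c₀ (List.mem_append_left _ (List.mem_append_left _ hc₀))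
  · intro c hc
    rcases List.mem_append.1 hc with hc | hc
    · rcases List.mem_append.1 hc with hc | hc
      · exact hL c hc
      · obtain ⟨d, hd, rfl⟩ := List.mem_map.1 hc
        exact V.neg_mem (hL d hd)
    · obtain ⟨κ, x, m, f, hf, rfl⟩ := mem_corrL hc
      exact hloc f ((hPN x m).1 f (List.mem_append_left _ hf)) κ
  · intro c hc
    rcases List.mem_append.1 hc with hc | hc
    · rcases List.mem_append.1 hc with hc | hc
      · obtain ⟨d, -, rfl⟩ := List.mem_map.1 hc
        exact Bal.zero _
      · obtain ⟨d, -, rfl⟩ := List.mem_map.1 hc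
        exact Bal.zero _
    · obtain ⟨κ, x, m, f, hf, rfl⟩ := mem_corrL hc
      exact hbl f ((hPN x m).1 f (List.mem_append_right _ hf)) κ
  · rintro ⟨⟨κ, γ⟩, x⟩
    rw [← Multiset.coe_eq_coe, List.map_append, List.map_append, List.map_append, List.map_append,
      ← Multiset.coe_add, ← Multiset.coe_add, ← Multiset.coe_add, ← Multiset.coe_add, row_corrL,
      row_corrL]
    rw [← Finset.add_sum_erase _ _ (Finset.mem_univ κ),
      ← Finset.add_sum_erase (s := Finset.univ)
        (f := fun κ' : K => ∑ x' : X, (L.map (fun c => (((N x' (c ((κ', γ₀), x'))).map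
        (fun f => if κ = κ' then f x else 0) : List ℝ) : Multiset ℝ))).sum) (Finset.mem_univ κ),
      ← add_assoc, ← add_assoc]
    congr 1
    · -- the block itself
      rw [← Finset.add_sum_erase _ _ (Finset.mem_univ x),
        ← Finset.add_sum_erase (s := Finset.univ)
        (f := fun x' : X => (L.map (fun c => (((N x' (c ((κ, γ₀), x'))).map
        (fun f => if κ = κ then f x else 0) : List ℝ) : Multiset ℝ))).sum) (Finset.mem_univ x),
        ← add_assoc, ← add_assoc]
      congr 1
      · have e1 : ((L.map (fun c => c ((κ, γ), x)) : List ℝ) : Multiset ℝ) =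
            ((L.map (fun c => c ((κ, γ₀), x)) : List ℝ) : Multiset ℝ) :=
          Multiset.coe_eq_coe.2 (hbcb κ x γ γ₀)
        have e2 : (((L.map (fun c => -c)).map (fun c => c ((κ, γ), x)) : List ℝ) : Multiset ℝ) =
            ((L.map (fun c => -(c ((κ, γ₀), x))) : List ℝ) : Multiset ℝ) := by
          refine Multiset.coe_eq_coe.2 ?_
          have h5 := (hbcb κ x γ γ₀).map (fun t : ℝ => -t)
          rw [List.map_map, List.map_map] at h5
          rw [List.map_map]
          exact h5
        rw [e1, e2, coe_map_single, coe_map_single, List.map_map, coe_map_single,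
          ← List.sum_map_add, ← List.sum_map_add, ← List.sum_map_add, ← List.sum_map_add]
        congr 1
        refine List.map_congr_left (fun c _ => ?_)
        have h6 := Multiset.coe_eq_coe.2 (hPN x (c ((κ, γ₀), x))).2.2
        simp only [if_true]
        rw [← Multiset.cons_coe, ← Multiset.cons_coe, ← Multiset.cons_coe, ← Multiset.cons_coe] at h6
        rw [← Multiset.singleton_add, ← Multiset.singleton_add, ← Multiset.singleton_add,
          ← Multiset.singleton_add, ← add_assoc, ← add_assoc] at h6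
        exact h6
      · refine Finset.sum_congr rfl (fun x' hx' => ?_)
        congr 1
        refine List.map_congr_left (fun c _ => ?_)
        simp only [if_true]
        exact Multiset.coe_eq_coe.2 ((hPN x' (c ((κ, γ₀), x'))).2.1 x
          (Ne.symm (Finset.ne_of_mem_erase hx')))
    · refine Finset.sum_congr rfl (fun κ' hκ' => ?_)
      have hne : κ ≠ κ' := Ne.symm (Finset.ne_of_mem_erase hκ')
      refine Finset.sum_congr rfl (fun x' _ => ?_)
      congr 1
      refine List.map_congr_left (fun c _ => ?_)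
      simp only [if_neg hne, List.map_const', hlen]

end Vale.Agent.Lib.P058
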