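import Vale.Agent.Lib.P058C.SDef

/-!
# P058C, module BalCalc: calculus of balanced lists

`Bal.transfer`: let `c ∈ L₁`; `L₁ ~ c :: L₁'`.  For every `d ∈ L₂` choose `M d` with `d :: M d` balanced.
The list `L₁' ++ L₂.flatMap M` works: in every row `c :: L₁' ++ L₂.flatMap M` is a permutation of
`L₂ ++ L₂.flatMap M`, i.e. of the concatenation of the balanced lists `d :: M d`.
`Bal.add`: for balanced `L ∋ c`, `L' ∋ c'` the list of all `a + a'` (`a ∈ L`, `a' ∈ L'`) is balanced.
`conv_gram`: cross terms `∑ tp (a i) (a' j) = tp (∑ a i) (∑ a' j)` are constant, since the sum of the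
columns of a balanced list is a constant column.
`Bal.split`: `c₁ + c₂` with disjoint supports: in each row `{c₁, c₂}` is a permutation of
`{c₁ + c₂, 0}`; transfer.
-/

namespace Vale.Agent.Lib.P058

variable {J J' : Type}

theorem Balanced.append {L L' : List (J → ℝ)} (h : Balanced L) (h' : Balanced L') :
    Balanced (L ++ L') := by
  intro i j
  rw [List.map_append, List.map_append]
  exact (h i j).append (h' i j)

theorem Balanced.cancel {L L' : List (J → ℝ)} (h : Balanced (L ++ L')) (h' : Balanced L) :
    Balanced L' := by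
  classical
  intro i j
  have h1 := h i j
  rw [List.map_append, List.map_append] at h1
  have h2 := h' i j
  rw [List.perm_iff_count] at h1 h2 ⊢
  intro x
  have e1 := h1 x
  have e2 := h2 x
  rw [List.count_append, List.count_append] at e1
  omega

theorem Balanced.perm {L L' : List (J → ℝ)} (h : Balanced L) (h' : L.Perm L') : Balanced L' :=
  fun i j => ((h'.map _).symm.trans (h i j)).trans (h'.map _)

theorem Balanced.smul {L : List (J → ℝ)} (h : Balanced L) (t : ℝ) :
    Balanced (L.map (fun c => t • c)) := by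
  intro i j
  have := (h i j).map (fun x => t * x)
  simpa [List.map_map, Function.comp_def] using this

/-- all sums -/
noncomputable def convL (L L' : List (J → ℝ)) : List (J → ℝ) :=
  L.flatMap (fun a => L'.map (fun a' => a + a'))

theorem convL_row (L L' : List (J → ℝ)) (i : J) :
    (convL L L').map (fun c => c i) =
      (L.map (fun c => c i)).flatMap (fun x => (L'.map (fun c => c i)).map (fun y => x + y)) := by
  induction L with
  | nil => simp [convL]
  | cons a L ih =>
    unfold convL at ih ⊢
    rw [List.flatMap_cons, List.map_append, ih, List.map_cons, List.flatMap_cons]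
    simp [List.map_map, Function.comp_def]

theorem Balanced.conv {L L' : List (J → ℝ)} (h : Balanced L) (h' : Balanced L') :
    Balanced (convL L L') := by
  intro i j
  rw [convL_row, convL_row]
  exact (h i j).flatMap (fun x _ => (h' i j).map _)

theorem smul_gram (L : List (J → ℝ)) (t : ℝ) (i j : J) :
    ((L.map (fun c => t • c)).map Gc).sum i j = tp t t * (L.map Gc).sum i j := by
  induction L with
  | nil => simp
  | cons a L ih =>
    simp only [List.map_cons, List.sum_cons, Pi.add_apply, ih, mul_add]
    congr 1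
    simp only [Gc, Pi.smul_apply, smul_eq_mul]
    rw [tp_mul_tp]

theorem sum_row (L : List (J → ℝ)) (i : J) : L.sum i = (L.map (fun c => c i)).sum := by
  induction L with
  | nil => simp
  | cons a L ih => simp [ih]

theorem Gc_add (a a' : J → ℝ) (i j : J) :
    Gc (a + a') i j = Gc a i j + Gc a' i j + (tp (a i) (a' j) + tp (a' i) (a j)) := by
  simp only [Gc, Pi.add_apply, tp_add_left, tp_add_right]
  ring

theorem conv_gram_aux (L L' : List (J → ℝ)) (i j : J) :
    ((convL L L').map Gc).sum i j =
      (L'.length : TT) * (L.map Gc).sum i j + (L.length : TT) * (L'.map Gc).sum i j +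
        (tp (L.sum i) (L'.sum j) + tp (L'.sum i) (L.sum j)) := by
  induction L with
  | nil => simp [convL]
  | cons a L ih =>
    have h1 : ∀ M : List (J → ℝ), ((M.map (fun a' => a + a')).map Gc).sum i j =
        (M.length : TT) * Gc a i j + (M.map Gc).sum i j +
          (tp (a i) (M.sum j) + tp (M.sum i) (a j)) := by
      intro M
      induction M with
      | nil => simp
      | cons b M ihM =>
        simp only [List.map_cons, List.sum_cons, Pi.add_apply, ihM, Gc_add, List.length_cons,
          tp_add_left, tp_add_right]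
        push_cast
        ring
    have h2 : convL (a :: L) L' = L'.map (fun a' => a + a') ++ convL L L' := by
      unfold convL
      rw [List.flatMap_cons]
    rw [h2, List.map_append, List.sum_append, Pi.add_apply, Pi.add_apply, h1, ih]
    simp only [List.map_cons, List.sum_cons, Pi.add_apply, List.length_cons, tp_add_left,
      tp_add_right]
    push_cast
    ring

theorem conv_gram {L L' : List (J → ℝ)} (h : Balanced L) (h' : Balanced L') :
    ∃ s : TT, ∀ i j, ((convL L L').map Gc).sum i j =
      (L'.length : TT) * (L.map Gc).sum i j + (L.length : TT) * (L'.map Gc).sum i j + s := by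
  rcases isEmpty_or_nonempty J with hJ | ⟨⟨k⟩⟩
  · exact ⟨0, fun i => (hJ.false i).elim⟩
  · refine ⟨tp (L.sum k) (L'.sum k) + tp (L'.sum k) (L.sum k), fun i j => ?_⟩
    have e : ∀ i j, L.sum i = L.sum j := fun i j => by
      rw [sum_row, sum_row]; exact (h i j).sum_eq
    have e' : ∀ i j, L'.sum i = L'.sum j := fun i j => by
      rw [sum_row, sum_row]; exact (h' i j).sum_eq
    rw [conv_gram_aux, e i k, e j k, e' i k, e' j k]

theorem Bal.zero (V : Set (J → ℝ)) : Bal V 0 := ⟨[], by simp, fun i j => by simp⟩

theorem Bal.smul {V : Submodule ℝ (J → ℝ)} {c : J → ℝ} (h : Bal (V : Set (J → ℝ)) c) (t : ℝ) :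
    Bal (V : Set (J → ℝ)) (t • c) := by
  obtain ⟨L, hL, hb⟩ := h
  refine ⟨L.map (fun c => t • c), ?_, ?_⟩
  · intro c' hc'
    obtain ⟨d, hd, rfl⟩ := List.mem_map.1 hc'
    exact V.smul_mem t (hL d hd)
  · have := hb.smul t
    simpa using this

theorem Bal.add {V : Submodule ℝ (J → ℝ)} {c c' : J → ℝ} (hc : c ∈ V) (hc' : c' ∈ V)
    (h : Bal (V : Set (J → ℝ)) c)
    (h' : Bal (V : Set (J → ℝ)) c') : Bal (V : Set (J → ℝ)) (c + c') := by
  obtain ⟨L, hL, hb⟩ := h
  obtain ⟨L', hL', hb'⟩ := h'
  refine ⟨L'.map (fun a' => c + a') ++ convL L (c' :: L'), ?_, ?_⟩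
  · intro d hd
    rcases List.mem_append.1 hd with hd | hd
    · obtain ⟨a', ha', rfl⟩ := List.mem_map.1 hd
      exact V.add_mem hc (hL' a' ha')
    · unfold convL at hd
      obtain ⟨a, ha, hd⟩ := List.mem_flatMap.1 hd
      obtain ⟨a', ha', rfl⟩ := List.mem_map.1 hd
      refine V.add_mem (hL a ha) ?_
      rcases List.mem_cons.1 ha' with rfl | ha'
      · exact hc'
      · exact hL' a' ha'
  · have := hb.conv hb'
    unfold convL at this
    rw [List.flatMap_cons, List.map_cons] at this
    exact this

theorem Balanced.flatMap {L : List (J → ℝ)} {M : (J → ℝ) → List (J → ℝ)}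
    (h : ∀ d ∈ L, Balanced (M d)) : Balanced (L.flatMap M) := by
  induction L with
  | nil => intro i j; simp
  | cons a L ih =>
    rw [List.flatMap_cons]
    exact (h a (by simp)).append (ih (fun d hd => h d (List.mem_cons_of_mem _ hd)))

theorem flatMap_cons_perm (L : List (J → ℝ)) (M : (J → ℝ) → List (J → ℝ)) :
    (L.flatMap (fun d => d :: M d)).Perm (L ++ L.flatMap M) := by
  induction L with
  | nil => simp
  | cons a L ih =>
    rw [List.flatMap_cons, List.flatMap_cons, List.cons_append, List.cons_append]
    refine List.Perm.cons a ?_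
    refine (ih.append_left (M a)).trans ?_
    rw [← List.append_assoc, ← List.append_assoc]
    exact List.perm_append_comm.append_right _

/-- row by row permutations -/
theorem Bal.transfer {V : Set (J → ℝ)} {L₁ L₂ : List (J → ℝ)} (h₁ : ∀ c ∈ L₁, c ∈ V)
    (h₂ : ∀ c ∈ L₂, Bal V c)
    (h : ∀ j, (L₁.map (fun c => c j)).Perm (L₂.map (fun c => c j))) :
    ∀ c ∈ L₁, Bal V c := by
  classical
  intro c hc
  obtain ⟨s, t, rfl⟩ := List.append_of_mem hc
  have hex : ∀ d : J → ℝ, ∃ M : List (J → ℝ), d ∈ L₂ → (∀ c' ∈ M, c' ∈ V) ∧ Balanced (d :: M) := by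
    intro d
    by_cases hd : d ∈ L₂
    · obtain ⟨M, hM⟩ := h₂ d hd
      exact ⟨M, fun _ => hM⟩
    · exact ⟨[], fun hd' => (hd hd').elim⟩
  choose M hM using hex
  refine ⟨(s ++ t) ++ L₂.flatMap M, ?_, ?_⟩
  · intro d hd
    rcases List.mem_append.1 hd with hd | hd
    · refine h₁ d ?_
      rcases List.mem_append.1 hd with hd | hd
      · exact List.mem_append_left _ hd
      · exact List.mem_append_right _ (List.mem_cons_of_mem _ hd)
    · obtain ⟨e, he, hd⟩ := List.mem_flatMap.1 hd
      exact (hM e he).1 d hd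
  · have hb : Balanced (L₂.flatMap (fun d => d :: M d)) :=
      Balanced.flatMap (fun d hd => (hM d hd).2)
    have key : ∀ i, ((c :: ((s ++ t) ++ L₂.flatMap M)).map (fun c => c i)).Perm
        ((L₂.flatMap (fun d => d :: M d)).map (fun c => c i)) := by
      intro i
      have p1 : (c :: ((s ++ t) ++ L₂.flatMap M)).Perm ((s ++ c :: t) ++ L₂.flatMap M) := by
        rw [← List.cons_append]
        exact List.Perm.append_right _ List.perm_middle.symm
      refine (p1.map _).trans ?_
      refine List.Perm.trans ?_ ((flatMap_cons_perm L₂ M).symm.map _)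
      rw [List.map_append (l₁ := s ++ c :: t), List.map_append (l₁ := L₂)]
      exact (h i).append_right _
    intro i j
    exact ((key i).trans (hb i j)).trans (key j).symm

theorem Bal.comap {V : Set (J → ℝ)} {V' : Set (J' → ℝ)} (f : J' → J)
    (hf : ∀ c ∈ V, (fun j => c (f j)) ∈ V') {c : J → ℝ} (h : Bal V c) :
    Bal V' (fun j => c (f j)) := by
  obtain ⟨L, hL, hb⟩ := h
  refine ⟨L.map (fun c j => c (f j)), ?_, ?_⟩
  · intro d hd
    obtain ⟨e, he, rfl⟩ := List.mem_map.1 hd
    exact hf e (hL e he)
  · intro i j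
    have := hb (f i) (f j)
    simpa [List.map_map, Function.comp_def] using this

theorem Bal.split {V : Set (J → ℝ)} {c₁ c₂ : J → ℝ} (h₁ : c₁ ∈ V) (h₂ : c₂ ∈ V)
    (hdis : ∀ j, c₁ j = 0 ∨ c₂ j = 0) (h : Bal V (c₁ + c₂)) : Bal V c₁ := by
  refine Bal.transfer (L₁ := [c₁, c₂]) (L₂ := [c₁ + c₂, 0]) ?_ ?_ ?_ c₁ (by simp)
  · intro c hc
    rcases List.mem_cons.1 hc with rfl | hc
    · exact h₁
    · rcases List.mem_cons.1 hc with rfl | hc
      · exact h₂
      · simp at hc
  · intro c hc
    rcases List.mem_cons.1 hc with rfl | hc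
    · exact h
    · rcases List.mem_cons.1 hc with rfl | hc
      · exact Bal.zero V
      · simp at hc
  · intro j
    rcases hdis j with hj | hj
    · simp only [List.map_cons, List.map_nil, Pi.add_apply, Pi.zero_apply, hj, zero_add]
      exact List.Perm.swap _ _ _
    · simp [hj]

end Vale.Agent.Lib.P058
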