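import Vale.Agent.Lib.P058C.SDef

/-!
# P058C, module InGB: elementary facts on `InG`

Compare module `P058/Basic.lean`, where the same is done for `InP`.

`InG.exists_list`: induction (`const`: empty list, `col`: `[c]`, `mul`: append).
`InG.balanced`: if the product is constant then `∑_{c ∈ cs} φ (c i)` does not depend on `i` for all
`φ : ℝ → ℝ`; with `φ` = indicator of a letter, the counts agree (`List.perm_iff_count`).
`exc_list`: combine.
`Un.exists_list`: `colF c` times its inverse is the constant `1`.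
-/

namespace Vale.Agent.Lib.P058

variable {J J' : Type}

theorem InG.of_eq {V : Set (J → ℝ)} {v v' : J → FreeGroup ℝ} {G G' : J → J → TT}
    (h : InG V v G) (hv : v = v') (hG : G = G') : InG V v' G' := by
  subst hv; subst hG; exact h

theorem InG.mono {V V' : Set (J → ℝ)} (hV : V ⊆ V') {v : J → FreeGroup ℝ} {G : J → J → TT}
    (h : InG V v G) : InG V' v G := by
  induction h with
  | const b => exact InG.const b
  | col c hc => exact InG.col c (hV hc)
  | mul _ _ ih ih' => exact InG.mul ih ih'

/-- re-indexing the rows -/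
theorem InG.comap {V : Set (J → ℝ)} {V' : Set (J' → ℝ)} (f : J' → J)
    (hf : ∀ c ∈ V, (fun j => c (f j)) ∈ V') {v : J → FreeGroup ℝ} {G : J → J → TT}
    (h : InG V v G) : InG V' (fun j => v (f j)) (fun i j => G (f i) (f j)) := by
  induction h with
  | const b => exact InG.const b
  | col c hc => exact InG.col _ (hf c hc)
  | mul _ _ ih ih' => exact InG.mul ih ih'

theorem InG.exists_list {V : Set (J → ℝ)} {v : J → FreeGroup ℝ} {G : J → J → TT}
    (h : InG V v G) : ∃ cs : List (J → ℝ), (∀ c ∈ cs, c ∈ V) ∧ G = (cs.map Gc).sum ∧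
      ∀ (φ : ℝ → ℝ) (i j : J), homL φ (v i) - homL φ (v j) =
        (cs.map (fun c => φ (c i))).sum - (cs.map (fun c => φ (c j))).sum := by
  induction h with
  | const b => exact ⟨[], by simp, by simp, by simp⟩
  | col c hc => exact ⟨[c], by simpa using hc, by simp, by simp [colF]⟩
  | mul _ _ ih ih' =>
    obtain ⟨L, h1, h2, h3⟩ := ih
    obtain ⟨L', h1', h2', h3'⟩ := ih'
    refine ⟨L ++ L', ?_, ?_, ?_⟩
    · intro c hc
      rcases List.mem_append.1 hc with h | h
      · exact h1 c h
      · exact h1' c h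
    · rw [h2, h2', List.map_append, List.sum_append]
    · intro φ i j
      have e1 := h3 φ i j
      have e2 := h3' φ i j
      simp only [List.map_append, List.sum_append, Pi.mul_apply, homL_mul]
      linarith

theorem exc_list {V : Set (J → ℝ)} {G : J → J → TT} (h : Exc V G) :
    ∃ (cs : List (J → ℝ)) (s : TT), (∀ c ∈ cs, c ∈ V) ∧ Balanced cs ∧
      ∀ i j, (cs.map Gc).sum i j = G i j + s := by
  obtain ⟨b, s, hb⟩ := h
  obtain ⟨cs, h1, h2, h3⟩ := hb.exists_list
  refine ⟨cs, s, h1, balanced_of_sums (fun φ i j => ?_), fun i j => ?_⟩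
  · have h4 := h3 φ i j
    linarith
  · rw [← h2]

theorem Un.exists_list {V : Set (J → ℝ)} {c : J → ℝ} (hc : c ∈ V) (h : Un V c) :
    ∃ cs : List (J → ℝ), (∀ c' ∈ cs, c' ∈ V) ∧ Balanced (c :: cs) ∧
      Exc V ((c :: cs).map Gc).sum := by
  obtain ⟨G, hG⟩ := h
  obtain ⟨cs, h1, h2, h3⟩ := hG.exists_list
  refine ⟨cs, h1, balanced_of_sums ?_, 1, 0, ?_⟩
  · intro φ i j
    have h4 := h3 φ i j
    simp only [homL_inv, homL_of] at h4
    simp only [List.map_cons, List.sum_cons]
    linarith
  · refine (InG.mul (InG.col c hc) hG).of_eq ?_ ?_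
    · funext j
      simp [colF]
    · funext i j
      simp [h2]

theorem Un.comap {V : Set (J → ℝ)} {V' : Set (J' → ℝ)} (f : J' → J)
    (hf : ∀ c ∈ V, (fun j => c (f j)) ∈ V') {c : J → ℝ} (h : Un V c) :
    Un V' (fun j => c (f j)) := by
  obtain ⟨G, hG⟩ := h
  exact ⟨_, hG.comap f hf⟩

/-- the diagonal of a sum of a balanced list is constant -/
theorem Balanced.diag {L : List (J → ℝ)} (h : Balanced L) (i j : J) :
    (L.map Gc).sum i i = (L.map Gc).sum j j := by
  have key : ∀ (M : List (J → ℝ)) (k : J),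
      (M.map Gc).sum k k = ((M.map (fun c => c k)).map (fun x => tp x x)).sum := by
    intro M k
    induction M with
    | nil => simp
    | cons c M ih =>
      simp only [List.map_cons, List.sum_cons, Pi.add_apply, ih]
      rfl
  rw [key, key]
  exact ((h i j).map _).sum_eq

end Vale.Agent.Lib.P058
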