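import Vale.Agent.Lib.P058C.SysDef
import Vale.Agent.Lib.P058C.InGB
import Vale.Agent.Lib.P058.S0

/-!
# P058C, module Base: the columns of `A` and the system of level `0`

`colA a` is the space of the functions `i ↦ ⟪w, a i⟫`.

`goodRows_top`: rows `X`, all functions are columns.  `Bal`: the list of all `c ∘ σ`, `σ : Equiv.Perm X`, is
balanced (it contains `c`).  `Un`: the monoid `{v | ∃ G, InG Set.univ v G}` is stable under permutations, so under
inverses (`inv_mem_of_perm`, module S0).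
`base_sys`: `Γ = Unit`, `v () i = a i`, `s = 0`, `V` = the columns.  For `ξ : X → I` as in the statement `resV T.V ξ = ⊤`.
`Ded r univ`: all points have the colour `k₀`; `g i = ((), i)`; `SForm.dist_sq`.
-/

namespace Vale.Agent.Lib.P058

/-- the functions `i ↦ ⟪w, a i⟫` -/
noncomputable def colA {I ι : Type} [Fintype ι] (a : I → EuclideanSpace ℝ ι) :
    Submodule ℝ (I → ℝ) where
  carrier := {f | ∃ w : EuclideanSpace ℝ ι, ∀ i, f i = inner ℝ w (a i)}
  add_mem' := by
    rintro f g ⟨w, hw⟩ ⟨w', hw'⟩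
    exact ⟨w + w', fun i => by rw [inner_add_left, Pi.add_apply, hw, hw']⟩
  zero_mem' := ⟨0, fun i => by rw [inner_zero_left, Pi.zero_apply]⟩
  smul_mem' := by
    rintro r f ⟨w, hw⟩
    exact ⟨r • w, fun i => by
      rw [real_inner_smul_left, Pi.smul_apply, hw, smul_eq_mul]⟩

theorem mem_colA {I ι : Type} [Fintype ι] {a : I → EuclideanSpace ℝ ι} {f : I → ℝ} :
    f ∈ colA a ↔ ∃ w : EuclideanSpace ℝ ι, ∀ i, f i = inner ℝ w (a i) := Iff.rfl

theorem goodRows_top {X : Type} [Finite X] (V : Submodule ℝ (X → ℝ)) (hV : V = ⊤) :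
    GoodRows V := by
  sorry

theorem base_sys {I ι : Type} [Fintype ι] (β : SForm (EuclideanSpace ℝ ι))
    (a : I → EuclideanSpace ℝ ι) :
    ∃ T : Sys (fun i j => β.B (a i) (a j)) (colA a), (∀ r, T.Ded r Set.univ) ∧
      ∀ (X : Type) [Fintype X] (ξ : X → I), (∀ f : X → ℝ, ∃ g ∈ colA a, ∀ x, g (ξ x) = f x) →
        GoodRows (resV T.V ξ) := by
  sorry

end Vale.Agent.Lib.P058
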