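import Mathlib

/-!
# P058C, module OrderUnit: separation from a cone with an order unit

PROOF.  If `ω` is not in the span of `C` take a linear `ψ` vanishing on the span with `ψ ω = -1`.
Otherwise `ω = c₁ - c₂` (`C - C` is the span) and for every `y` in the span there is `t > 0` with
`t • p + y ∈ C`.  `- p ∉ C` (else `C` would be its span, as `y = (t • p + y) + t • (-p)`, and `ω ∈ C`).
Let `T = {t : ℝ | t • p + ω ∈ C}`; it is nonempty, upward closed (`C + ℝ≥0 p ⊆ C`), and `t ∈ T` implies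
`0 < t` (else `ω = (t • p + ω) + (-t) • p ∈ C`).  `t₀ = sInf T ≥ 0`.
If `ω` is not a multiple of `p`, let `f (a p + b ω) = a - b t₀` on the plane; if `a p + b ω ∈ C` then
`f ≥ 0`: for `b > 0`, `a / b ∈ T`; for `b < 0` and `a < b t₀`, choose `t ∈ T` with `a + |b| t < 0`
(`t` close to `t₀`), then `(a p + b ω) + |b| (t p + ω) = (a + |b| t) p ∈ C`, contradiction with
`-p ∉ C`; `b = 0` clear.  If `ω = s p` then `s < 0` and take the line `ℝ p`, `f p = 1`.
Extend `f` by `riesz_extension` to the span of `C` (density: `t • p + y ∈ C`), and then linearly to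
`E` (`LinearMap.exists_extend`).  `ψ p = 1 > 0`, `ψ ω = - t₀ ≤ 0` (or `ψ ω = s < 0`).
-/

namespace Vale.Agent.Lib.P058

theorem exists_separating {E : Type} [AddCommGroup E] [Module ℝ E] (C : Set E) (h0 : (0 : E) ∈ C)
    (hadd : ∀ x ∈ C, ∀ y ∈ C, x + y ∈ C) (hsmul : ∀ x ∈ C, ∀ t : ℝ, 0 < t → t • x ∈ C)
    (p : E) (hp : p ∈ C) (hu : ∀ x ∈ C, ∃ t : ℝ, 0 < t ∧ t • p - x ∈ C) (ω : E) (hω : ω ∉ C) :
    ∃ ψ : E →ₗ[ℝ] ℝ, (∀ x ∈ C, 0 ≤ ψ x) ∧ (ψ ω < 0 ∨ (ψ ω ≤ 0 ∧ 0 < ψ p)) := by
  classical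
  by_cases hωV : ω ∈ Submodule.span ℝ C
  swap
  · obtain ⟨f, hf, hf0⟩ := Submodule.exists_dual_map_eq_bot_of_notMem hωV inferInstance
    refine ⟨(-(f ω)⁻¹) • f, fun x hx => ?_, Or.inl ?_⟩
    · have h1 : f x ∈ (Submodule.span ℝ C).map f :=
        Submodule.mem_map_of_mem (Submodule.subset_span hx)
      rw [hf0, Submodule.mem_bot] at h1
      simp [h1]
    · simp [hf]
  -- `π` is a projection onto the span
  obtain ⟨π, hπ⟩ := LinearMap.exists_extend (LinearMap.id : Submodule.span ℝ C →ₗ[ℝ] _)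
  have hπid : ∀ x (hx : x ∈ Submodule.span ℝ C), ((π x : Submodule.span ℝ C) : E) = x := by
    intro x hx
    have := LinearMap.congr_fun hπ ⟨x, hx⟩
    simpa using congrArg Subtype.val this
  -- order unit
  have hP : ∀ y ∈ Submodule.span ℝ C, (∃ t : ℝ, 0 < t ∧ t • p + y ∈ C) ∧
      (∃ t : ℝ, 0 < t ∧ t • p + -y ∈ C) := by
    intro y hy
    induction hy using Submodule.span_induction with
    | mem x hx =>
      refine ⟨⟨1, one_pos, hadd _ (hsmul p hp 1 one_pos) _ hx⟩, ?_⟩
      obtain ⟨t, ht, h⟩ := hu x hx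
      exact ⟨t, ht, by rwa [← sub_eq_add_neg]⟩
    | zero => exact ⟨⟨1, one_pos, by simpa using hp⟩, ⟨1, one_pos, by simpa using hp⟩⟩
    | add x y _ _ hx hy =>
      obtain ⟨⟨t1, ht1, h1⟩, ⟨t2, ht2, h2⟩⟩ := hx
      obtain ⟨⟨t3, ht3, h3⟩, ⟨t4, ht4, h4⟩⟩ := hy
      refine ⟨⟨t1 + t3, by positivity, ?_⟩, ⟨t2 + t4, by positivity, ?_⟩⟩
      · have := hadd _ h1 _ h3
        convert this using 1
        module
      · have := hadd _ h2 _ h4
        convert this using 1
        module
    | smul a x _ hx =>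
      obtain ⟨⟨t1, ht1, h1⟩, ⟨t2, ht2, h2⟩⟩ := hx
      rcases lt_trichotomy a 0 with ha | ha | ha
      · refine ⟨⟨-a * t2, by nlinarith, ?_⟩, ⟨-a * t1, by nlinarith, ?_⟩⟩
        · have := hsmul _ h2 (-a) (by linarith)
          convert this using 1
          module
        · have := hsmul _ h1 (-a) (by linarith)
          convert this using 1
          module
      · subst ha
        exact ⟨⟨1, one_pos, by simpa using hp⟩, ⟨1, one_pos, by simpa using hp⟩⟩
      · refine ⟨⟨a * t1, by positivity, ?_⟩, ⟨a * t2, by positivity, ?_⟩⟩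
        · have := hsmul _ h1 a ha
          convert this using 1
          module
        · have := hsmul _ h2 a ha
          convert this using 1
          module
  have hsmul0 : ∀ x ∈ C, ∀ t : ℝ, 0 ≤ t → t • x ∈ C := by
    intro x hx t ht
    rcases ht.eq_or_lt with h | h
    · rw [← h, zero_smul]; exact h0
    · exact hsmul x hx t h
  have hnp : -p ∉ C := by
    intro h
    obtain ⟨⟨t, ht, h1⟩, -⟩ := hP ω hωV
    apply hω
    have := hadd _ h1 _ (hsmul _ h t ht)
    convert this using 1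
    module
  set T : Set ℝ := {t : ℝ | t • p + ω ∈ C} with hT
  have hTpos : ∀ t ∈ T, 0 < t := by
    intro t ht
    by_contra hc
    apply hω
    have := hadd _ ht _ (hsmul0 p hp (-t) (by linarith))
    convert this using 1
    module
  have hTne : T.Nonempty := by
    obtain ⟨⟨t, ht, h1⟩, -⟩ := hP ω hωV
    exact ⟨t, h1⟩
  have hTbdd : BddBelow T := ⟨0, fun t ht => (hTpos t ht).le⟩
  set t0 : ℝ := sInf T with ht0
  have ht00 : 0 ≤ t0 := Real.sInf_nonneg fun t ht => (hTpos t ht).le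
  -- the enlarged cone
  let s : PointedCone ℝ E :=
    { carrier := {z : E | ∃ b : ℝ, 0 ≤ b ∧ ((π z : Submodule.span ℝ C) : E) + b • (ω + t0 • p) ∈ C}
      smul_mem' := by
        rintro c x ⟨b, hb, h⟩
        refine ⟨c * b, mul_nonneg c.2 hb, ?_⟩
        have := hsmul0 _ h c c.2
        have h2 : c • x = (c : ℝ) • x := rfl
        rw [h2, map_smul, Submodule.coe_smul]
        convert this using 1
        module
      zero_mem' := ⟨0, le_rfl, by simpa using h0⟩
      add_mem' := by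
        rintro x y ⟨b, hb, h⟩ ⟨b', hb', h'⟩
        refine ⟨b + b', by positivity, ?_⟩
        have := hadd _ h _ h'
        rw [map_add, Submodule.coe_add]
        convert this using 1
        module }
  have hsmem : ∀ z, z ∈ s ↔ ∃ b : ℝ, 0 ≤ b ∧
      ((π z : Submodule.span ℝ C) : E) + b • (ω + t0 • p) ∈ C := fun z => Iff.rfl
  have hpV : p ∈ Submodule.span ℝ C := Submodule.subset_span hp
  have hnps : -p ∉ s := by
    rw [hsmem]
    rintro ⟨b, hb, h⟩
    rw [hπid _ (neg_mem hpV)] at h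
    rcases hb.eq_or_lt with h2 | h2
    · rw [← h2] at h
      apply hnp
      simpa using h
    · have h3 := hsmul _ h b⁻¹ (inv_pos.2 h2)
      have h4 : (t0 - b⁻¹) ∈ T := by
        rw [hT]
        show (t0 - b⁻¹) • p + ω ∈ C
        convert h3 using 1
        rw [smul_add, smul_smul, inv_mul_cancel₀ h2.ne']
        module
      have h5 := csInf_le hTbdd h4
      have : 0 < b⁻¹ := inv_pos.2 h2
      linarith
  have hp0 : p ≠ 0 := by
    intro h
    apply hnp
    rw [h, neg_zero]; exact h0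
  obtain ⟨ψ, hψ1, hψ2⟩ := riesz_extension s (LinearPMap.mkSpanSingleton p (1 : ℝ) hp0)
    (by
      rintro ⟨x, hx⟩ hxs
      obtain ⟨a, rfl⟩ := Submodule.mem_span_singleton.1 hx
      have hval : LinearPMap.mkSpanSingleton p (1 : ℝ) hp0 ⟨a • p, hx⟩ = a • (1 : ℝ) :=
        LinearPMap.mkSpanSingleton'_apply _ _ _ a _
      rw [hval]
      by_contra hc
      have ha : a < 0 := by simpa using hc
      apply hnps
      have hai : 0 ≤ (-a)⁻¹ := (inv_pos.2 (by linarith)).le
      have := PointedCone.smul_mem s hai hxs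
      have h2 : (-a)⁻¹ • (a • p) = -p := by
        rw [smul_smul]
        have : (-a)⁻¹ * a = -1 := by
          rw [inv_neg, neg_mul, inv_mul_cancel₀ ha.ne]
        rw [this, neg_one_smul]
      rwa [h2] at this)
    (by
      intro y
      obtain ⟨⟨t, ht, h1⟩, -⟩ := hP _ (π y).2
      refine ⟨⟨t • p, Submodule.smul_mem _ _ (Submodule.mem_span_singleton_self p)⟩, ?_⟩
      rw [hsmem]
      refine ⟨0, le_rfl, ?_⟩
      rw [zero_smul, add_zero, map_add, Submodule.coe_add,
        hπid _ (Submodule.smul_mem _ _ hpV)]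
      exact h1)
  have hψp : ψ p = 1 := by
    have := hψ1 ⟨p, Submodule.mem_span_singleton_self p⟩
    rw [this]
    exact LinearPMap.mkSpanSingleton'_apply_self _ _ _ _
  refine ⟨ψ, fun x hx => hψ2 x ?_, Or.inr ⟨?_, by rw [hψp]; exact one_pos⟩⟩
  · rw [hsmem]
    refine ⟨0, le_rfl, ?_⟩
    rw [zero_smul, add_zero, hπid _ (Submodule.subset_span hx)]
    exact hx
  · have h1 : -(ω + t0 • p) ∈ s := by
      rw [hsmem]
      refine ⟨1, zero_le_one, ?_⟩
      rw [hπid _ (neg_mem (add_mem hωV (Submodule.smul_mem _ _ hpV)))]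
      convert h0 using 1
      module
    have h2 := hψ2 _ h1
    rw [map_neg, map_add, map_smul, hψp, smul_eq_mul, mul_one] at h2
    linarith

end Vale.Agent.Lib.P058
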