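import Vale.Agent.Lib.P058C.SF1
import Vale.Agent.Lib.P058.Farkas

/-!
# P058C, module ThmD

Positivity of the Gram matrix of a configuration on a sphere of a form.

Notation: `Q c = ψ (Gc c)`, `Ψ c c' = ψ (fun i j => tp (c i) (c' j))` (biadditive; `Ψ` of two constant columns is
`0` by `hconst`).  For lists `L` in `V` write `Q[L] = (L.map Q).sum = ψ ((L.map Gc).sum)`.

STEP 1 (facts on balanced lists).  For `L` balanced in `V`: `0 ≤ Q[L]`; for `t : ℝ` the list `t • L` is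
balanced and `Q[t • L] = t ^ 2 * Q[L]` (`hmul` with `σ = tp t t`); for `m : ℝ` the list `L + m` is
balanced and `Q[L + m] = Q[L]` (the sum of the columns of `L` is a constant column; cross terms and
`Ψ m m` vanish by `hconst`).  For `L ∋ c`, `L' ∋ c'` balanced the list `{a + t • a' | a ∈ L, a' ∈ L'}` is
balanced, contains `c + t • c'` and has `Q = |L'| * Q[L] + t ^ 2 * |L| * Q[L']`.

STEP 2.  `farkas` (module Farkas) gives `f₀` with `g₀ c = Q c + ∑ j, f₀ j (c j) ≥ 0` on `V` and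
`g₀[L] = Q[L]` for balanced `L` (as `∑ j, f₀ j x = 0`).  There is an invariant mean for bounded
functions on `ℝ`: `Mn : (ℝ → ℝ) → ℝ` additive on bounded functions, positive, `Mn const = const`,
invariant under translations (average `f` over the boxes `{∑ k_i m_i | 0 ≤ k_i < N}` for finite sets
`{m_1..m_p}` of reals, and take the limit along an ultrafilter on `Finset ℝ × ℕ` finer than `atTop`).
`g c = Mn (fun m => g₀ (c + m))` is well defined (`0 ≤ g₀ (c + m) ≤ Q[L + m] = Q[L]` for a balanced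
`L ∋ c`), `g ≥ 0`, `g (c + m) = g c` and `g[L] = Q[L]` for balanced `L`.

STEP 3.  For `G : V → ℝ` with `G ≥ 0` on `V`, `G[L] = Q[L]` for balanced `L`, there are functions `f j` with
`∑ j, f j x = 0` and `Q c - G c = ∑ j, f j (c j)` on `V`: apply `farkas` to `G - Q`: get `f` with
`h c = G c - Q c + ∑ f j (c j) ≥ 0` and `h[L] = 0` for balanced `L`; since every `c ∈ V` is in a balanced
list and `h ≥ 0`, `h = 0`.

STEP 4.  If moreover `G (c + m) = G c`, then the `n`-fold differences of all `f j` vanish for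
`n = |J| + 2`: with `(Δ_y f) t = f (t + y) - f t`, `∑ j, (Δ_m (f j)) (c j) = Q (c + m) - Q c =
Ψ m c + Ψ c m`, which is additive in `c`.  So for `h h' ∈ V`:
`∑ j, (Δ_{h j} Δ_{h' j} Δ_m (f j)) (c j) = 0`.  Fix a row `j₀`.  For `i ≠ j₀` such that some column of `V`
separates `i` and `j₀` there is `h⁽ⁱ⁾ ∈ V` with `h⁽ⁱ⁾ i = 0`, `h⁽ⁱ⁾ j₀ = 1`; apply
`Δ_{t_i h⁽ⁱ⁾}` for all those `i`; the rows `i` drop out.  (Rows not separated from `j₀`
by `V` have `c i = c j₀` for all `c ∈ V`: to avoid this case one may assume that `V` separates the rows;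
add the hypothesis `hsep0 : ∀ i j, i ≠ j → ∃ c ∈ V, c i ≠ c j`, it is available.)

STEP 5 (Lemma P).  If all `n`-fold differences of `h : ℝ → ℝ` vanish and `|h t| ≤ C (1 + t ^ 2)` then `h` is
a polynomial of degree `≤ 2` (induction on `n ≥ 3`: for `n = N + 1 > 3` the `N`-fold difference
`Δ_{y_1} .. Δ_{y_N} h` does not depend on `t`, is additive in each `y_i`, and is
`≤ C' (1 + |y|^2)`-bounded; scaling all `y_i` by an integer `k` multiplies it by `k ^ N`, `N ≥ 3`, so it is `0`.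
For `n = 3`: `Δ_y Δ_z h` is biadditive, bounded near `0`, so it is `2 a y z`; subtract `a t ^ 2`; then `h`
minus its value at `0` is additive and locally bounded, so linear).

STEP 6.  For `c b ∈ V`, `t ↦ g (c + t • b)` satisfies STEP 5 (`n`-fold differences of
`Q (c + t • b) - ∑ f j (c j + t b j)` vanish for `n = |J| + 2 ≥ 3`; bound
`0 ≤ g (c + t • b) ≤ C (1 + t ^ 2)` by STEP 1).  Let `g₂ c` = coefficient of `t ^ 2` of
`t ↦ g (t • c)` = `lim g (t • c) / t ^ 2`.  Then `g₂ ≥ 0`, `g₂[L] = Q[L]` for balanced `L`, `g₂ (c + m) = g₂ c`,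
`g₂ (t • c) = t ^ 2 * g₂ c`, and again `t ↦ g₂ (c + t • b)` is a polynomial of degree `≤ 2`; by
homogeneity `g₂ (s • c + t • b) = s ^ 2 * g₂ c + s t * B c b + t ^ 2 * g₂ b` for all `s t` so that
`g₂ (c + b) + g₂ (c - b) = 2 g₂ c + 2 g₂ b` and `g₂` is a positive semidefinite real quadratic form on `V`.

STEP 7 (Lemma Q).  Apply STEP 3, 4 to `G = g₂`: `Φ c = Q c - g₂ c = ∑ j, f j (c j)`, and
`Φ (2 c) = 4 Φ c`.  Let `(T f) t = f (2 t)`.  Functions `f` with vanishing `n`-fold differences satisfy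
`∏_{k < n} (T - 2 ^ k) f = 0`; with `P = ∏_{k < n, k ≠ 2} (T - 2 ^ k) / (4 - 2 ^ k)` replace `f j` by
`P (f j)` (still `∑ j = 0` and `Φ c = ∑ j, (P f j) (c j)`); `T P f = 4 P f`, and a function `f` with
`f (2 t) = 4 f t` and vanishing `n`-fold differences is `t ↦ b t t` with `b : ℝ → ℝ → ℝ` biadditive
(its `N`-fold difference, `N = n - 1 ≥ 3`, is a constant additive in each `y_i`; replacing `y` by `2 y`
it is multiplied by `2 ^ N` and by `4`, so it vanishes; descend to `n = 3`; then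
`f (t + y) - f t - f y + f 0` is biadditive...).  So `Φ c = ∑ j, b j (c j) (c j)` on `V`,
`∑ j, b j t t = 0` for all `t`.

STEP 8.  `β.exists_squares`: `β.B (v i) (v j) = ∑ k, ε k • Gc (c_k) i j`, `c_k j = ⟪p k, v j⟫ ∈ V`.
`∑ k, ε k * Φ c_k = ∑ j, ∑ k, ε k * b j (c_k j) (c_k j) = ∑ j, b̃ j (β.B (v j) (v j)) = ∑ j, b̃ j κ`,
`b̃ j : TT → ℝ` the `ℚ`-linear map with `b̃ j (tp x y) = b j x y`; the sum `b̃ = ∑ j, b̃ j` has
`b̃ (tp t t) = 0`, so `b̃ (tp x y) = - b̃ (tp y x)`, `b̃ (swp s) = - b̃ s` and, as `swp κ = κ` (`symm'`),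
`b̃ κ = 0`.  Hence `ψ ω = ∑ k, ε k * Q c_k = ∑ k, ε k * g₂ c_k`.
With `G w = g₂ (j ↦ ⟪w, v j⟫)`, a positive semidefinite quadratic form on `E = EuclideanSpace ℝ ι`, and
`∑ k, ε k * ⟪p k, u⟫ * ⟪p k, v⟫ = ⟪u, v⟫` (apply `mu`, `real'`),
`∑ k, ε k * G (p k) = ∑ a, G (e a) ≥ 0` (trace), and if it is `0`, then `G (e a) = 0` for all `a`, so
`G = 0` (semidefinite forms), `g₂ = 0` on `V` and `Q[L] = g₂[L] = 0`.
-/

namespace Vale.Agent.Lib.P058

theorem thmD {J : Type} [Fintype J] [Nonempty J] {ι : Type} [Fintype ι]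
    (β : SForm (EuclideanSpace ℝ ι)) (v : J → EuclideanSpace ℝ ι) (κ : TT)
    (hκ : ∀ j, β.B (v j) (v j) = κ)
    (V : Submodule ℝ (J → ℝ)) (hV : ∀ c, c ∈ V ↔ ∃ w : EuclideanSpace ℝ ι, ∀ j, c j = inner ℝ w (v j))
    (hone : (fun _ => (1 : ℝ)) ∈ V) (hsep : ∀ i j, i ≠ j → ∃ c ∈ V, c i ≠ c j)
    (hbal : ∀ c ∈ V, Bal (V : Set (J → ℝ)) c)
    (ψ : (J → J → TT) →ₗ[ℝ] ℝ) (hconst : ∀ s : TT, ψ (fun _ _ => s) = 0)
    (hpos : ∀ L : List (J → ℝ), (∀ c ∈ L, c ∈ V) → Balanced L → 0 ≤ ψ (L.map Gc).sum)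
    (hmul : ∀ L : List (J → ℝ), (∀ c ∈ L, c ∈ V) → Balanced L → ∀ σ : TT,
      ψ (fun i j => σ * (L.map Gc).sum i j) = mu σ * ψ (L.map Gc).sum) :
    0 ≤ ψ (fun i j => β.B (v i) (v j)) ∧
      (ψ (fun i j => β.B (v i) (v j)) = 0 →
        ∀ L : List (J → ℝ), (∀ c ∈ L, c ∈ V) → Balanced L → ψ (L.map Gc).sum = 0) := by
  sorry

end Vale.Agent.Lib.P058
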