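import Vale.Agent.Lib.P058C.Dom
import Vale.Agent.Lib.P058C.OrderUnit
import Vale.Agent.Lib.P058C.ThmD

/-!
# P058C, module Cert: the Gram matrix of a configuration on a sphere of a form is in the cone

PROOF.  Let `C = {x | InK V x}`, `p = (L₀.map Gc).sum` from `dominate`, `ω i j = β.B (v i) (v j)`, and suppose
`ω ∉ C`.  `exists_separating` gives `ψ`, real linear on `J → J → TT`, `ψ ≥ 0` on `C`, and
`ψ ω < 0 ∨ (ψ ω ≤ 0 ∧ 0 < ψ p)`.
* `ψ (const s) = 0`: `const s` and `const (-s)` are in `C`.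
* For a balanced list `L` in `V` and `0 < mu σ`: `0 ≤ ψ (σ * [L])`: by `engine` (second claim), for all
  `M ≥ 1`, `σ * (N * [L] + (1/M) • R) ∈ C` (`InK.exc`), so `0 ≤ N ψ (σ * [L]) + (1/M) ψ (σ * R)`; let
  `M → ∞`.  With `σ = 1`: `hpos`.
* `hmul`: for `σ : TT` and `ε > 0` the elements `σ - tp (mu σ - ε) 1` and `tp (mu σ + ε) 1 - σ` have
  positive `mu`, so `(mu σ - ε) ψ [L] ≤ ψ (σ * [L]) ≤ (mu σ + ε) ψ [L]` (`tp r 1 * x = r • x`).
Now `thmD`: `0 ≤ ψ ω`, so `ψ ω = 0` and `0 < ψ p`, but then `ψ p = 0` by the second claim of `thmD`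
(`L₀` is balanced).  Contradiction.
-/

namespace Vale.Agent.Lib.P058

private theorem cert_natCast_mul (N : ℕ) (s : TT) : (N : TT) * s = (N : ℝ) • s := by
  rw [Nat.cast_smul_eq_nsmul, nsmul_eq_mul]

private theorem cert_mul_smul (σ : TT) (r : ℝ) (s : TT) : σ * (r • s) = r • (σ * s) := by
  rw [real_smul_eq, real_smul_eq]
  ring

private theorem cert_nonneg {a b : ℝ} {N : ℕ} (hN : 0 < N)
    (h : ∀ M : ℕ, 0 < M → 0 ≤ (N : ℝ) * a + (M : ℝ)⁻¹ * b) : 0 ≤ a := by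
  by_contra ha
  push Not at ha
  have hNR : (0 : ℝ) < N := by exact_mod_cast hN
  have hneg : 0 < -((N : ℝ) * a) := by
    have := mul_neg_of_pos_of_neg hNR ha
    linarith
  obtain ⟨M, hM⟩ := exists_nat_gt (|b| / -((N : ℝ) * a))
  have hM0 : (0 : ℝ) < M := lt_of_le_of_lt (by positivity) hM
  have hM1 : 0 < M := by exact_mod_cast hM0
  have h1 := h M hM1
  have h2 : (M : ℝ)⁻¹ * b ≤ (M : ℝ)⁻¹ * |b| :=
    mul_le_mul_of_nonneg_left (le_abs_self b) (by positivity)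
  rw [div_lt_iff₀ hneg] at hM
  have h3 : (M : ℝ)⁻¹ * |b| < -((N : ℝ) * a) := by
    rw [inv_mul_lt_iff₀ hM0]
    exact hM
  linarith

theorem certificate {J : Type} [Fintype J] [DecidableEq J] [Nonempty J] {ι : Type} [Fintype ι]
    (β : SForm (EuclideanSpace ℝ ι)) (v : J → EuclideanSpace ℝ ι) (κ : TT)
    (hκ : ∀ j, β.B (v j) (v j) = κ)
    (V : Submodule ℝ (J → ℝ)) (hV : ∀ c, c ∈ V ↔ ∃ w : EuclideanSpace ℝ ι, ∀ j, c j = inner ℝ w (v j))
    (hone : (fun _ => (1 : ℝ)) ∈ V) (hbal : ∀ c ∈ V, Bal (V : Set (J → ℝ)) c)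
    (hsep : ∀ i j, i ≠ j → ∃ c ∈ V, c i ≠ c j ∧ Un (V : Set (J → ℝ)) c) :
    InK (V : Set (J → ℝ)) (fun i j => β.B (v i) (v j)) := by
  by_contra hω
  obtain ⟨L₀, hL₀V, hL₀b, hL₀K, hdom⟩ := dominate V hone hbal hsep
  obtain ⟨ψ, hψ, hψω⟩ := exists_separating (E := J → J → TT) {x | InK (V : Set (J → ℝ)) x}
    (InK.zero _) (fun x hx y hy => InK.add hx hy) (fun x hx t ht => InK.smul t ht hx)
    (L₀.map Gc).sum hL₀K hdom (fun i j => β.B (v i) (v j)) hω
  have hψ' : ∀ x, InK (V : Set (J → ℝ)) x → 0 ≤ ψ x := fun x hx => hψ x hx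
  have hconst : ∀ s : TT, ψ (fun _ _ => s) = 0 := by
    intro s
    have h1 := hψ' _ (InK.const s)
    have h2 := hψ' _ (InK.const (-s))
    have h3 : (fun (_ _ : J) => -s) = -(fun (_ _ : J) => s) := rfl
    rw [h3, map_neg] at h2
    linarith
  obtain ⟨-, n, D, hD, heng⟩ := engine V hone hbal hsep
  have hpos1 : ∀ L : List (J → ℝ), (∀ c ∈ L, c ∈ V) → Balanced L → ∀ σ : TT, 0 < mu σ →
      0 ≤ ψ (fun i j => σ * (L.map Gc).sum i j) := by
    intro L hLV hLb σ hσ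
    obtain ⟨N, hN, R, hR⟩ := heng L hLV hLb
    refine cert_nonneg (b := ψ (fun i j => σ * (R.map (fun rk => tp rk.1 rk.1 * D rk.2 i j)).sum))
      hN ?_
    intro M hM
    have h1 := hψ' _ (InK.exc σ hσ _ (hR M hM))
    have h2 : (fun i j => σ * ((N : TT) * (L.map Gc).sum i j +
          (M : ℝ)⁻¹ • (R.map (fun rk => tp rk.1 rk.1 * D rk.2 i j)).sum)) =
        (N : ℝ) • (fun i j => σ * (L.map Gc).sum i j) + (M : ℝ)⁻¹ •
          (fun i j => σ * (R.map (fun rk => tp rk.1 rk.1 * D rk.2 i j)).sum) := by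
      funext i j
      change _ = (N : ℝ) • (σ * (L.map Gc).sum i j) + (M : ℝ)⁻¹ •
          (σ * (R.map (fun rk => tp rk.1 rk.1 * D rk.2 i j)).sum)
      rw [mul_add, cert_natCast_mul, cert_mul_smul, cert_mul_smul]
    rw [h2, map_add, map_smul, map_smul, smul_eq_mul, smul_eq_mul] at h1
    exact h1
  have hpos : ∀ L : List (J → ℝ), (∀ c ∈ L, c ∈ V) → Balanced L → 0 ≤ ψ (L.map Gc).sum := by
    intro L hLV hLb
    have h1 := hpos1 L hLV hLb 1 (by rw [map_one]; exact one_pos)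
    have h2 : (fun i j => (1 : TT) * (L.map Gc).sum i j) = (L.map Gc).sum := by
      funext i j
      rw [one_mul]
    rwa [h2] at h1
  have hlin : ∀ (L : List (J → ℝ)) (σ : TT) (r : ℝ),
      ψ (fun i j => (σ - tp r 1) * (L.map Gc).sum i j) =
        ψ (fun i j => σ * (L.map Gc).sum i j) - r * ψ (L.map Gc).sum := by
    intro L σ r
    have h2 : (fun i j => (σ - tp r 1) * (L.map Gc).sum i j) =
        (fun i j => σ * (L.map Gc).sum i j) - r • (L.map Gc).sum := by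
      funext i j
      change _ = σ * (L.map Gc).sum i j - r • (L.map Gc).sum i j
      rw [sub_mul, ← real_smul_eq]
    rw [h2, map_sub, map_smul, smul_eq_mul]
  have hlin' : ∀ (L : List (J → ℝ)) (σ : TT) (r : ℝ),
      ψ (fun i j => (tp r 1 - σ) * (L.map Gc).sum i j) =
        r * ψ (L.map Gc).sum - ψ (fun i j => σ * (L.map Gc).sum i j) := by
    intro L σ r
    have h2 : (fun i j => (tp r 1 - σ) * (L.map Gc).sum i j) =
        r • (L.map Gc).sum - (fun i j => σ * (L.map Gc).sum i j) := by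
      funext i j
      change _ = r • (L.map Gc).sum i j - σ * (L.map Gc).sum i j
      rw [sub_mul, ← real_smul_eq]
    rw [h2, map_sub, map_smul, smul_eq_mul]
  have hmul : ∀ L : List (J → ℝ), (∀ c ∈ L, c ∈ V) → Balanced L → ∀ σ : TT,
      ψ (fun i j => σ * (L.map Gc).sum i j) = mu σ * ψ (L.map Gc).sum := by
    intro L hLV hLb σ
    have hq := hpos L hLV hLb
    have hlow : ∀ ε : ℝ, 0 < ε → mu σ * ψ (L.map Gc).sum ≤
        ψ (fun i j => σ * (L.map Gc).sum i j) + ε * ψ (L.map Gc).sum := by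
      intro ε hε
      have h1 := hpos1 L hLV hLb (σ - tp (mu σ - ε) 1)
        (by rw [map_sub, mu_tp, mul_one]; linarith)
      rw [hlin] at h1
      linarith
    have hup : ∀ ε : ℝ, 0 < ε → ψ (fun i j => σ * (L.map Gc).sum i j) ≤
        mu σ * ψ (L.map Gc).sum + ε * ψ (L.map Gc).sum := by
      intro ε hε
      have h1 := hpos1 L hLV hLb (tp (mu σ + ε) 1 - σ)
        (by rw [map_sub, mu_tp, mul_one]; linarith)
      rw [hlin'] at h1
      linarith
    have hscale : ∀ δ : ℝ, 0 < δ → ∃ ε : ℝ, 0 < ε ∧ ε * ψ (L.map Gc).sum ≤ δ := by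
      intro δ hδ
      refine ⟨δ / (ψ (L.map Gc).sum + 1), by positivity, ?_⟩
      rw [div_mul_eq_mul_div, div_le_iff₀ (by linarith)]
      nlinarith
    apply le_antisymm
    · apply le_of_forall_pos_le_add
      intro δ hδ
      obtain ⟨ε, hε, hεδ⟩ := hscale δ hδ
      linarith [hup ε hε]
    · apply le_of_forall_pos_le_add
      intro δ hδ
      obtain ⟨ε, hε, hεδ⟩ := hscale δ hδ
      linarith [hlow ε hε]
  obtain ⟨hT1, hT2⟩ := thmD β v κ hκ V hV hone
    (fun i j hij => by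
      obtain ⟨c, hc, hne, -⟩ := hsep i j hij
      exact ⟨c, hc, hne⟩) hbal ψ hconst hpos hmul
  rcases hψω with h | ⟨h1, h2⟩
  · exact absurd hT1 (not_le.mpr h)
  · have h3 := hT2 (le_antisymm h1 hT1) L₀ hL₀V hL₀b
    rw [h3] at h2
    exact lt_irrefl _ h2

end Vale.Agent.Lib.P058
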