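import Vale.Agent.Lib.P058C.Base

/-!
# P058C, module CorrG: corrections exist for points on a sphere

PROOF.  For `x : X` let `e x ∈ colA a` with `e x (ξ y) = if y = x then 1 else 0` (`hfun`).
Case 1: some `g₀ ∈ colA a` vanishes at all `ξ y` and `g₀ q = 1` (after scaling).  Then every `f : X → ℝ` is the
restriction of `g - g q • g₀`, an element of `colA a` vanishing at `q`.  Take `N = [m • 1_x, -m • 1_x]`, `P = [0, 0]`.
Case 2: all `g ∈ colA a` vanishing at the `ξ y` vanish at `q`.  With `α y = e y q`: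
`g q = ∑ α y * g (ξ y)` for all `g ∈ colA a` (`g - ∑ g (ξ y) • e y` vanishes at the `ξ y`), so
`a q = ∑ α y • a (ξ y)` (take `g = ⟪w, a ·⟫`, all `w`) and `∑ α y = 1` (`hone`).  A function `f : X → ℝ` with
`∑ α y * f y = 0` is the restriction of `g = ∑ f y • e y` with `g q = 0`.
For `x : X` there are `r ≠ t`, both `≠ x`, with `α r ≠ 0`, `α t ≠ 0`: otherwise `a q = α x • a (ξ x) + α y • a (ξ y)`
with `α x + α y = 1` for some `y ≠ x` (or `a q = a (ξ x)`, excluded), and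
`ρ² = ‖a q‖² = ρ² - α x * α y * ‖a (ξ x) - a (ξ y)‖²` (all norms are `ρ`), so `α x = 0`, `a q = a (ξ y)`, or
`α y = 0`, `a q = a (ξ x)`, or `a (ξ x) = a (ξ y)` and `a q = a (ξ x)`; all are excluded by `hq`.
With `u = α x * m`: `C₁ = (r : -u / α r, t : u / α t)`, `C₂ = (x : m, r : -u / α r)`, `C₃ = (x : -m, t : u / α t)` (other
entries `0`), `P = [C₁, 0]`, `N = [C₂, C₃]`: row `x`: `m, -m, 0, 0` and `0, 0, m, -m`; row `r`: `-u / α r, 0` twice; row `t`:
`u / α t, 0` and `0, u / α t`.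
-/

namespace Vale.Agent.Lib.P058

theorem corr_of_sphere {I ι X : Type} [Fintype ι] [Fintype X] (a : I → EuclideanSpace ℝ ι) (ρ : ℝ)
    (hρ : ∀ i, ‖a i‖ = ρ) (hone : (fun _ => (1 : ℝ)) ∈ colA a) (q : I) (ξ : X → I)
    (hfun : ∀ f : X → ℝ, ∃ g ∈ colA a, ∀ x, g (ξ x) = f x) (hq : ∀ x, a (ξ x) ≠ a q) :
    Corr (colA a) q ξ := by
  sorry

end Vale.Agent.Lib.P058
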