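import Vale.Agent.Lib.P058C.Engine
import Vale.Agent.Lib.P058C.InGB
import Vale.Agent.Lib.P058C.BalCalc

/-!
# P058C, module Dom: the cone `InK V` has an order unit

PROOF.  Notation `[L] = (L.map Gc).sum`.  `InK V` contains the constants, `0`, is closed under sums,
under `x ↦ (fun i j => σ * x i j)` for `0 < mu σ` (`mu` is multiplicative; induction on `InK`),
in particular under positive real multiples (`real_smul_eq`: `(t • x) i j = tp t 1 * x i j`).

By `engine` every `c ∈ V` is `Un`; let `D k` (`k : Fin n`) be the matrices of the second claim of `engine`.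
`V` is finite-dimensional; let `b_1, .., b_m` span `V`, and `B_i ∋ b_i` balanced lists in `V` with
`Exc V [B_i]` (`Un.exists_list`).  By `exc_list`, `D k = [C_k] - s_k`, `C_k` balanced list in `V`.  Let `L₀` be
the concatenation of all `B_i` and all `C_k`, `p = [L₀]`; so `p = ∑ [B_i] + ∑ D k + const` and `InK V p`.

Call a matrix `G` *small* if for every `σ : TT` there is `t > 0` with `InK V (t • p - σ * G)`.
Small matrices are closed under sums and multiplication by elements of `TT`; constants are small; if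
`p = G + rest` with `Exc V G`, `InK V rest`, then `G` is small:
`t • p - σ * G = t • rest + (tp t 1 - σ) * G`, `mu (tp t 1 - σ) = t - mu σ > 0` for large `t`.  So `D k`,
`[B_i]` are small.
(a) Every `c ∈ V` is in a balanced list `B` in `V` with `[B]` small: the set of such `c` is a subspace
(`Balanced.conv`, `conv_gram`, `Balanced.smul`, `smul_gram`) containing the `b_i`.
(b) Claim for `x` by induction on `InK V x`; constants and sums are clear.  Let `x = σ * G`, `0 < mu σ`, `Exc V G`;
`G = [E] - s`, `E` balanced in `V`.  By (a) choose for `e ∈ E` a list `B_e`, and let `B` be the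
concatenation: `B` is a permutation of `E ++ E'`, `[B]` is small, `E'` is balanced (`Balanced.cancel`) and in `V`.
By `engine` for `E'` with `M = 1`: `Exc V (N * [E'] + R)`, `R = ∑ tp r r * D k` small.  Then
`t • p - σ * G = (t₁ • p - σ * [B]) + (t₂ • p - (σ / N) * R) + (σ / N) * (N * [E'] + R) + σ * s`
with `t = t₁ + t₂`, where `σ / N = ((1 : ℝ) / N) • σ`, all in `InK V`.
-/

namespace Vale.Agent.Lib.P058

theorem InK.zero {J : Type} (V : Set (J → ℝ)) : InK V (0 : J → J → TT) := InK.const 0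

theorem InK.of_eq {J : Type} {V : Set (J → ℝ)} {G G' : J → J → TT} (h : InK V G) (e : G = G') :
    InK V G' := by
  subst e
  exact h

theorem InK.mul {J : Type} {V : Set (J → ℝ)} {G : J → J → TT} (σ : TT) (hσ : 0 < mu σ)
    (h : InK V G) : InK V (fun i j => σ * G i j) := by
  induction h with
  | const s => exact InK.const (σ * s)
  | exc σ' hσ' G hG =>
    refine (InK.exc (σ * σ') ?_ G hG).of_eq ?_
    · rw [map_mul]
      exact mul_pos hσ hσ'
    · funext i j
      rw [mul_assoc]
  | add _ _ h1 h2 =>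
    refine (InK.add h1 h2).of_eq ?_
    funext i j
    simp only [Pi.add_apply, mul_add]

theorem InK.smul {J : Type} {V : Set (J → ℝ)} {G : J → J → TT} (t : ℝ) (ht : 0 < t)
    (h : InK V G) : InK V (t • G) := by
  refine (InK.mul (tp t 1) ?_ h).of_eq ?_
  · rw [mu_tp, mul_one]
    exact ht
  · funext i j
    rw [Pi.smul_apply, Pi.smul_apply, real_smul_eq]

namespace DomAux

variable {J : Type} {V : Set (J → ℝ)}

/-- dominated by `p` after multiplication by any element -/
def Small (V : Set (J → ℝ)) (p G : J → J → TT) : Prop :=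
  ∀ σ : TT, ∃ t : ℝ, 0 < t ∧ InK V (fun i j => (t • p) i j - σ * G i j)

theorem Small.of_eq {p G G' : J → J → TT} (h : Small V p G) (e : ∀ i j, G i j = G' i j) :
    Small V p G' := by
  have : G = G' := by
    funext i j
    exact e i j
  subst this
  exact h

theorem small_const {p : J → J → TT} (hp : InK V p) (s : TT) : Small V p (fun _ _ => s) := by
  intro σ
  refine ⟨1, one_pos, ((InK.smul 1 one_pos hp).add (InK.const (-(σ * s)))).of_eq ?_⟩
  funext i j
  simp only [Pi.add_apply]
  rw [sub_eq_add_neg]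

theorem Small.add {p G G' : J → J → TT} (h : Small V p G) (h' : Small V p G') :
    Small V p (fun i j => G i j + G' i j) := by
  intro σ
  obtain ⟨t, ht, h1⟩ := h σ
  obtain ⟨t', ht', h2⟩ := h' σ
  refine ⟨t + t', add_pos ht ht', (h1.add h2).of_eq ?_⟩
  funext i j
  simp only [Pi.add_apply, add_smul, Pi.smul_apply, mul_add]
  abel

theorem Small.mul {p G : J → J → TT} (h : Small V p G) (τ : TT) :
    Small V p (fun i j => τ * G i j) := by
  intro σ
  obtain ⟨t, ht, h1⟩ := h (σ * τ)
  refine ⟨t, ht, h1.of_eq ?_⟩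
  funext i j
  rw [mul_assoc]

theorem small_exc {p G rest : J → J → TT} (hG : Exc V G) (hr : InK V rest)
    (e : ∀ i j, p i j = G i j + rest i j) : Small V p G := by
  intro σ
  have ht : 0 < |mu σ| + 1 := by positivity
  refine ⟨|mu σ| + 1, ht, ((InK.smul _ ht hr).add
    (InK.exc (tp (|mu σ| + 1) 1 - σ) ?_ G hG)).of_eq ?_⟩
  · rw [map_sub, mu_tp, mul_one]
    have := le_abs_self (mu σ)
    linarith
  · funext i j
    simp only [Pi.add_apply, Pi.smul_apply]
    rw [e i j, smul_add, real_smul_eq _ (G i j), sub_mul]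
    abel

/-- sums of lists of Gram matrices -/
theorem gram_append (L L' : List (J → ℝ)) (i j : J) :
    ((L ++ L').map Gc).sum i j = (L.map Gc).sum i j + (L'.map Gc).sum i j := by
  rw [List.map_append, List.sum_append]
  rfl

theorem gram_perm {L L' : List (J → ℝ)} (h : L.Perm L') (i j : J) :
    (L.map Gc).sum i j = (L'.map Gc).sum i j := by
  rw [(h.map Gc).sum_eq]

theorem balanced_nil : Balanced ([] : List (J → ℝ)) := fun i j => by simp

/-- a list which can be used as a summand -/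
def GoodL (V : Set (J → ℝ)) (L : List (J → ℝ)) : Prop :=
  (∀ c ∈ L, c ∈ V) ∧ Balanced L ∧ InK V (L.map Gc).sum

theorem good_nil : GoodL V [] := ⟨by simp, balanced_nil, by simpa using InK.zero V⟩

theorem GoodL.append {L L' : List (J → ℝ)} (h : GoodL V L) (h' : GoodL V L') :
    GoodL V (L ++ L') := by
  refine ⟨?_, h.2.1.append h'.2.1, (h.2.2.add h'.2.2).of_eq ?_⟩
  · intro c hc
    rcases List.mem_append.1 hc with hc | hc
    · exact h.1 c hc
    · exact h'.1 c hc
  · rw [List.map_append, List.sum_append]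

theorem exists_total {α : Type*} (s : List α) (f : α → List (J → ℝ)) (hf : ∀ a ∈ s, GoodL V (f a)) :
    GoodL V (s.flatMap f) ∧ ∀ a ∈ s, ∃ rest : J → J → TT, InK V rest ∧
      ∀ i j, ((s.flatMap f).map Gc).sum i j = ((f a).map Gc).sum i j + rest i j := by
  induction s with
  | nil => exact ⟨by simpa using good_nil, by simp⟩
  | cons a s ih =>
    have h1 := hf a (List.mem_cons_self)
    obtain ⟨h2, h3⟩ := ih fun b hb => hf b (List.mem_cons_of_mem a hb)
    rw [List.flatMap_cons]
    refine ⟨h1.append h2, ?_⟩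
    intro b hb
    rcases List.mem_cons.1 hb with rfl | hb
    · exact ⟨_, h2.2.2, fun i j => gram_append _ _ i j⟩
    · obtain ⟨rest, hr, he⟩ := h3 b hb
      refine ⟨((f a).map Gc).sum + rest, h1.2.2.add hr, fun i j => ?_⟩
      rw [gram_append, he i j]
      simp only [Pi.add_apply]
      abel

theorem mem_convL {L L' : List (J → ℝ)} {c c' : J → ℝ} (h : c ∈ L) (h' : c' ∈ L') :
    c + c' ∈ convL L L' := by
  unfold convL
  rw [List.mem_flatMap]
  exact ⟨c, h, List.mem_map.2 ⟨c', h', rfl⟩⟩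

theorem convL_mem {W : Submodule ℝ (J → ℝ)} {L L' : List (J → ℝ)} (h : ∀ c ∈ L, c ∈ W)
    (h' : ∀ c ∈ L', c ∈ W) : ∀ c ∈ convL L L', c ∈ W := by
  intro c hc
  unfold convL at hc
  rw [List.mem_flatMap] at hc
  obtain ⟨a, ha, hc⟩ := hc
  obtain ⟨a', ha', rfl⟩ := List.mem_map.1 hc
  exact W.add_mem (h a ha) (h' a' ha')

/-- step (a) of the proof -/
def HasB (W : Submodule ℝ (J → ℝ)) (p : J → J → TT) (c : J → ℝ) : Prop :=
  ∃ B : List (J → ℝ), (∀ c' ∈ B, c' ∈ W) ∧ Balanced B ∧ c ∈ B ∧
    Small (W : Set (J → ℝ)) p (B.map Gc).sum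

theorem HasB.zero {W : Submodule ℝ (J → ℝ)} {p : J → J → TT} (hp : InK (W : Set (J → ℝ)) p) :
    HasB W p 0 := by
  refine ⟨[0], by simp, fun i j => by simp, by simp, (small_const hp 0).of_eq fun i j => ?_⟩
  simp [Gc]

theorem HasB.add {W : Submodule ℝ (J → ℝ)} {p : J → J → TT} (hp : InK (W : Set (J → ℝ)) p)
    {c c' : J → ℝ} (h : HasB W p c) (h' : HasB W p c') : HasB W p (c + c') := by
  obtain ⟨B, h1, h2, h3, h4⟩ := h
  obtain ⟨B', h1', h2', h3', h4'⟩ := h'
  obtain ⟨s, hs⟩ := conv_gram h2 h2'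
  refine ⟨convL B B', convL_mem h1 h1', h2.conv h2', mem_convL h3 h3', ?_⟩
  exact (((h4.mul (B'.length : TT)).add (h4'.mul (B.length : TT))).add (small_const hp s)).of_eq
    fun i j => (hs i j).symm

theorem HasB.smul {W : Submodule ℝ (J → ℝ)} {p : J → J → TT}
    {c : J → ℝ} (h : HasB W p c) (t : ℝ) : HasB W p (t • c) := by
  obtain ⟨B, h1, h2, h3, h4⟩ := h
  refine ⟨B.map (fun c => t • c), ?_, h2.smul t, List.mem_map.2 ⟨c, h3, rfl⟩, ?_⟩
  · intro c' hc'
    obtain ⟨a, ha, rfl⟩ := List.mem_map.1 hc'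
    exact W.smul_mem t (h1 a ha)
  · exact (h4.mul (tp t t)).of_eq fun i j => (smul_gram B t i j).symm

theorem hasB_list {W : Submodule ℝ (J → ℝ)} {p : J → J → TT} (hp : InK (W : Set (J → ℝ)) p)
    (E : List (J → ℝ)) (hE : ∀ c ∈ E, HasB W p c) :
    ∃ B E' : List (J → ℝ), (∀ c ∈ B, c ∈ W) ∧ Balanced B ∧ B.Perm (E ++ E') ∧
      Small (W : Set (J → ℝ)) p (B.map Gc).sum := by
  classical
  induction E with
  | nil =>
    refine ⟨[], [], by simp, balanced_nil, by simp, (small_const hp 0).of_eq fun i j => ?_⟩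
    simp
  | cons e E ih =>
    obtain ⟨B1, E1, h1, h2, h3, h4⟩ := ih fun c hc => hE c (List.mem_cons_of_mem e hc)
    obtain ⟨B, g1, g2, g3, g4⟩ := hE e List.mem_cons_self
    refine ⟨B ++ B1, B.erase e ++ E1, ?_, g2.append h2, ?_, ?_⟩
    · intro c hc
      rcases List.mem_append.1 hc with hc | hc
      · exact g1 c hc
      · exact h1 c hc
    · have p1 : B.Perm (e :: B.erase e) := List.perm_cons_erase g3
      refine (p1.append h3).trans ?_
      rw [List.cons_append, List.cons_append]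
      refine List.Perm.cons e ?_
      rw [← List.append_assoc, ← List.append_assoc]
      exact List.perm_append_comm.append_right E1
    · exact (g4.add h4).of_eq fun i j => (gram_append B B1 i j).symm

end DomAux

open DomAux

theorem dominate {J : Type} [Fintype J] [DecidableEq J] [Nonempty J] (V : Submodule ℝ (J → ℝ))
    (hone : (fun _ => (1 : ℝ)) ∈ V) (hbal : ∀ c ∈ V, Bal (V : Set (J → ℝ)) c)
    (hsep : ∀ i j, i ≠ j → ∃ c ∈ V, c i ≠ c j ∧ Un (V : Set (J → ℝ)) c) :
    ∃ L₀ : List (J → ℝ), (∀ c ∈ L₀, c ∈ V) ∧ Balanced L₀ ∧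
      InK (V : Set (J → ℝ)) (L₀.map Gc).sum ∧
      ∀ x, InK (V : Set (J → ℝ)) x →
        ∃ t : ℝ, 0 < t ∧ InK (V : Set (J → ℝ)) (t • (L₀.map Gc).sum - x) := by
  classical
  obtain ⟨hUn, n, D, hD, hEng⟩ := engine V hone hbal hsep
  obtain ⟨S, hS⟩ := (IsNoetherian.noetherian V : V.FG)
  have hSV : ∀ b ∈ S, b ∈ V := fun b hb => by
    rw [← hS]
    exact Submodule.subset_span hb
  -- the lists of the spanning columns
  have hB : ∀ b : J → ℝ, ∃ cs : List (J → ℝ), b ∈ S → ((∀ c ∈ cs, c ∈ (V : Set (J → ℝ))) ∧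
      Balanced (b :: cs) ∧ Exc (V : Set (J → ℝ)) ((b :: cs).map Gc).sum) := by
    intro b
    by_cases hb : b ∈ S
    · obtain ⟨cs, h1, h2, h3⟩ := Un.exists_list (V := (V : Set (J → ℝ))) (hSV b hb)
        (hUn b (hSV b hb))
      exact ⟨cs, fun _ => ⟨h1, h2, h3⟩⟩
    · exact ⟨[], fun h => absurd h hb⟩
  choose Bf hBf using hB
  have hC : ∀ k : Fin n, ∃ (cs : List (J → ℝ)) (s : TT), (∀ c ∈ cs, c ∈ (V : Set (J → ℝ))) ∧
      Balanced cs ∧ ∀ i j, (cs.map Gc).sum i j = D k i j + s := fun k => exc_list (hD k)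
  choose Cf sf hCf using hC
  have exc_inK : ∀ G : J → J → TT, Exc (V : Set (J → ℝ)) G → InK (V : Set (J → ℝ)) G := by
    intro G hG
    refine (InK.exc (1 : TT) ?_ G hG).of_eq ?_
    · rw [map_one]
      exact one_pos
    · funext i j
      rw [one_mul]
  have hgB : ∀ b ∈ S.toList, GoodL (V : Set (J → ℝ)) (b :: Bf b) := by
    intro b hb
    have hb' : b ∈ S := Finset.mem_toList.1 hb
    obtain ⟨h1, h2, h3⟩ := hBf b hb'
    refine ⟨?_, h2, exc_inK _ h3⟩
    intro c hc
    rcases List.mem_cons.1 hc with rfl | hc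
    · exact hSV _ hb'
    · exact h1 c hc
  have hgC : ∀ k ∈ List.finRange n, GoodL (V : Set (J → ℝ)) (Cf k) := by
    intro k _
    obtain ⟨h1, h2, h3⟩ := hCf k
    refine ⟨h1, h2, ((exc_inK _ (hD k)).add (InK.const (sf k))).of_eq ?_⟩
    funext i j
    rw [h3 i j]
    rfl
  obtain ⟨gB, rB⟩ := exists_total S.toList (fun b => b :: Bf b) hgB
  obtain ⟨gC, rC⟩ := exists_total (List.finRange n) Cf hgC
  set LB := S.toList.flatMap (fun b => b :: Bf b) with hLB
  set LC := (List.finRange n).flatMap Cf with hLC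
  have gL := gB.append gC
  set p : J → J → TT := ((LB ++ LC).map Gc).sum with hp
  have hpK : InK (V : Set (J → ℝ)) p := gL.2.2
  -- the matrices `D k` are small
  have sD : ∀ k, Small (V : Set (J → ℝ)) p (D k) := by
    intro k
    obtain ⟨rest, hr, he⟩ := rC k (List.mem_finRange k)
    refine small_exc (hD k) ((hr.add (InK.const (sf k))).add gB.2.2) fun i j => ?_
    rw [hp, gram_append, he i j, (hCf k).2.2 i j]
    simp only [Pi.add_apply]
    abel
  -- the lists of the spanning columns are small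
  have sB : ∀ b ∈ S, HasB V p b := by
    intro b hb
    obtain ⟨h1, h2, h3⟩ := hBf b hb
    obtain ⟨rest, hr, he⟩ := rB b (Finset.mem_toList.2 hb)
    refine ⟨b :: Bf b, (hgB b (Finset.mem_toList.2 hb)).1, h2, List.mem_cons_self, ?_⟩
    refine small_exc h3 (hr.add gC.2.2) fun i j => ?_
    rw [hp, gram_append, he i j]
    simp only [Pi.add_apply]
    abel
  have hAll : ∀ c ∈ V, HasB V p c := by
    intro c hc
    rw [← hS] at hc
    induction hc using Submodule.span_induction with
    | mem x hx => exact sB x hx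
    | zero => exact HasB.zero hpK
    | add x y _ _ hx hy => exact hx.add hpK hy
    | smul a x _ hx => exact hx.smul a
  refine ⟨LB ++ LC, gL.1, gL.2.1, gL.2.2, ?_⟩
  intro x hx
  induction hx with
  | const s =>
    refine ⟨1, one_pos, ((InK.smul 1 one_pos hpK).add (InK.const (-s))).of_eq ?_⟩
    funext i j
    simp only [Pi.add_apply, Pi.sub_apply]
    rw [sub_eq_add_neg]
  | add _ _ h1 h2 =>
    obtain ⟨t, ht, h1⟩ := h1
    obtain ⟨t', ht', h2⟩ := h2
    refine ⟨t + t', add_pos ht ht', (h1.add h2).of_eq ?_⟩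
    rw [add_smul]
    abel
  | exc σ hσ G hG =>
    obtain ⟨E, s, hEV, hEbal, hEs⟩ := exc_list hG
    obtain ⟨B, E', hBV, hBbal, hBE, hBs⟩ := hasB_list hpK E fun c hc => hAll c (hEV c hc)
    have hE'V : ∀ c ∈ E', c ∈ V := fun c hc =>
      hBV c (hBE.mem_iff.2 (List.mem_append.2 (Or.inr hc)))
    have hE'bal : Balanced E' := (hBbal.perm hBE).cancel hEbal
    obtain ⟨N, hN, R, hR⟩ := hEng E' hE'V hE'bal
    have hR1 := hR 1 one_pos
    have hRs : Small (V : Set (J → ℝ)) p
        (fun i j => (R.map (fun rk => tp rk.1 rk.1 * D rk.2 i j)).sum) := by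
      clear hR hR1
      induction R with
      | nil => exact (small_const hpK 0).of_eq fun i j => by simp
      | cons r R ih =>
        refine (((sD r.2).mul (tp r.1 r.1)).add ih).of_eq fun i j => ?_
        rw [List.map_cons, List.sum_cons]
    have hN0 : (N : ℚ) ≠ 0 := by
      have : (0 : ℚ) < N := by exact_mod_cast hN
      exact this.ne'
    set τ : TT := (N : ℚ)⁻¹ • σ with hτ
    have hτN : τ * (N : TT) = σ := by
      rw [hτ, smul_mul_assoc, ← nsmul_eq_mul', ← Nat.cast_smul_eq_nsmul ℚ, smul_smul,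
        inv_mul_cancel₀ hN0, one_smul]
    have hτ0 : 0 < mu τ := by
      rw [hτ, map_smul, Rat.smul_def]
      have : (0 : ℝ) < ((N : ℚ)⁻¹ : ℚ) := by
        have : (0 : ℚ) < (N : ℚ)⁻¹ := inv_pos.2 (by exact_mod_cast hN)
        exact_mod_cast this
      exact mul_pos this hσ
    obtain ⟨t₁, ht₁, k1⟩ := hBs σ
    obtain ⟨t₂, ht₂, k2⟩ := hRs τ
    refine ⟨t₁ + t₂, add_pos ht₁ ht₂, ?_⟩
    refine (((k1.add k2).add (InK.exc τ hτ0 _ hR1)).add (InK.const (σ * s))).of_eq ?_
    funext i j
    simp only [Pi.add_apply, Pi.sub_apply, Pi.smul_apply]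
    have e1 : (B.map Gc).sum i j = (E.map Gc).sum i j + (E'.map Gc).sum i j := by
      rw [gram_perm hBE, gram_append]
    rw [e1, hEs i j, Nat.cast_one, inv_one, one_smul, mul_add τ, ← mul_assoc τ, hτN, add_smul]
    ring

end Vale.Agent.Lib.P058
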