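import Vale.Agent.Lib.P058C.EngDefs

/-!
# P058C, module EngA: calculus of pairs

`PairG.mul`: `(E * E')⁻¹ = E'⁻¹ * E⁻¹`.  `PairG.inv`: exchange.  `PairG.comm`:
`E₁ * E₂ * E₁⁻¹ * E₂⁻¹` has the Gram matrix `G₁ + G₂ + G₁' + G₂'`.

`PairG.affine`: by induction on `InG V v G` (as in `InG.exists_list`, `InP.affine`) there is for given `m δ`
a list `cs` in `V` with `G = (cs.map Gc).sum`,
`homL id (v i) - homL id (v j) = (cs.map (· i)).sum - (cs.map (· j)).sum` and
`InG V (map ∘ v) (cs.map (fun c => Gc (fun j => m + δ * c j))).sum`.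
`tp (m + δ * c i) (m + δ * c j) = tp m m + tp m (δ * c j) + tp (δ * c i) m + tp δ δ * tp (c i) (c j)`.
For the two lists `cs`, `cs'` of `E`, `E⁻¹` the sum `S = ∑_{c ∈ cs ++ cs'} c j` does not depend on `j`,
so the cross terms `tp m (δ * S) + tp (δ * S) m` are constant.

`pair_path`: let `ρ₀ = 1 / (c j - c i)`.  `E_{m,δ} = (a_{m + δ * ρ₀ * (c l - c i)} * a_m⁻¹)_l` is obtained from
`colF c` by `PairG.affine` (with `m - δ * ρ₀ * c i` and `δ * ρ₀`) and the constant `a_m⁻¹`; pair Gram matrix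
`tp (δ ρ₀) (δ ρ₀) * D`; it is `1` in row `i` and `a_{m+δ} a_m⁻¹` in row `j`.  By induction on `n` the element
`E_{x' + (n-1) δ, δ} * ... * E_{x', δ}` is `1` in row `i`, `a_{x' + n δ} a_{x'}⁻¹` in row `j` and has pair Gram
matrix `n * tp (δ ρ₀) (δ ρ₀) * D`.  Take `δ = (x - x') / M`, `n = M`, `ρ = (x - x') * ρ₀`:
`M * tp (ρ / M) (ρ / M) = M⁻¹ • tp ρ ρ`.
-/

namespace Vale.Agent.Lib.P058

variable {J : Type}

theorem PairG.congr {V : Set (J → ℝ)} {E E' : J → FreeGroup ℝ} {Γ Γ' : J → J → TT}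
    (h : PairG V E Γ) (hE : E = E') (hΓ : EqC Γ Γ') : PairG V E' Γ' := by
  subst hE
  obtain ⟨G, G', h1, h2, h3⟩ := h
  exact ⟨G, G', h1, h2, h3.trans hΓ⟩

theorem PairG.const (V : Set (J → ℝ)) (b : FreeGroup ℝ) : PairG V (fun _ => b) 0 :=
  ⟨0, 0, InG.const b, (InG.const b⁻¹ : InG V (fun _ => b⁻¹) 0), EqC.of_eq (by simp)⟩

theorem PairG.mul {V : Set (J → ℝ)} {E E' : J → FreeGroup ℝ} {Γ Γ' : J → J → TT}
    (h : PairG V E Γ) (h' : PairG V E' Γ') : PairG V (E * E') (Γ + Γ') := by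
  obtain ⟨G, G', h1, h2, h3⟩ := h
  obtain ⟨H, H', k1, k2, k3⟩ := h'
  refine ⟨G + H, H' + G', InG.mul h1 k1, ?_, ?_⟩
  · rw [mul_inv_rev]
    exact InG.mul k2 h2
  · have e : (G + H) + (H' + G') = (G + G') + (H + H') := by abel
    rw [e]
    exact h3.add k3

theorem PairG.inv {V : Set (J → ℝ)} {E : J → FreeGroup ℝ} {Γ : J → J → TT}
    (h : PairG V E Γ) : PairG V E⁻¹ Γ := by
  obtain ⟨G, G', h1, h2, h3⟩ := h
  refine ⟨G', G, h2, ?_, ?_⟩
  · rw [inv_inv]
    exact h1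
  · rw [add_comm]
    exact h3

theorem PairG.comm {V : Set (J → ℝ)} {E E' : J → FreeGroup ℝ} {Γ Γ' : J → J → TT}
    (h : PairG V E Γ) (h' : PairG V E' Γ') : ∃ G, InG V (E * E' * E⁻¹ * E'⁻¹) G ∧ EqC G (Γ + Γ') := by
  obtain ⟨G, G', h1, h2, h3⟩ := h
  obtain ⟨H, H', k1, k2, k3⟩ := h'
  refine ⟨G + H + G' + H', InG.mul (InG.mul (InG.mul h1 k1) h2) k2, ?_⟩
  have e : G + H + G' + H' = (G + G') + (H + H') := by abel
  rw [e]
  exact h3.add k3

theorem PairG.comm_pair {V : Set (J → ℝ)} {E E' : J → FreeGroup ℝ} {Γ Γ' : J → J → TT}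
    (h : PairG V E Γ) (h' : PairG V E' Γ') :
    PairG V (E * E' * E⁻¹ * E'⁻¹) ((Γ + Γ') + (Γ + Γ')) := by
  obtain ⟨G, h1, h2⟩ := h.comm h'
  obtain ⟨H, k1, k2⟩ := h'.comm h
  refine ⟨G, H, h1, ?_, ?_⟩
  · have e : (E * E' * E⁻¹ * E'⁻¹)⁻¹ = E' * E * E'⁻¹ * E⁻¹ := by group
    rw [e]
    exact k1
  · rw [add_comm Γ' Γ] at k2
    exact h2.add k2

private theorem inG_affine {V : Submodule ℝ (J → ℝ)} (hone : (fun _ => (1 : ℝ)) ∈ V) (m δ : ℝ)
    {v : J → FreeGroup ℝ} {G : J → J → TT} (h : InG (V : Set (J → ℝ)) v G) :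
    ∃ cs : List (J → ℝ), G = (cs.map Gc).sum ∧
      (∀ i j, homL id (v i) - homL id (v j) =
        (cs.map (fun c => c i)).sum - (cs.map (fun c => c j)).sum) ∧
      InG (V : Set (J → ℝ)) (fun j => FreeGroup.map (fun x : ℝ => m + δ * x) (v j))
        (cs.map (fun c => Gc (fun j => m + δ * c j))).sum := by
  induction h with
  | const b => exact ⟨[], by simp, by simp, (InG.const _).of_eq rfl (by simp)⟩
  | col c hc =>
    have hmem : (fun j => m + δ * c j) ∈ V := by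
      have h1 := V.add_mem (V.smul_mem m hone) (V.smul_mem δ hc)
      have h2 : m • (fun _ : J => (1 : ℝ)) + δ • c = fun j => m + δ * c j := by
        funext j
        simp
      rwa [h2] at h1
    refine ⟨[c], by simp, by simp [colF], ?_⟩
    refine (InG.col _ hmem).of_eq ?_ (by simp)
    funext j
    simp [colF]
  | mul _ _ ih ih' =>
    obtain ⟨L, h1, h2, h3⟩ := ih
    obtain ⟨L', h1', h2', h3'⟩ := ih'
    refine ⟨L ++ L', ?_, ?_, ?_⟩
    · rw [h1, h1', List.map_append, List.sum_append]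
    · intro i j
      have e1 := h2 i j
      have e2 := h2' i j
      simp only [List.map_append, List.sum_append, Pi.mul_apply, homL_mul]
      linarith
    · refine (InG.mul h3 h3').of_eq ?_ ?_
      · funext j
        simp
      · rw [List.map_append, List.sum_append]

private theorem tp_aff (m δ x y : ℝ) :
    tp (m + δ * x) (m + δ * y) =
      tp m m + tp m (δ * y) + tp (δ * x) m + tp δ δ * tp x y := by
  rw [tp_mul_tp, tp_add_left, tp_add_right, tp_add_right]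
  abel

private theorem sum_aff (m δ : ℝ) (L : List (J → ℝ)) (i j : J) :
    (L.map (fun c => Gc (fun l => m + δ * c l))).sum i j =
      L.length • tp m m + tp m (δ * (L.map (fun c => c j)).sum) +
        tp (δ * (L.map (fun c => c i)).sum) m + tp δ δ * (L.map Gc).sum i j := by
  induction L with
  | nil => simp
  | cons c L ih =>
    simp only [List.map_cons, List.sum_cons, Pi.add_apply, ih, List.length_cons]
    have h1 : Gc (fun l => m + δ * c l) i j = tp (m + δ * c i) (m + δ * c j) := rfl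
    have h2 : Gc c i j = tp (c i) (c j) := rfl
    rw [h1, h2, tp_aff, mul_add δ, mul_add δ, tp_add_left, tp_add_right, succ_nsmul, mul_add]
    abel

theorem PairG.affine {V : Submodule ℝ (J → ℝ)} (hone : (fun _ => (1 : ℝ)) ∈ V) (m δ : ℝ)
    {E : J → FreeGroup ℝ} {Γ : J → J → TT} (h : PairG (V : Set (J → ℝ)) E Γ) :
    PairG (V : Set (J → ℝ)) (fun l => FreeGroup.map (fun x : ℝ => m + δ * x) (E l))
      (fun i j => tp δ δ * Γ i j) := by
  obtain ⟨G, G', h1, h2, s, hs⟩ := h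
  obtain ⟨L, a1, a2, a3⟩ := inG_affine hone m δ h1
  obtain ⟨L', b1, b2, b3⟩ := inG_affine hone m δ h2
  have hS : ∃ S : ℝ, ∀ j : J, (L.map (fun c => c j)).sum + (L'.map (fun c => c j)).sum = S := by
    by_cases hJ : Nonempty J
    · obtain ⟨j0⟩ := hJ
      refine ⟨(L.map (fun c => c j0)).sum + (L'.map (fun c => c j0)).sum, fun j => ?_⟩
      have e1 := a2 j j0
      have e2 := b2 j j0
      simp only [Pi.inv_apply, homL_inv] at e2
      linarith
    · exact ⟨0, fun j => absurd ⟨j⟩ hJ⟩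
  obtain ⟨S, hS⟩ := hS
  refine ⟨_, _, a3, b3.of_eq ?_ rfl, (L.length • tp m m + L'.length • tp m m) + tp m (δ * S) +
    tp (δ * S) m + tp δ δ * s, fun i j => ?_⟩
  · funext l
    simp
  · have e0 := hs i j
    simp only [Pi.add_apply] at e0 ⊢
    rw [sum_aff, sum_aff, ← a1, ← b1]
    have e1 : tp m (δ * S) = tp m (δ * (L.map (fun c => c j)).sum) +
        tp m (δ * (L'.map (fun c => c j)).sum) := by
      rw [← tp_add_right, ← mul_add, hS j]
    have e2 : tp (δ * S) m = tp (δ * (L.map (fun c => c i)).sum) m +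
        tp (δ * (L'.map (fun c => c i)).sum) m := by
      rw [← tp_add_left, ← mul_add, hS i]
    have e3 : tp δ δ * Γ i j + tp δ δ * s = tp δ δ * G i j + tp δ δ * G' i j := by
      rw [← mul_add, ← mul_add, ← e0]
    rw [e1, e2]
    calc _ = (L.length • tp m m + L'.length • tp m m) + (tp m (δ * (L.map (fun c => c j)).sum) +
        tp m (δ * (L'.map (fun c => c j)).sum)) + (tp (δ * (L.map (fun c => c i)).sum) m +
        tp (δ * (L'.map (fun c => c i)).sum) m) + (tp δ δ * G i j + tp δ δ * G' i j) := by abel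
      _ = _ := by rw [← e3]; abel

theorem Un.pair {V : Set (J → ℝ)} {c : J → ℝ} (hc : c ∈ V) (h : Un V c) :
    ∃ D : J → J → TT, Exc V D ∧ PairG V (colF c) D := by
  obtain ⟨G, hG⟩ := h
  refine ⟨Gc c + G, ⟨1, 0, (InG.mul (InG.col c hc) hG).of_eq ?_ ?_⟩,
    Gc c, G, InG.col c hc, hG.of_eq rfl rfl, EqC.refl _⟩
  · funext j
    simp [colF]
  · funext i j
    simp

private theorem nsmul_tp (n : ℕ) (x y : ℝ) : n • tp x y = tp x (n * y) := by
  induction n with
  | zero => simp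
  | succ n ih =>
    rw [succ_nsmul, ih, ← tp_add_right]
    congr 1
    push_cast
    ring

private theorem path_step {V : Submodule ℝ (J → ℝ)} (hone : (fun _ => (1 : ℝ)) ∈ V) {c : J → ℝ}
    {D : J → J → TT} (h : PairG (V : Set (J → ℝ)) (colF c) D) {i j : J} (hij : c i ≠ c j)
    (δ m : ℝ) :
    ∃ E : J → FreeGroup ℝ, E i = 1 ∧ E j = FreeGroup.of (m + δ) * (FreeGroup.of m)⁻¹ ∧
      PairG (V : Set (J → ℝ)) E (fun a b =>
        tp (δ * (1 / (c j - c i))) (δ * (1 / (c j - c i))) * D a b) := by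
  have h1 := h.affine hone (m - δ * (1 / (c j - c i)) * c i) (δ * (1 / (c j - c i)))
  have h2 := h1.mul (PairG.const (V : Set (J → ℝ)) (FreeGroup.of m)⁻¹)
  have hne : c j - c i ≠ 0 := sub_ne_zero.mpr (Ne.symm hij)
  refine ⟨_, ?_, ?_, h2.congr rfl (EqC.of_eq (add_zero _))⟩
  · simp only [Pi.mul_apply, colF, FreeGroup.map.of]
    rw [sub_add_cancel, mul_inv_cancel]
  · simp only [Pi.mul_apply, colF, FreeGroup.map.of]
    congr 2
    have e : m - δ * (1 / (c j - c i)) * c i + δ * (1 / (c j - c i)) * c j =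
        m + δ * ((c j - c i) * (1 / (c j - c i))) := by ring
    rw [e, mul_one_div_cancel hne, mul_one]

private theorem path_chain {V : Submodule ℝ (J → ℝ)} (hone : (fun _ => (1 : ℝ)) ∈ V) {c : J → ℝ}
    {D : J → J → TT} (h : PairG (V : Set (J → ℝ)) (colF c) D) {i j : J} (hij : c i ≠ c j)
    (δ x' : ℝ) (n : ℕ) :
    ∃ E : J → FreeGroup ℝ, E i = 1 ∧ E j = FreeGroup.of (x' + n * δ) * (FreeGroup.of x')⁻¹ ∧
      PairG (V : Set (J → ℝ)) E (fun a b =>
        n • (tp (δ * (1 / (c j - c i))) (δ * (1 / (c j - c i))) * D a b)) := by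
  induction n with
  | zero =>
    refine ⟨1, rfl, ?_, ?_⟩
    · simp
    · refine (PairG.const (V : Set (J → ℝ)) 1).congr rfl (EqC.of_eq ?_)
      funext a b
      simp
  | succ n ih =>
    obtain ⟨E, h1, h2, h3⟩ := ih
    obtain ⟨E', k1, k2, k3⟩ := path_step hone h hij δ (x' + n * δ)
    refine ⟨E' * E, ?_, ?_, (k3.mul h3).congr rfl (EqC.of_eq ?_)⟩
    · rw [Pi.mul_apply, h1, k1, one_mul]
    · rw [Pi.mul_apply, h2, k2]
      have e : x' + ((n + 1 : ℕ) : ℝ) * δ = x' + n * δ + δ := by push_cast; ring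
      rw [e]
      group
    · funext a b
      simp only [Pi.add_apply]
      rw [succ_nsmul']

theorem pair_path {V : Submodule ℝ (J → ℝ)} (hone : (fun _ => (1 : ℝ)) ∈ V) {c : J → ℝ}
    {D : J → J → TT} (h : PairG (V : Set (J → ℝ)) (colF c) D) {i j : J} (hij : c i ≠ c j)
    (x x' : ℝ) :
    ∃ ρ : ℝ, ∀ M : ℕ, 0 < M → ∃ E : J → FreeGroup ℝ, E i = 1 ∧
      E j = FreeGroup.of x * (FreeGroup.of x')⁻¹ ∧
      PairG (V : Set (J → ℝ)) E (fun a b => (M : ℝ)⁻¹ • (tp ρ ρ * D a b)) := by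
  refine ⟨(x - x') * (1 / (c j - c i)), fun M hM => ?_⟩
  have hM' : (M : ℝ) ≠ 0 := by
    have := Nat.pos_iff_ne_zero.mp hM
    exact_mod_cast this
  obtain ⟨E, h1, h2, h3⟩ := path_chain hone h hij ((x - x') / M) x' M
  refine ⟨E, h1, ?_, h3.congr rfl (EqC.of_eq ?_)⟩
  · rw [h2, mul_div_cancel₀ _ hM', add_sub_cancel]
  · funext a b
    rw [real_smul_eq, ← mul_assoc, tp_mul_tp, one_mul, ← smul_mul_assoc, nsmul_tp]
    congr 2
    · field_simp
    · field_simp

end Vale.Agent.Lib.P058
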