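import Vale.Agent.Lib.P058C.EngA

/-!
# P058C, module EngB: accessible elements and elements close to 1

`{g | AccQ s j g}` is closed under products (`R₁ ++ R₂`, `sm_append`, `PairG.mul`), inverses
(`PairG.inv`), conjugation by constants, and contains `1` (`R = []`).  So it is a normal subgroup `Acc s j`.
`acc_F0`: it contains the `a_x * a_y⁻¹` if `s = {i}`, `i ≠ j` (`pair_path`, `R = [(ρ, k)]`), hence
`F0` (`Subgroup.normalClosure_le_normal`, or `closure_induction` as in module NullA).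
`acc_comm`: for `g ∈ Acc s j`, `g' ∈ Acc s' j` take `E * E' * E⁻¹ * E'⁻¹` (`PairG.comm_pair`), `R = (R₁ ++ R₂) ++ (R₁ ++ R₂)`;
in rows of `s` it is `1 * g' * 1⁻¹ * g'⁻¹ = 1`.
`acc_gam`: induction on `s`: `⁅gam (|s| - 1), F0⁆ ≤ ⁅Acc s j, Acc {i} j⁆ ≤ Acc (insert i s) j`
(`Subgroup.commutator_le`); the case of one element is `acc_F0`.
`accC_gam`: `{g | AccC s j g ∧ AccC s j g⁻¹}` is closed under products and inverses, contains `1` and
`⁅g, g'⁆` for `g ∈ gam (|s| - 1)`, `g' ∈ F0` (`acc_gam`, `acc_F0` for some `i ∈ s`, `PairG.comm`; the inverse is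
`⁅g', g⁆`), so it contains `gam |s|` = the closure of these commutators
(`Subgroup.commutator_def`, `Subgroup.closure_induction`).
`rows`: if `J` has one element, `n` is constant, `R = []`.  Otherwise by induction on a finset `S` the
element `fun j => if j ∈ S then n j else 1` has the property: multiply by the element `E` of `AccC`
for `s = univ.erase a`, which is `Pi.mulSingle a (n a)`.
-/

namespace Vale.Agent.Lib.P058

variable {J : Type} {κ : Type}

/-- accessible elements: `g` in row `j`, `1` in the rows of `s` -/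
def AccQ (V : Set (J → ℝ)) (D : κ → J → J → TT) (s : Finset J) (j : J) (g : FreeGroup ℝ) : Prop :=
  ∃ R : List (ℝ × κ), ∀ M : ℕ, 0 < M → ∃ E : J → FreeGroup ℝ, E j = g ∧ (∀ i ∈ s, E i = 1) ∧
    PairG V E (sm D R M)

/-- the one-sided version -/
def AccC (V : Set (J → ℝ)) (D : κ → J → J → TT) (s : Finset J) (j : J) (g : FreeGroup ℝ) : Prop :=
  ∃ R : List (ℝ × κ), ∀ M : ℕ, 0 < M → ∃ (E : J → FreeGroup ℝ) (G : J → J → TT),
    E j = g ∧ (∀ i ∈ s, E i = 1) ∧ InG V E G ∧ EqC G (sm D R M)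

/-- the accessible elements form a subgroup -/
def Acc (V : Set (J → ℝ)) (D : κ → J → J → TT) (s : Finset J) (j : J) :
    Subgroup (FreeGroup ℝ) where
  carrier := {g | AccQ V D s j g}
  mul_mem' := by
    rintro g g' ⟨R, hR⟩ ⟨R', hR'⟩
    refine ⟨R ++ R', fun M hM => ?_⟩
    obtain ⟨E, hj, hs, hE⟩ := hR M hM
    obtain ⟨E', hj', hs', hE'⟩ := hR' M hM
    refine ⟨E * E', ?_, fun i hi => ?_, ?_⟩
    · rw [Pi.mul_apply, hj, hj']
    · rw [Pi.mul_apply, hs i hi, hs' i hi, one_mul]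
    · rw [sm_append]
      exact hE.mul hE'
  one_mem' := by
    refine ⟨[], fun M _ => ⟨fun _ => 1, rfl, fun _ _ => rfl, ?_⟩⟩
    rw [sm_nil]
    exact PairG.const V 1
  inv_mem' := by
    rintro g ⟨R, hR⟩
    refine ⟨R, fun M hM => ?_⟩
    obtain ⟨E, hj, hs, hE⟩ := hR M hM
    refine ⟨E⁻¹, ?_, fun i hi => ?_, hE.inv⟩
    · rw [Pi.inv_apply, hj]
    · rw [Pi.inv_apply, hs i hi, inv_one]

private theorem mem_Acc {V : Set (J → ℝ)} {D : κ → J → J → TT} {s : Finset J} {j : J}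
    {g : FreeGroup ℝ} : g ∈ Acc V D s j ↔ AccQ V D s j g := Iff.rfl

theorem Acc_normal (V : Set (J → ℝ)) (D : κ → J → J → TT) (s : Finset J) (j : J) :
    (Acc V D s j).Normal := by
  constructor
  rintro g ⟨R, hR⟩ b
  refine ⟨R, fun M hM => ?_⟩
  obtain ⟨E, hj, hs, hE⟩ := hR M hM
  refine ⟨(fun _ => b) * E * (fun _ => b⁻¹), ?_, fun i hi => ?_, ?_⟩
  · simp only [Pi.mul_apply, hj]
  · simp only [Pi.mul_apply, hs i hi, mul_one, mul_inv_cancel]
  · refine (((PairG.const V b).mul hE).mul (PairG.const V b⁻¹)).congr rfl ?_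
    refine EqC.of_eq ?_
    rw [zero_add, add_zero]

theorem acc_F0 {V : Submodule ℝ (J → ℝ)} (hone : (fun _ => (1 : ℝ)) ∈ V) {D : κ → J → J → TT}
    {c : J → ℝ} {k : κ} (h : PairG (V : Set (J → ℝ)) (colF c) (D k)) {i j : J} (hij : c i ≠ c j) :
    F0 ≤ Acc (V : Set (J → ℝ)) D {i} j := by
  have hn := Acc_normal (V : Set (J → ℝ)) D {i} j
  unfold F0
  refine Subgroup.normalClosure_le_normal ?_
  rintro g ⟨x, y, rfl⟩
  obtain ⟨ρ, hρ⟩ := pair_path hone h hij x y
  refine ⟨[(ρ, k)], fun M hM => ?_⟩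
  obtain ⟨E, hi, hj, hE⟩ := hρ M hM
  refine ⟨E, hj, fun l hl => ?_, hE.congr rfl (EqC.of_eq ?_)⟩
  · rw [Finset.mem_singleton] at hl
    rw [hl, hi]
  · funext a b
    simp [sm, RS]

theorem acc_comm [DecidableEq J] {V : Set (J → ℝ)} {D : κ → J → J → TT} {s s' : Finset J} {j : J} :
    ⁅Acc V D s j, Acc V D s' j⁆ ≤ Acc V D (s ∪ s') j := by
  rw [Subgroup.commutator_le]
  rintro g ⟨R, hR⟩ g' ⟨R', hR'⟩
  refine ⟨(R ++ R') ++ (R ++ R'), fun M hM => ?_⟩
  obtain ⟨E, hj, hs, hE⟩ := hR M hM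
  obtain ⟨E', hj', hs', hE'⟩ := hR' M hM
  refine ⟨E * E' * E⁻¹ * E'⁻¹, ?_, fun i hi => ?_, ?_⟩
  · simp only [Pi.mul_apply, Pi.inv_apply, hj, hj', commutatorElement_def]
  · rcases Finset.mem_union.1 hi with h | h
    · simp only [Pi.mul_apply, Pi.inv_apply, hs i h]
      group
    · simp only [Pi.mul_apply, Pi.inv_apply, hs' i h]
      group
  · rw [sm_append, sm_append]
    exact hE.comm_pair hE'

theorem acc_gam [DecidableEq J] {V : Submodule ℝ (J → ℝ)} (hone : (fun _ => (1 : ℝ)) ∈ V)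
    {D : κ → J → J → TT}
    (hD : ∀ i j, i ≠ j → ∃ (c : J → ℝ) (k : κ), PairG (V : Set (J → ℝ)) (colF c) (D k) ∧ c i ≠ c j)
    (s : Finset J) (j : J) (hj : j ∉ s) (hs : s.Nonempty) :
    gam (s.card - 1) ≤ Acc (V : Set (J → ℝ)) D s j := by
  induction hs using Finset.Nonempty.cons_induction with
  | singleton i =>
    rw [Finset.card_singleton, Nat.sub_self]
    have hij : i ≠ j := fun h => hj (by rw [Finset.mem_singleton, h])
    obtain ⟨c, k, hc, hne⟩ := hD i j hij
    exact acc_F0 hone hc hne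
  | cons i s hi hs ih =>
    rw [Finset.mem_cons, not_or] at hj
    obtain ⟨c, k, hc, hne⟩ := hD i j (fun h => hj.1 h.symm)
    have hcard : (Finset.cons i s hi).card - 1 = (s.card - 1) + 1 := by
      rw [Finset.card_cons]
      have := hs.card_pos
      omega
    have hun : Finset.cons i s hi = s ∪ {i} := by
      rw [Finset.cons_eq_insert, Finset.insert_eq, Finset.union_comm]
    rw [hcard, hun]
    exact (Subgroup.commutator_mono (ih hj.2) (acc_F0 hone hc hne)).trans acc_comm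

private theorem AccC.one (V : Set (J → ℝ)) (D : κ → J → J → TT) (s : Finset J) (j : J) :
    AccC V D s j 1 := by
  refine ⟨[], fun M _ => ⟨fun _ => 1, 0, rfl, fun _ _ => rfl, InG.const 1, ?_⟩⟩
  rw [sm_nil]
  exact EqC.refl 0

private theorem AccC.mul {V : Set (J → ℝ)} {D : κ → J → J → TT} {s : Finset J} {j : J}
    {g g' : FreeGroup ℝ} (h : AccC V D s j g) (h' : AccC V D s j g') : AccC V D s j (g * g') := by
  obtain ⟨R, hR⟩ := h
  obtain ⟨R', hR'⟩ := h'
  refine ⟨R ++ R', fun M hM => ?_⟩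
  obtain ⟨E, G, hj, hs, hE, hG⟩ := hR M hM
  obtain ⟨E', G', hj', hs', hE', hG'⟩ := hR' M hM
  refine ⟨E * E', G + G', ?_, fun i hi => ?_, hE.mul hE', ?_⟩
  · rw [Pi.mul_apply, hj, hj']
  · rw [Pi.mul_apply, hs i hi, hs' i hi, one_mul]
  · rw [sm_append]
    exact hG.add hG'

private theorem AccC.comm {V : Set (J → ℝ)} {D : κ → J → J → TT} {s s' : Finset J} {j : J}
    {g g' : FreeGroup ℝ} (h : AccQ V D s j g) (h' : AccQ V D s' j g') (t : Finset J)
    (ht : ∀ i ∈ t, i ∈ s ∨ i ∈ s') : AccC V D t j (g * g' * g⁻¹ * g'⁻¹) := by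
  obtain ⟨R, hR⟩ := h
  obtain ⟨R', hR'⟩ := h'
  refine ⟨R ++ R', fun M hM => ?_⟩
  obtain ⟨E, hj, hs, hE⟩ := hR M hM
  obtain ⟨E', hj', hs', hE'⟩ := hR' M hM
  obtain ⟨G, hG, hG'⟩ := hE.comm hE'
  refine ⟨E * E' * E⁻¹ * E'⁻¹, G, ?_, fun i hi => ?_, hG, ?_⟩
  · simp only [Pi.mul_apply, Pi.inv_apply, hj, hj']
  · rcases ht i hi with h | h
    · simp only [Pi.mul_apply, Pi.inv_apply, hs i h]
      group
    · simp only [Pi.mul_apply, Pi.inv_apply, hs' i h]
      group
  · rw [sm_append]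
    exact hG'

theorem accC_gam [DecidableEq J] {V : Submodule ℝ (J → ℝ)} (hone : (fun _ => (1 : ℝ)) ∈ V)
    {D : κ → J → J → TT}
    (hD : ∀ i j, i ≠ j → ∃ (c : J → ℝ) (k : κ), PairG (V : Set (J → ℝ)) (colF c) (D k) ∧ c i ≠ c j)
    (s : Finset J) (j : J) (hj : j ∉ s) (hs : s.Nonempty) (g : FreeGroup ℝ) (hg : g ∈ gam s.card) :
    AccC (V : Set (J → ℝ)) D s j g := by
  suffices h : AccC (V : Set (J → ℝ)) D s j g ∧ AccC (V : Set (J → ℝ)) D s j g⁻¹ from h.1
  have hcard : s.card = (s.card - 1) + 1 := by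
    have := hs.card_pos
    omega
  rw [hcard] at hg
  obtain ⟨i, hi⟩ := id hs
  have hij : i ≠ j := fun h => hj (h ▸ hi)
  obtain ⟨c, k, hc, hne⟩ := hD i j hij
  have h1 := acc_gam hone hD s j hj hs
  have h2 := acc_F0 hone hc hne
  have hg' : g ∈ ⁅gam (s.card - 1), F0⁆ := hg
  clear hg
  rw [Subgroup.commutator_def] at hg'
  induction hg' using Subgroup.closure_induction with
  | mem g hg =>
    obtain ⟨a, ha, b, hb, rfl⟩ := hg
    constructor
    · rw [commutatorElement_def]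
      exact AccC.comm (h1 ha) (h2 hb) s (fun i hi => Or.inl hi)
    · rw [commutatorElement_inv, commutatorElement_def]
      exact AccC.comm (h2 hb) (h1 ha) s (fun i hi => Or.inr hi)
  | one =>
    rw [inv_one]
    exact ⟨AccC.one _ _ _ _, AccC.one _ _ _ _⟩
  | mul g h _ _ e1 e2 =>
    rw [mul_inv_rev]
    exact ⟨e1.1.mul e2.1, e2.2.mul e1.2⟩
  | inv g _ e1 =>
    rw [inv_inv]
    exact ⟨e1.2, e1.1⟩

theorem rows [Fintype J] [DecidableEq J] {V : Submodule ℝ (J → ℝ)}
    (hone : (fun _ => (1 : ℝ)) ∈ V) {D : κ → J → J → TT}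
    (hD : ∀ i j, i ≠ j → ∃ (c : J → ℝ) (k : κ), PairG (V : Set (J → ℝ)) (colF c) (D k) ∧ c i ≠ c j)
    (n : J → FreeGroup ℝ) (hn : ∀ j, n j ∈ gam (Fintype.card J - 1)) :
    ∃ R : List (ℝ × κ), ∀ M : ℕ, 0 < M → ∃ G : J → J → TT,
      InG (V : Set (J → ℝ)) n G ∧ EqC G (sm D R M) := by
  rcases subsingleton_or_nontrivial J with hJ | hJ
  · refine ⟨[], fun M _ => ⟨0, ?_, ?_⟩⟩
    · rcases isEmpty_or_nonempty J with hJ' | ⟨⟨j0⟩⟩
      · exact (InG.const 1).of_eq (Subsingleton.elim _ _) rfl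
      · refine (InG.const (n j0)).of_eq ?_ rfl
        funext j
        rw [Subsingleton.elim j j0]
    · rw [sm_nil]
      exact EqC.refl 0
  · have key : ∀ S : Finset J, ∃ R : List (ℝ × κ), ∀ M : ℕ, 0 < M → ∃ G : J → J → TT,
        InG (V : Set (J → ℝ)) (fun j => if j ∈ S then n j else 1) G ∧ EqC G (sm D R M) := by
      intro S
      induction S using Finset.induction_on with
      | empty =>
        refine ⟨[], fun M _ => ⟨0, ?_, ?_⟩⟩
        · refine (InG.const 1).of_eq ?_ rfl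
          funext j
          simp
        · rw [sm_nil]
          exact EqC.refl 0
      | insert a S ha ih =>
        obtain ⟨R, hR⟩ := ih
        have hne : (Finset.univ.erase a).Nonempty := by
          obtain ⟨b, hb⟩ := exists_ne a
          exact ⟨b, Finset.mem_erase.2 ⟨hb, Finset.mem_univ b⟩⟩
        have hcard : (Finset.univ.erase a).card = Fintype.card J - 1 := by
          rw [Finset.card_erase_of_mem (Finset.mem_univ a), Finset.card_univ]
        have hna := hn a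
        rw [← hcard] at hna
        obtain ⟨R', hR'⟩ := accC_gam hone hD (Finset.univ.erase a) a
          (Finset.notMem_erase a _) hne (n a) hna
        refine ⟨R ++ R', fun M hM => ?_⟩
        obtain ⟨G, hG, hG1⟩ := hR M hM
        obtain ⟨E, G', hj, hs, hE, hG'⟩ := hR' M hM
        refine ⟨G + G', (hG.mul hE).of_eq ?_ rfl, ?_⟩
        · funext j
          rw [Pi.mul_apply]
          by_cases hja : j = a
          · subst hja
            rw [hj, if_neg ha, if_pos (Finset.mem_insert_self j S), one_mul]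
          · rw [hs j (Finset.mem_erase.2 ⟨hja, Finset.mem_univ j⟩), mul_one]
            by_cases hjS : j ∈ S
            · rw [if_pos hjS, if_pos (Finset.mem_insert_of_mem hjS)]
            · have : j ∉ insert a S := by
                rw [Finset.mem_insert, not_or]
                exact ⟨hja, hjS⟩
              rw [if_neg hjS, if_neg this]
        · rw [sm_append]
          exact hG1.add hG'
    obtain ⟨R, hR⟩ := key Finset.univ
    refine ⟨R, fun M hM => ?_⟩
    obtain ⟨G, hG, hG'⟩ := hR M hM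
    refine ⟨G, hG.of_eq ?_ rfl, hG'⟩
    funext j
    rw [if_pos (Finset.mem_univ j)]

end Vale.Agent.Lib.P058
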