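import Vale.Agent.Lib.P058C.EngDefs

/-!
# P058C, module EngC: symmetric words

`WS 0 l = l.prod`, `WS (k + 1) l` = product of the `WS k p` over all permutations `p` of `l`
(`List.permutations`, whose first element is `l`: `List.permutations` unfolds to `l :: permutationsAux l []`).

`WS_map`: `List.map_permutations`, `map_list_prod`.
`WS_mem`: induction, `Subgroup.list_prod_mem`.
`WS_perm`: induction on `k`.  `k = 0`: in `FreeGroup ℝ ⧸ gam 1` the images of elements of `F0` commute
(`⁅F0, F0⁆ = gam 1`), `List.Perm.prod_eq'` with `List.Pairwise`.  `k → k + 1`: in `FreeGroup ℝ ⧸ gam (k + 2)` the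
images of all `WS k p`, `p` a permutation of `l`, commute pairwise: for `u v ∈ F0`, `g = u⁻¹ * v ∈ gam (k + 1)`:
`⁅u, v⁆ = ⁅u, u * g⁆ = u * ⁅u, g⁆ * u⁻¹ ∈ gam (k + 2)` (`Subgroup.commutator_comm`).  And
`l.permutations` is a permutation of `l'.permutations` (`List.Perm.permutations`).
`WS_gram`: induction on `k` for all `L`: `(L.map e0).permutations = L.permutations.map (List.map e0)`; every
`q ∈ L.permutations` is a permutation of `L` (`List.mem_permutations`), so it has the same length and
the same sum `(q.map Gc).sum`; there are `L.length !` of them (`List.length_permutations`).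
`WS_head`: induction on `k`; the first factor of the product over `permutations` is `WS k` of the list itself.
`WS_rows`: `WS_map` for the evaluation at a row (`Pi.evalMonoidHom`), and `WS_perm`: the lists of letters of
two rows are permutations of each other.
-/

namespace Vale.Agent.Lib.P058

open scoped commutatorElement

/-- symmetric words -/
def WS {M : Type*} [Monoid M] : ℕ → List M → M
  | 0, l => l.prod
  | k + 1, l => (l.permutations.map (WS k)).prod

theorem WS_map {M M' : Type*} [Monoid M] [Monoid M'] (f : M →* M') (k : ℕ) (l : List M) :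
    f (WS k l) = WS k (l.map f) := by
  induction k generalizing l with
  | zero => simp only [WS, map_list_prod]
  | succ k ih =>
    simp only [WS]
    rw [map_list_prod, ← List.map_permutations, List.map_map, List.map_map]
    congr 1
    apply List.map_congr_left
    intro p _
    simp only [Function.comp_apply]
    exact ih p

theorem WS_mem {M : Type*} [Group M] (H : Subgroup M) (k : ℕ) (l : List M) (hl : ∀ x ∈ l, x ∈ H) :
    WS k l ∈ H := by
  induction k generalizing l with
  | zero => exact H.list_prod_mem hl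
  | succ k ih =>
    simp only [WS]
    apply H.list_prod_mem
    intro x hx
    obtain ⟨p, hp, rfl⟩ := List.mem_map.1 hx
    exact ih p (fun y hy => hl y ((List.mem_permutations.1 hp).mem_iff.1 hy))

private theorem engC_prod {G : Type*} [Group G] (N : Subgroup G) [N.Normal] {l l' : List G}
    (h : l.Perm l') (hc : ∀ x ∈ l, ∀ y ∈ l, ⁅x, y⁆ ∈ N) : l.prod⁻¹ * l'.prod ∈ N := by
  rw [← QuotientGroup.eq]
  have h1 : ∀ l : List G, ((l.prod : G) : G ⧸ N) = (l.map (QuotientGroup.mk' N)).prod := by
    intro l
    rw [← map_list_prod]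
    rfl
  rw [h1, h1]
  apply (h.map _).prod_eq'
  rw [List.pairwise_map]
  apply List.pairwise_of_forall_mem_list
  intro x hx y hy
  rw [← commutatorElement_eq_one_iff_commute, ← map_commutatorElement]
  exact (QuotientGroup.eq_one_iff _).2 (hc x hx y hy)

theorem WS_perm (k : ℕ) {l l' : List (FreeGroup ℝ)} (h : l.Perm l') (hl : ∀ x ∈ l, x ∈ F0) :
    (WS k l)⁻¹ * WS k l' ∈ gam (k + 1) := by
  induction k generalizing l l' with
  | zero =>
    have := gam_normal 1
    exact engC_prod (gam 1) h (fun x hx y hy => Subgroup.commutator_mem_commutator (hl x hx) (hl y hy))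
  | succ k ih =>
    have hn := gam_normal (k + 1 + 1)
    simp only [WS]
    apply engC_prod (gam (k + 1 + 1)) (h.permutations.map (WS k))
    intro u hu v hv
    obtain ⟨p, hp, rfl⟩ := List.mem_map.1 hu
    obtain ⟨q, hq, rfl⟩ := List.mem_map.1 hv
    rw [List.mem_permutations] at hp hq
    have hp0 : ∀ y ∈ p, y ∈ F0 := fun y hy => hl y (hp.mem_iff.1 hy)
    have hg := ih (hp.trans hq.symm) hp0
    have hu0 : WS k p ∈ F0 := WS_mem F0 k p hp0
    set g := (WS k p)⁻¹ * WS k q with hgdef
    have hv : WS k q = WS k p * g := by rw [hgdef]; group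
    have h1 : ⁅WS k p, WS k q⁆ = WS k p * ⁅WS k p, g⁆ * (WS k p)⁻¹ := by
      rw [hv]
      simp only [commutatorElement_def]
      group
    rw [h1]
    apply hn.conj_mem
    have h2 : ⁅WS k p, g⁆ ∈ ⁅F0, gam (k + 1)⁆ := Subgroup.commutator_mem_commutator hu0 hg
    rw [Subgroup.commutator_comm] at h2
    exact h2

variable {J : Type}

/-- the element `(a_{c j} * a_0⁻¹)_j` -/
noncomputable def e0 (c : J → ℝ) : J → FreeGroup ℝ := colF c * fun _ => (FreeGroup.of 0)⁻¹

private theorem engC_e0 {V : Set (J → ℝ)} (c : J → ℝ) (hc : c ∈ V) : InG V (e0 c) (Gc c) :=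
  (InG.mul (InG.col c hc) (InG.const (FreeGroup.of 0)⁻¹)).of_eq rfl (add_zero _)

private theorem engC_list {V : Set (J → ℝ)} (L : List (J → ℝ)) (hL : ∀ c ∈ L, c ∈ V) :
    InG V (L.map e0).prod (L.map Gc).sum := by
  induction L with
  | nil => exact InG.const 1
  | cons c L ih =>
    rw [List.map_cons, List.prod_cons, List.map_cons, List.sum_cons]
    exact InG.mul (engC_e0 c (hL c (by simp))) (ih (fun c' hc' => hL c' (by simp [hc'])))

private theorem engC_const {V : Set (J → ℝ)} (l : List (J → FreeGroup ℝ)) (G : J → J → TT)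
    (h : ∀ x ∈ l, InG V x G) : InG V l.prod (l.length • G) := by
  induction l with
  | nil => exact (InG.const 1).of_eq rfl (by simp)
  | cons x l ih =>
    refine (InG.mul (h x (by simp)) (ih (fun y hy => h y (by simp [hy])))).of_eq ?_ ?_
    · rw [List.prod_cons]
    · rw [List.length_cons, succ_nsmul']

private theorem engC_ex {V : Set (J → ℝ)} (l : List (J → FreeGroup ℝ))
    (h : ∀ x ∈ l, ∃ G, InG V x G) : ∃ G, InG V l.prod G := by
  induction l with
  | nil => exact ⟨0, InG.const 1⟩
  | cons x l ih =>
    obtain ⟨G, hG⟩ := h x (by simp)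
    obtain ⟨G', hG'⟩ := ih (fun y hy => h y (by simp [hy]))
    refine ⟨G + G', ?_⟩
    rw [List.prod_cons]
    exact InG.mul hG hG'

theorem WS_gram {V : Set (J → ℝ)} (k : ℕ) (L : List (J → ℝ)) (hL : ∀ c ∈ L, c ∈ V) :
    InG V (WS k (L.map e0)) ((L.length.factorial ^ k) • (L.map Gc).sum) := by
  induction k generalizing L with
  | zero => 
    rw [pow_zero, one_smul]
    exact engC_list L hL
  | succ k ih =>
    simp only [WS]
    rw [← List.map_permutations, List.map_map]
    have h1 := engC_const (V := V) ((L.permutations).map (WS k ∘ List.map e0))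
      ((L.length.factorial ^ k) • (L.map Gc).sum) (by
        intro x hx
        obtain ⟨q, hq, rfl⟩ := List.mem_map.1 hx
        rw [List.mem_permutations] at hq
        have h2 := ih q (fun c hc => hL c (hq.mem_iff.1 hc))
        refine h2.of_eq rfl ?_
        rw [hq.length_eq, (hq.map Gc).sum_eq])
    refine h1.of_eq rfl ?_
    rw [List.length_map, List.length_permutations, pow_succ', mul_smul]

theorem WS_head {V : Set (J → ℝ)} (k : ℕ) (c : J → ℝ) (L : List (J → ℝ))
    (hL : ∀ c' ∈ c :: L, c' ∈ V) :
    ∃ (u : J → FreeGroup ℝ) (G : J → J → TT), InG V u G ∧ WS k ((c :: L).map e0) = e0 c * u := by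
  induction k with
  | zero =>
    refine ⟨(L.map e0).prod, _, engC_list L (fun c' hc' => hL c' (by simp [hc'])), ?_⟩
    simp only [WS, List.map_cons, List.prod_cons]
  | succ k ih =>
    obtain ⟨u, G, hu, he⟩ := ih
    have h0 : ((c :: L).map e0).permutations =
        ((c :: L).map e0) :: List.permutationsAux ((c :: L).map e0) [] := rfl
    obtain ⟨G', hG'⟩ := engC_ex (V := V)
      ((List.permutationsAux ((c :: L).map e0) []).map (WS k)) (by
        intro x hx
        obtain ⟨p, hp, rfl⟩ := List.mem_map.1 hx
        have hp2 : p ∈ ((c :: L).map e0).permutations := by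
          rw [h0]
          exact List.mem_cons_of_mem _ hp
        rw [← List.map_permutations] at hp2
        obtain ⟨q, hq, rfl⟩ := List.mem_map.1 hp2
        rw [List.mem_permutations] at hq
        exact ⟨_, WS_gram k q (fun c' hc' => hL c' (hq.mem_iff.1 hc'))⟩)
    refine ⟨u * ((List.permutationsAux ((c :: L).map e0) []).map (WS k)).prod, G + G',
      InG.mul hu hG', ?_⟩
    simp only [WS]
    rw [h0, List.map_cons, List.prod_cons, he, mul_assoc]

theorem WS_rows (k : ℕ) {L : List (J → ℝ)} (hL : Balanced L) (i j : J) :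
    (WS k (L.map e0) i)⁻¹ * WS k (L.map e0) j ∈ gam (k + 1) := by
  have h1 : ∀ i : J, WS k (L.map e0) i =
      WS k ((L.map (fun c => c i)).map (fun x => FreeGroup.of x * (FreeGroup.of 0)⁻¹)) := by
    intro i
    have h2 := WS_map (Pi.evalMonoidHom (fun _ : J => FreeGroup ℝ) i) k (L.map e0)
    rw [List.map_map] at h2
    rw [List.map_map]
    exact h2
  rw [h1, h1]
  apply WS_perm
  · exact (hL i j).map _
  · intro x hx
    obtain ⟨y, _, rfl⟩ := List.mem_map.1 hx
    exact Subgroup.subset_normalClosure ⟨y, 0, rfl⟩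

end Vale.Agent.Lib.P058
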