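import Vale.Agent.Lib.P058C.InGB
import Vale.Agent.Lib.P058.NullA

/-!
# P058C, module EngDefs: definitions for the engine

`EqC`: equality up to a constant matrix.  `PairG V E Γ`: `E` and `E⁻¹` are products of constants and
columns in `V`, and the sum of their Gram matrices is `Γ` up to a constant.
-/

namespace Vale.Agent.Lib.P058

variable {J : Type}

/-- equality up to a constant matrix -/
def EqC (G G' : J → J → TT) : Prop := ∃ s : TT, ∀ i j, G i j = G' i j + s

theorem EqC.refl (G : J → J → TT) : EqC G G := ⟨0, fun i j => (add_zero _).symm⟩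

theorem EqC.of_eq {G G' : J → J → TT} (h : G = G') : EqC G G' := h ▸ EqC.refl G

theorem EqC.symm {G G' : J → J → TT} (h : EqC G G') : EqC G' G := by
  obtain ⟨s, hs⟩ := h
  exact ⟨-s, fun i j => by rw [hs i j]; abel⟩

theorem EqC.trans {G G' G'' : J → J → TT} (h : EqC G G') (h' : EqC G' G'') : EqC G G'' := by
  obtain ⟨s, hs⟩ := h
  obtain ⟨t, ht⟩ := h'
  exact ⟨t + s, fun i j => by rw [hs i j, ht i j]; abel⟩

theorem EqC.add {G G' H H' : J → J → TT} (h : EqC G G') (h' : EqC H H') :
    EqC (G + H) (G' + H') := by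
  obtain ⟨s, hs⟩ := h
  obtain ⟨t, ht⟩ := h'
  exact ⟨s + t, fun i j => by simp only [Pi.add_apply]; rw [hs i j, ht i j]; abel⟩

/-- `E` and its inverse, with the sum of the two Gram matrices up to a constant -/
def PairG (V : Set (J → ℝ)) (E : J → FreeGroup ℝ) (Γ : J → J → TT) : Prop :=
  ∃ G G' : J → J → TT, InG V E G ∧ InG V E⁻¹ G' ∧ EqC (G + G') Γ

/-- the lower series of `F0` -/
def gam : ℕ → Subgroup (FreeGroup ℝ)
  | 0 => F0
  | k + 1 => ⁅gam k, F0⁆

theorem F0_normal : F0.Normal := by
  unfold F0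
  infer_instance

theorem gam_normal (k : ℕ) : (gam k).Normal := by
  induction k with
  | zero => exact F0_normal
  | succ k ih =>
    have h1 := F0_normal
    exact Subgroup.commutator_normal _ _

theorem gam_succ_le (k : ℕ) : gam (k + 1) ≤ gam k := by
  have h1 := gam_normal k
  have h2 := F0_normal
  exact Subgroup.commutator_le_left _ _

theorem gam_anti {k l : ℕ} (h : k ≤ l) : gam l ≤ gam k := by
  induction l, h using Nat.le_induction with
  | base => exact le_rfl
  | succ l _ ih => exact (gam_succ_le l).trans ih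

theorem gam_le_F0 (k : ℕ) : gam k ≤ F0 := gam_anti (Nat.zero_le k)

/-- the sum of the multiples `tp r r * D k`, `(r, k) ∈ R` -/
noncomputable def RS {κ : Type} (D : κ → J → J → TT) (R : List (ℝ × κ)) : J → J → TT :=
  fun i j => (R.map (fun rk => tp rk.1 rk.1 * D rk.2 i j)).sum

theorem RS_nil {κ : Type} (D : κ → J → J → TT) : RS D [] = 0 := rfl

theorem RS_append {κ : Type} (D : κ → J → J → TT) (R R' : List (ℝ × κ)) :
    RS D (R ++ R') = RS D R + RS D R' := by
  funext i j
  simp [RS]

/-- `Γ` is a small multiple of `RS D R` -/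
noncomputable def sm {κ : Type} (D : κ → J → J → TT) (R : List (ℝ × κ)) (M : ℕ) : J → J → TT :=
  fun i j => (M : ℝ)⁻¹ • RS D R i j

theorem sm_nil {κ : Type} (D : κ → J → J → TT) (M : ℕ) : sm D [] M = 0 := by
  funext i j
  simp [sm, RS_nil]

theorem sm_append {κ : Type} (D : κ → J → J → TT) (R R' : List (ℝ × κ)) (M : ℕ) :
    sm D (R ++ R') M = sm D R M + sm D R' M := by
  funext i j
  simp [sm, RS_append]

end Vale.Agent.Lib.P058
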