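import Vale.Agent.Lib.P058C.EngB
import Vale.Agent.Lib.P058C.EngC

/-!
# P058C, module Engine

`F0` (module NullA) is the normal subgroup of `F = FreeGroup ℝ` generated by the `a_x * a_y⁻¹`.  Let
`gam 0 = F0`, `gam (k + 1) = ⁅gam k, F0⁆` (subgroups of `F`, normal, decreasing).
Columns are `colF c` with `c ∈ V`; `P = {v | ∃ G, InG V v G}` is a monoid containing the constants.
`G ≡ G'` means that `G - G'` is a constant matrix.

(0) Affine letter maps: if `InG V v G` with column list `cs` then for `m δ : ℝ` the element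
`FreeGroup.map (m + δ * ·) ∘ v` is in `P` with column list `m + δ • cs` (cf. `InP.affine` in Basic).
So it is convenient to prove things for the list of columns: `InG V v G` iff there is a list `cs` in `V`
with `G = (cs.map Gc).sum` and `v` is a product of constants and the `colF c`, `c ∈ cs` in order.
If the product is a constant, then `cs` is balanced (count each letter: `homL`), hence
`((m + δ • cs).map Gc).sum ≡ tp δ δ * (cs.map Gc).sum`: cross terms are `tp m (δ ∑ c j)`, and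
`∑_{c ∈ cs} c j` does not depend on `j`.

(1) For `i ≠ j` choose by `hsep` a column `c = c_{ij} ∈ V`, `c i ≠ c j`, with an inverse, and let
`D_{ij}` be the Gram matrix of `c` plus the one of its inverse: `Exc V D_{ij}` (the product is `1`).
These are the `D k` of the theorem.  Let `cbar = (c - c i) / (c j - c i) ∈ V`, `cbar i = 0`, `cbar j = 1`.
For `m δ : ℝ` the element `E_{m,δ} = (a_{m + δ cbar_l} * a_m⁻¹)_l` and its inverse are in `P`, and the sum of
their Gram matrices is `≡ tp (δ ρ) (δ ρ) * D_{ij}`, `ρ = 1 / (c j - c i)`.  It is `1` in the row `i`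
and `a_{m+δ} a_m⁻¹` in the row `j`.  For `x x' : ℝ`, `M ≥ 1`, `δ = (x - x') / M`, `m_k = x' + k δ` the product
`E_{m_{M-1},δ} * ... * E_{m_0,δ}` is `1` in the row `i`, `a_x * a_{x'}⁻¹` in the row `j`, and the sum
of the Gram matrices of it and its inverse is `≡ (1/M) • tp (Δ ρ) (Δ ρ) * D_{ij}`, `Δ = x - x'`.

(2) For a row `j`, a finset `s` of rows, `j ∉ s`, and `g : F` let `AccQ s j g` be: there is a finite list
`R` of pairs `(r, k)` such that for all `M ≥ 1` there is `E : J → F` with `E j = g`, `E i = 1` for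
`i ∈ s`, `InG V E G`, `InG V E⁻¹ G'` and `G + G' ≡ (1/M) • ∑_{(r,k) ∈ R} tp r r * D k`.
`{g | AccQ s j g}` is a normal subgroup of `F`: products, inverses (exchange `E`, `E⁻¹`),
conjugation by constants.  By (1) it contains `F0` if `s = {i}`.
`AccQ s j g`, `AccQ s' j g'` imply `AccQ (s ∪ s') j ⁅g, g'⁆` with `E = ⁅E₁, E₂⁆` (use `R = 2 (R₁ + R₂)`).
So `AccQ s j g` for `g ∈ gam (|s| - 1)`, `s` nonempty.
Let `AccC s j g` be: there is `R` such that for all `M ≥ 1` there is `E` with `E j = g`, `E = 1` on `s`,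
`InG V E G`, `G ≡ (1/M) • ∑ tp r r * D k` (no inverse); it is stable under products and
conjugation by constants.  A commutator `⁅E₁, E₂⁆ = E₁ E₂ E₁⁻¹ E₂⁻¹` has the Gram matrix
`G₁ + G₂ + G₁' + G₂'`, so `AccC s j ⁅g, g'⁆` for `g ∈ gam (|s| - 1)`, `g' ∈ F0`, and for the inverse
`⁅g', g⁆`; so `AccC s j g` for all `g ∈ gam |s|`.  With `s = univ \ {j}`, `n = |J| - 1`:
for `g ∈ gam n` (`n ≥ 1`) the single-row element `Pi.mulSingle j g` is in `P` with
Gram matrix `≡ (1/M) • ∑ tp r r * D k` (`R` independent of `M`).  If `|J| = 1` everything is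
trivial: every element of `J → F` is a constant.

(3) Symmetric words.  For `x : Fin N → F` let `W 0 x = x_1 * ... * x_N`,
`W (k+1) x = ∏_{π ∈ Perm (Fin N)} W k (x ∘ π)` (in a fixed order).  If all `x_l ∈ F0` then
`(W k (x ∘ σ))⁻¹ * W k x ∈ gam (k + 1)` for all permutations `σ`: `k = 0` clear (`F0 / [F0, F0]` is
commutative).  `k → k + 1`: modulo `gam (k + 2)` the elements of `gam (k + 1)` commute with `F0`;
`W k (x ∘ π) = W k x * g_π`, `g_π ∈ gam (k + 1)`, so
`W (k+1) x ≡ (W k x)^{N!} * ∏ g_π` and `W (k+1) (x ∘ σ) ≡ (W k x)^{N!} * ∏ g_{σπ}`, equal.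
For a balanced list `L = [c_1, ..., c_N]` in `V`, the element `v j = W k (l ↦ a_{c_l j} * a_0⁻¹)` of `J → F`
is in `P` with Gram matrix `(N!)^k • (L.map Gc).sum` (induction on `k`, for all reorderings of `L`), and
its rows agree modulo `gam (k + 1)`, because the tuples `(c_l j)_l` of two rows are
permutations of each other.

(4) Let `L` be balanced, `k = |J|`, `v` as in (3), `j₀` a row, `n_j = (v j)⁻¹ * v j₀ ∈ gam (k + 1) ⊆ gam (|J| - 1)`.
`v * ∏_j Pi.mulSingle j n_j` is the constant `v j₀`, with Gram matrix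
`≡ (N!)^k • (L.map Gc).sum + (1/M) • ∑ tp r r * D k`.  This is the second claim (if `N = 0`, trivial).
For the first claim, let `c ∈ V`, `L = c :: L'` balanced (`hbal`): `v` is a product in `P` whose
first factor is `colF c` (the first factor of `W k x` is `x_1`; put the identity permutation first, or use
that `W k x` is a product of `x`'s in which each `x_l` occurs; or simply: with a suitable
permutation the first factor is `c`), so `colF c * u = const` with `u ∈ P`, so
`(colF c)⁻¹ = u * const ∈ P`.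
-/

namespace Vale.Agent.Lib.P058

private theorem engine_balanced {J : Type} [Fintype J] [DecidableEq J] [Nonempty J]
    {V : Submodule ℝ (J → ℝ)} (hone : (fun _ => (1 : ℝ)) ∈ V) {κ : Type} {D : κ → J → J → TT}
    (hD : ∀ i j, i ≠ j → ∃ (c : J → ℝ) (k : κ), PairG (V : Set (J → ℝ)) (colF c) (D k) ∧ c i ≠ c j)
    {L : List (J → ℝ)} (hL : Balanced L) :
    ∃ (n : J → FreeGroup ℝ) (b : FreeGroup ℝ),
      WS (Fintype.card J) (L.map e0) * n = (fun _ => b) ∧
      ∃ R : List (ℝ × κ), ∀ M : ℕ, 0 < M → ∃ G : J → J → TT,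
        InG (V : Set (J → ℝ)) n G ∧ EqC G (sm D R M) := by
  let j₀ : J := Classical.arbitrary J
  refine ⟨fun j => (WS (Fintype.card J) (L.map e0) j)⁻¹ * WS (Fintype.card J) (L.map e0) j₀,
    WS (Fintype.card J) (L.map e0) j₀, ?_, ?_⟩
  · funext j
    simp only [Pi.mul_apply, mul_inv_cancel_left]
  · exact rows hone hD _ fun j => gam_anti (by omega) (WS_rows (Fintype.card J) hL j j₀)

theorem engine {J : Type} [Fintype J] [DecidableEq J] [Nonempty J] (V : Submodule ℝ (J → ℝ))
    (hone : (fun _ => (1 : ℝ)) ∈ V) (hbal : ∀ c ∈ V, Bal (V : Set (J → ℝ)) c)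
    (hsep : ∀ i j, i ≠ j → ∃ c ∈ V, c i ≠ c j ∧ Un (V : Set (J → ℝ)) c) :
    (∀ c ∈ V, Un (V : Set (J → ℝ)) c) ∧
      ∃ (n : ℕ) (D : Fin n → J → J → TT), (∀ k, Exc (V : Set (J → ℝ)) (D k)) ∧
        ∀ L : List (J → ℝ), (∀ c ∈ L, c ∈ V) → Balanced L →
          ∃ N : ℕ, 0 < N ∧ ∃ R : List (ℝ × Fin n), ∀ M : ℕ, 0 < M →
            Exc (V : Set (J → ℝ)) (fun i j => (N : TT) * (L.map Gc).sum i j +
              (M : ℝ)⁻¹ • (R.map (fun rk => tp rk.1 rk.1 * D rk.2 i j)).sum) := by
  have hch : ∀ p : J × J, ∃ D : J → J → TT, Exc (V : Set (J → ℝ)) D ∧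
      (p.1 ≠ p.2 → ∃ c, PairG (V : Set (J → ℝ)) (colF c) D ∧ c p.1 ≠ c p.2) := by
    intro p
    by_cases hp : p.1 = p.2
    · refine ⟨0, ⟨1, 0, (InG.const 1).of_eq rfl ?_⟩, fun h => absurd hp h⟩
      funext i j
      exact (add_zero _).symm
    · obtain ⟨c, hc, hne, hu⟩ := hsep _ _ hp
      obtain ⟨D, hD1, hD2⟩ := Un.pair hc hu
      exact ⟨D, hD1, fun _ => ⟨c, hD2, hne⟩⟩
  choose D0 hD0 hD0' using hch
  let e : Fin (Fintype.card (J × J)) ≃ J × J := (Fintype.equivFin (J × J)).symm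
  have hD : ∀ i j, i ≠ j → ∃ (c : J → ℝ) (k : Fin (Fintype.card (J × J))),
      PairG (V : Set (J → ℝ)) (colF c) (D0 (e k)) ∧ c i ≠ c j := by
    intro i j hij
    obtain ⟨c, h1, h2⟩ := hD0' (i, j) hij
    refine ⟨c, e.symm (i, j), ?_, h2⟩
    rw [Equiv.apply_symm_apply]
    exact h1
  refine ⟨fun c hc => ?_, _, fun k => D0 (e k), fun k => hD0 _, fun L hL hLb => ?_⟩
  · obtain ⟨L, hL, hLb⟩ := hbal c hc
    obtain ⟨n, b, hnb, R, hR⟩ := engine_balanced (D := fun k => D0 (e k)) hone hD hLb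
    obtain ⟨G, hG, -⟩ := hR 1 one_pos
    have hcL : ∀ c' ∈ c :: L, c' ∈ V := by
      intro c' hc'
      rcases List.mem_cons.1 hc' with h | h
      · rw [h]; exact hc
      · exact hL c' h
    obtain ⟨u, Gu, hu, hv⟩ := WS_head (V := (V : Set (J → ℝ))) (Fintype.card J) c L hcL
    refine ⟨_, ((((InG.const (FreeGroup.of 0)⁻¹).mul hu).mul hG).mul (InG.const b⁻¹)).of_eq ?_
      rfl⟩
    funext j
    have h1 := congrFun hnb j
    rw [hv] at h1
    simp only [Pi.mul_apply, e0, colF] at h1 ⊢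
    rw [← h1]
    group
  · obtain ⟨n, b, hnb, R, hR⟩ := engine_balanced (D := fun k => D0 (e k)) hone hD hLb
    refine ⟨L.length.factorial ^ Fintype.card J, pow_pos (Nat.factorial_pos _) _, R,
      fun M hM => ?_⟩
    obtain ⟨G, hG, s, hs⟩ := hR M hM
    have h2 := (WS_gram (V := (V : Set (J → ℝ))) (Fintype.card J) L hL).mul hG
    rw [hnb] at h2
    refine ⟨b, s, h2.of_eq rfl ?_⟩
    funext i j
    rw [Pi.add_apply, Pi.add_apply, Pi.smul_apply, Pi.smul_apply, hs i j, nsmul_eq_mul, add_assoc]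
    rfl

end Vale.Agent.Lib.P058
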