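import Vale.Agent.Lib.P058C.Base

/-!
# P058C, module GoodForm: from the criterion to a form

PROOF.  Let `f k`, `g k` (`k : Fin n`) be as in `IsGood`.
(1) For `x y ∈ A` let `G x y = ∑ k, (f k x * g k y + g k x * f k y) / 2`.  With `φ = id`: `G x x = κ₀` is constant on `A`,
and `dist x y ^ 2 = G x x + G y y - 2 * G x y = 2 κ₀ - 2 G x y` on `A`.
`τ = ∑ k, tp (f k x) (g k x)` does not depend on `x ∈ A`: for every additive `φ`, `bfun φ` of the difference of two
such elements is `0`, and an element `s : TT` with `bfun φ s = 0` for all additive `φ` is `0` (write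
`s = ∑ i, tp (r i) (e i)` with `e i` linearly independent over `ℚ`, e.g. from a `ℚ`-basis of `ℝ`
(`Basis.ofVectorSpace`, `TensorProduct.equivFinsuppOfBasisRight` or similar); take `φ` = coordinate
functional).
(2) Fix `x₀ ∈ A`.  The function `h x = dist x x₀ ^ 2 = 2 κ₀ - 2 G x x₀` on `A` is the restriction of an affine
function of `x`, vanishing at `x₀`: `h x = 2 ⟪w, x - x₀⟫`, and we may take `w` in the direction space
`E₁ = vectorSpan ℝ A` (orthogonal projection).  With `o = x₀ + w` in the affine span of `A`: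
`‖x - o‖ = ‖w‖ =: ρ` for `x ∈ A`.
(3) We may assume `κ₀ > ρ ^ 2`: add to the lists the pair of constant functions `(t, 1)`, `t` a large natural
number: the two conditions of `IsGood` still hold, and `κ₀` increases by `t`.  `r₀ = √(κ₀ - ρ ^ 2) > 0`.
(4) `E₀ = E₁ × ℝ` with the `L²` norm; a linear isometry `E₀ ≃ EuclideanSpace ℝ (Fin m)`
(`stdOrthonormalBasis`), `m = finrank`.  `a x = (x - o, r₀)`.  An affine function `f` on
`EuclideanSpace ℝ (Fin d)` gives the linear functional `f̃ (u, t) = f.linear u + f o * t / r₀` on `E₀`,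
`f̃ (a x) = f x`.  Let `β.B y y' = (1/2) • ∑ k, (tp (f̃ k y) (g̃ k y') + tp (g̃ k y) (f̃ k y'))` (with the rational scalar
`1/2`): biadditive, `B (r • u) v = tp r 1 * B u v`, symmetric.  Real part: both `mu (B y y')` and `⟪y, y'⟫` are
bilinear, and for `y = a x`, `y' = a x'` (`x x' ∈ A`): `G x x' = κ₀ - dist x x' ^ 2 / 2 =
⟪x - o, x' - o⟫ + κ₀ - ρ ^ 2 = ⟪a x, a x'⟫`; the `a x` span `E₀` (`A` affinely spans its affine span, whose
direction is `E₁`, and contains `o`).
`β.B (a x) (a x) = (1/2) • (τ + swp τ)` is constant.  `1` is a column: `w = (0, 1 / r₀)`.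
-/

namespace Vale.Agent.Lib.P058

theorem eq_zero_of_bfun (s : TT) (h : ∀ φ : ℝ →+ ℝ, bfun φ s = 0) : s = 0 := by
  sorry

theorem exists_form_of_isGood {d : ℕ} (A : Set (EuclideanSpace ℝ (Fin d))) (hne : A.Nonempty)
    (h : IsGood A) :
    ∃ (ι : Type) (_ : Fintype ι) (β : SForm (EuclideanSpace ℝ ι)) (a : A → EuclideanSpace ℝ ι)
      (κ : TT), (∀ i, β.B (a i) (a i) = κ) ∧ (fun _ => (1 : ℝ)) ∈ colA a ∧
      ∀ x y : A, dist (a x) (a y) = dist x y := by
  sorry

end Vale.Agent.Lib.P058
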