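import Vale.Agent.Lib.P058C.Top
import Vale.Agent.Lib.P058C.GoodForm
import Vale.Agent.Lib.P058C.NecB

/-!
# P058C, module FinalC: the characterization

PROOF of `isRamsey_of_isGood`.  `exists_form_of_isGood`; `a` is injective (distances), `A` finite nonempty, so
`hr_all` applies: for `r ≥ 2` (any `r`) we get `ι`, `Z ⊂ EuclideanSpace ℝ ι`.  `D = card ι + 1 ≥ 1`; a distance-preserving
map `E : EuclideanSpace ℝ ι → EuclideanSpace ℝ (Fin D)` (reindex and add a zero coordinate).  For
`c : EuclideanSpace ℝ (Fin D) → Fin r` apply the property of `Z` to `χ x = (c (E x) : ℕ)`, `Kc = Finset.range r`: get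
`f : A → EuclideanSpace ℝ ι` with `dist (f x) (f y) ^ 2 = dC C x y = dist (a x) (a y) ^ 2 = dist x y ^ 2`
(`SForm.dist_sq`), monochromatic; `E ∘ f` is the copy.  (Cf. `isRamsey_of_sram` in module P058/Main2.)
-/

namespace Vale.Agent.Lib.P058

theorem isRamsey_of_isGood {d : ℕ} (A : Set (EuclideanSpace ℝ (Fin d))) (hfin : A.Finite)
    (hne : A.Nonempty) (h : IsGood A) : IsRamsey A := by
  sorry

theorem isRamsey_iff_isGood {d : ℕ} (A : Set (EuclideanSpace ℝ (Fin d))) (hfin : A.Finite)
    (hne : A.Nonempty) : IsRamsey A ↔ IsGood A :=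
  ⟨isGood_of_isRamsey A hfin hne, isRamsey_of_isGood A hfin hne⟩

end Vale.Agent.Lib.P058
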