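import Vale.Agent.Lib.P058C.RzExc

/-!
# P058C, module RzAlg: sums and multiples of realisable matrices

`Rz.const`: one point `w = n` on the line `EuclideanSpace ℝ Unit`, form `tp u v`, with `n : ℕ`, `n ^ 2 > mu s`;
`tp n n = n ^ 2`, so the constant of the witness is `n ^ 2 - s`.

`Rz.add`: given colours `C`, choose `W₁` for `ω` and `C`; let `P = W₁.K × J` (finite) and `W₂` for `ω'`
and the colours `P → C`.  Coordinates `W₁.ι ⊕ W₂.ι`, form `β₁ + β₂` (on the two components), copies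
`K₁ × K₂`, points `(w₁ κ₁ j, w₂ κ₂ j)`, `s = s₁ + s₂`, `μ = Sum.elim μ₁ μ₂`.  Monochromatic copy for `χ`: colour the
points `y` of the second space by `(κ, i) ↦ χ (w₁ κ i, y)`, get `κ₂`; then colour the points `x` of the
first by `χ (x, w₂ κ₂ j₀)`, get `κ₁`; `χ (w₁ κ₁ j, w₂ κ₂ j) = χ (w₁ κ₁ j, w₂ κ₂ j₀) = const`.

`Rz.scale`: `r = √(mu σ) > 0`; same copies with points multiplied by `r`; form
`β'.B u v = σ * tp r⁻¹ r⁻¹ * β.B u v` (symmetric since `swp σ = σ`; real part
`mu σ * r⁻¹ * r⁻¹ * ⟪u, v⟫ = ⟪u, v⟫`); `β'.B (r • x) (r • y) = σ * β.B x y`; `s' = σ * s`; `μ' p = μ p / r`.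

`rz_of_inK`: for a matrix `x` let `x* i j = swp (x j i)`.  Claim: `InK V x` implies that `x + x*` is realisable
(columns in `V`).  `const s`: `const (s + swp s)`, `Rz.const`.  Sums: `Rz.add`.  `σ * G` with `Exc V G`: `G = [cs] - s₀` by
`exc_list`, `[cs]* = [cs]` (`swp (tp a b) = tp b a`), so `G* = G + s₀ - swp s₀` and
`σ * G + (σ * G)* = (σ + swp σ) * G + const` with `swp (σ + swp σ) = σ + swp σ`, `mu (..) = 2 mu σ > 0`:
`rz_exc`, `Rz.scale`, `Rz.const`, `Rz.add`.  Finally `ω = (1/2) * (ω + ω*)`, `Rz.scale` with `σ = tp (1/2) 1` (which is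
symmetric: `tp (1/2) 1 = tp 1 (1/2)`, e.g. `= (1/2 : ℚ) • 1`).
-/

namespace Vale.Agent.Lib.P058

/-- the standard form on the line -/
private noncomputable def lineForm : SForm (EuclideanSpace ℝ Unit) where
  B u v := tp (u ()) (v ())
  add_left' u u' v := by
    rw [← tp_add_left]; rfl
  smul_left' r u v := by
    rw [tp_mul_tp, one_mul]; rfl
  symm' u v := (swp_tp _ _).symm
  real' u v := by
    rw [mu_tp]
    simp [PiLp.inner_apply, mul_comm]

private theorem rz_const' {J : Type} (s : TT) : Rz (fun _ _ : J => s) [] := by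
  intro C _
  obtain ⟨n, hn⟩ := exists_nat_gt (|mu s| + 1)
  have hn1 : (1 : ℝ) < n := lt_of_le_of_lt (by have := abs_nonneg (mu s); linarith) hn
  have hn2 : mu s < (n : ℝ) * n := by
    have h1 : mu s ≤ |mu s| := le_abs_self _
    nlinarith
  refine ⟨{ ι := Unit
            fι := inferInstance
            β := lineForm
            K := Unit
            fK := inferInstance
            w := fun _ _ => WithLp.toLp 2 (fun _ => (n : ℝ))
            s := tp n n - s
            hs := by rw [map_sub, mu_tp]; linarith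
            gram := fun κ i j => by
              change tp (n : ℝ) n = s + (tp n n - s)
              abel
            μ := fun _ => 1
            hμ := fun _ => one_ne_zero
            cov := fun κ => ⟨[(n : ℝ)], by simp⟩ }, ?_⟩
  intro χ
  exact ⟨(), fun i j => rfl⟩

theorem Rz.const {J : Type} [Finite J] [Nonempty J] (s : TT) (hs : swp s = s) :
    Rz (fun _ _ : J => s) [] :=
  rz_const' s

section pair

variable {ι₁ ι₂ : Type} [Fintype ι₁] [Fintype ι₂]

private noncomputable def pr₁ (u : EuclideanSpace ℝ (ι₁ ⊕ ι₂)) : EuclideanSpace ℝ ι₁ :=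
  WithLp.toLp 2 (fun i => u (Sum.inl i))

private noncomputable def pr₂ (u : EuclideanSpace ℝ (ι₁ ⊕ ι₂)) : EuclideanSpace ℝ ι₂ :=
  WithLp.toLp 2 (fun i => u (Sum.inr i))

private noncomputable def pair (x : EuclideanSpace ℝ ι₁) (y : EuclideanSpace ℝ ι₂) :
    EuclideanSpace ℝ (ι₁ ⊕ ι₂) :=
  WithLp.toLp 2 (Sum.elim (fun i => x i) (fun i => y i))

omit [Fintype ι₁] [Fintype ι₂] in
private theorem pr₁_pair (x : EuclideanSpace ℝ ι₁) (y : EuclideanSpace ℝ ι₂) :
    pr₁ (pair x y) = x := rfl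

omit [Fintype ι₁] [Fintype ι₂] in
private theorem pr₂_pair (x : EuclideanSpace ℝ ι₁) (y : EuclideanSpace ℝ ι₂) :
    pr₂ (pair x y) = y := rfl

private noncomputable def sumForm (β₁ : SForm (EuclideanSpace ℝ ι₁))
    (β₂ : SForm (EuclideanSpace ℝ ι₂)) : SForm (EuclideanSpace ℝ (ι₁ ⊕ ι₂)) where
  B u v := β₁.B (pr₁ u) (pr₁ v) + β₂.B (pr₂ u) (pr₂ v)
  add_left' u u' v := by
    have h1 : pr₁ (u + u') = pr₁ u + pr₁ u' := rfl
    have h2 : pr₂ (u + u') = pr₂ u + pr₂ u' := rfl
    rw [h1, h2, β₁.add_left', β₂.add_left']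
    abel
  smul_left' r u v := by
    have h1 : pr₁ (r • u) = r • pr₁ u := rfl
    have h2 : pr₂ (r • u) = r • pr₂ u := rfl
    rw [h1, h2, β₁.smul_left', β₂.smul_left', mul_add]
  symm' u v := by rw [map_add, β₁.symm', β₂.symm']
  real' u v := by
    rw [map_add, β₁.real', β₂.real']
    simp [PiLp.inner_apply, pr₁, pr₂, Fintype.sum_sum_type]

private theorem perm_sum {α : Type*} (f : ι₁ ⊕ ι₂ → α) :
    ((Finset.univ : Finset (ι₁ ⊕ ι₂)).toList.map f).Perm
      ((Finset.univ : Finset ι₁).toList.map (fun p => f (Sum.inl p)) ++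
        (Finset.univ : Finset ι₂).toList.map (fun p => f (Sum.inr p))) := by
  rw [← Multiset.coe_eq_coe, ← Multiset.coe_add, ← Multiset.map_coe, ← Multiset.map_coe,
    ← Multiset.map_coe, Finset.coe_toList, Finset.coe_toList, Finset.coe_toList,
    ← Finset.univ_disjSum_univ, Finset.val_disjSum]
  simp [Multiset.disjSum, Multiset.map_map]

end pair

theorem Rz.add {J : Type} [Finite J] [Nonempty J] {ω ω' : J → J → TT} {cs cs' : List (J → ℝ)}
    (h : Rz ω cs) (h' : Rz ω' cs') : Rz (ω + ω') (cs ++ cs') := by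
  intro C _
  obtain ⟨W₁, h1⟩ := h C
  obtain ⟨W₂, h2⟩ := h' (W₁.K × J → C)
  refine ⟨{ ι := W₁.ι ⊕ W₂.ι
            fι := inferInstance
            β := sumForm W₁.β W₂.β
            K := W₁.K × W₂.K
            fK := inferInstance
            w := fun κ j => pair (W₁.w κ.1 j) (W₂.w κ.2 j)
            s := W₁.s + W₂.s
            hs := by rw [map_add]; exact add_pos W₁.hs W₂.hs
            gram := fun κ i j => by
              change W₁.β.B (W₁.w κ.1 i) (W₁.w κ.1 j) + W₂.β.B (W₂.w κ.2 i) (W₂.w κ.2 j) = _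
              rw [W₁.gram, W₂.gram]
              simp only [Pi.add_apply]
              abel
            μ := Sum.elim W₁.μ W₂.μ
            hμ := fun p => by
              cases p with
              | inl p => exact W₁.hμ p
              | inr p => exact W₂.hμ p
            cov := fun κ => ?_ }, ?_⟩
  · obtain ⟨k1, hk1⟩ := W₁.cov κ.1
    obtain ⟨k2, hk2⟩ := W₂.cov κ.2
    refine ⟨k1 ++ k2, ?_⟩
    refine (perm_sum _).trans ?_
    refine (List.Perm.append hk1 hk2).trans ?_
    rw [List.map_append]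
    rw [List.append_assoc, List.append_assoc]
    refine List.Perm.append_left _ ?_
    rw [← List.append_assoc, ← List.append_assoc]
    exact List.Perm.append_right _ List.perm_append_comm
  · intro χ
    obtain ⟨κ₂, hκ₂⟩ := h2 (fun y q => χ (pair (W₁.w q.1 q.2) y))
    obtain ⟨j₀⟩ := (inferInstance : Nonempty J)
    obtain ⟨κ₁, hκ₁⟩ := h1 (fun x => χ (pair x (W₂.w κ₂ j₀)))
    refine ⟨(κ₁, κ₂), fun i j => ?_⟩
    have e1 : χ (pair (W₁.w κ₁ i) (W₂.w κ₂ i)) = χ (pair (W₁.w κ₁ i) (W₂.w κ₂ j₀)) :=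
      congrFun (hκ₂ i j₀) (κ₁, i)
    have e2 : χ (pair (W₁.w κ₁ j) (W₂.w κ₂ j)) = χ (pair (W₁.w κ₁ j) (W₂.w κ₂ j₀)) :=
      congrFun (hκ₂ j j₀) (κ₁, j)
    exact e1.trans ((hκ₁ i j).trans e2.symm)

private theorem SForm.smul_right {E : Type} [NormedAddCommGroup E] [InnerProductSpace ℝ E]
    (β : SForm E) (r : ℝ) (u v : E) : β.B u (r • v) = tp 1 r * β.B u v := by
  rw [β.symm' (r • v) u, β.smul_left', map_mul, swp_tp, ← β.symm' v u]

private noncomputable def scaleForm {E : Type} [NormedAddCommGroup E] [InnerProductSpace ℝ E]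
    (β : SForm E) (σ : TT) (hσ : swp σ = σ) (r : ℝ) (hr : 0 < r) (hr' : r * r = mu σ) :
    SForm E where
  B u v := σ * tp r⁻¹ r⁻¹ * β.B u v
  add_left' u u' v := by rw [β.add_left', mul_add]
  smul_left' c u v := by rw [β.smul_left']; ring
  symm' u v := by rw [map_mul, map_mul, hσ, swp_tp, ← β.symm']
  real' u v := by
    rw [map_mul, map_mul, mu_tp, β.real', ← hr']
    field_simp

theorem Rz.scale {J : Type} {ω : J → J → TT} {cs : List (J → ℝ)} (h : Rz ω cs) (σ : TT)
    (hσ : swp σ = σ) (hσ' : 0 < mu σ) : Rz (fun i j => σ * ω i j) cs := by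
  intro C _
  obtain ⟨W, hW⟩ := h C
  have hr : 0 < Real.sqrt (mu σ) := Real.sqrt_pos.2 hσ'
  have hr' : Real.sqrt (mu σ) * Real.sqrt (mu σ) = mu σ := Real.mul_self_sqrt hσ'.le
  generalize Real.sqrt (mu σ) = r at hr hr'
  refine ⟨{ ι := W.ι
            fι := W.fι
            β := scaleForm W.β σ hσ r hr hr'
            K := W.K
            fK := W.fK
            w := fun κ j => r • W.w κ j
            s := σ * W.s
            hs := by rw [map_mul]; exact mul_pos hσ' W.hs
            gram := fun κ i j => by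
              change σ * tp r⁻¹ r⁻¹ * W.β.B (r • W.w κ i) (r • W.w κ j) = σ * ω i j + σ * W.s
              rw [W.β.smul_left', SForm.smul_right, W.gram]
              have e : tp r⁻¹ r⁻¹ * (tp r 1 * tp 1 r) = 1 := by
                rw [tp_mul_tp, tp_mul_tp, mul_one, one_mul, inv_mul_cancel₀ hr.ne', tp_one_one]
              calc σ * tp r⁻¹ r⁻¹ * (tp r 1 * (tp 1 r * (ω i j + W.s)))
                  = (tp r⁻¹ r⁻¹ * (tp r 1 * tp 1 r)) * (σ * (ω i j + W.s)) := by ring
                _ = σ * ω i j + σ * W.s := by rw [e]; ring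
            μ := fun p => W.μ p / r
            hμ := fun p => div_ne_zero (W.hμ p) hr.ne'
            cov := fun κ => ?_ }, ?_⟩
  · obtain ⟨ks, hks⟩ := W.cov κ
    refine ⟨ks, ?_⟩
    have e : (fun p : W.ι => (fun j : J => W.μ p / r * (r • W.w κ j) p)) =
        (fun p => (fun j : J => W.μ p * W.w κ j p)) := by
      funext p j
      rw [PiLp.smul_apply, smul_eq_mul]
      field_simp
    rw [e]
    exact hks
  · intro χ
    obtain ⟨κ, hκ⟩ := hW (fun x => χ (r • x))
    exact ⟨κ, hκ⟩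

private theorem swp_sum_Gc {J : Type} (cs : List (J → ℝ)) (i j : J) :
    swp ((cs.map Gc).sum j i) = (cs.map Gc).sum i j := by
  induction cs with
  | nil => simp
  | cons c cs ih =>
    simp only [List.map_cons, List.sum_cons, Pi.add_apply, map_add, ih]
    congr 1

private theorem Rz.congr {J : Type} {ω ω' : J → J → TT} {cs : List (J → ℝ)} (h : Rz ω cs)
    (e : ∀ i j, ω' i j = ω i j) : Rz ω' cs := by
  have h1 : ω' = ω := by funext i j; exact e i j
  rw [h1]
  exact h

private theorem rz_of_inK_aux {J : Type} [Finite J] [Nonempty J] {V : Set (J → ℝ)}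
    {x : J → J → TT} (h : InK V x) :
    ∃ cs : List (J → ℝ), (∀ c ∈ cs, c ∈ V) ∧ Rz (fun i j => x i j + swp (x j i)) cs := by
  induction h with
  | const s => exact ⟨[], by simp, rz_const' _⟩
  | exc σ hσ G hG =>
    obtain ⟨cs₀, s₀, h1, h2, h3⟩ := exc_list hG
    obtain ⟨cs, hcs, hR⟩ := rz_exc hG
    have hG' : ∀ i j, swp (G j i) = G i j + (s₀ - swp s₀) := by
      intro i j
      have e := swp_sum_Gc cs₀ i j
      rw [h3, h3, map_add] at e
      linear_combination e
    have hs1 : swp (σ + swp σ) = σ + swp σ := by rw [map_add, swp_swp, add_comm]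
    have hs2 : 0 < mu (σ + swp σ) := by rw [map_add, mu_swp]; linarith
    refine ⟨cs ++ [], by simpa using hcs, ?_⟩
    have e := (hR.scale (σ + swp σ) hs1 hs2).add (rz_const' (J := J) (swp σ * (s₀ - swp s₀)))
    refine e.congr fun i j => ?_
    simp only [Pi.add_apply, map_mul, hG']
    ring
  | add _ _ ih ih' =>
    obtain ⟨cs, hcs, hR⟩ := ih
    obtain ⟨cs', hcs', hR'⟩ := ih'
    refine ⟨cs ++ cs', ?_, ?_⟩
    · intro c hc
      rcases List.mem_append.1 hc with h | h
      · exact hcs c h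
      · exact hcs' c h
    · refine (hR.add hR').congr fun i j => ?_
      simp only [Pi.add_apply, map_add]
      ring

private theorem tp_half : tp (1 / 2) 1 = tp 1 (1 / 2) := by
  have e1 : tp (1 / 2) 1 + tp (1 / 2) 1 = 1 := by
    rw [← tp_add_left, ← tp_one_one]; norm_num
  have e2 : tp 1 (1 / 2) + tp 1 (1 / 2) = 1 := by
    rw [← tp_add_right, ← tp_one_one]; norm_num
  calc tp (1 / 2) 1 = tp (1 / 2) 1 * (tp 1 (1 / 2) + tp 1 (1 / 2)) := by rw [e2, mul_one]
    _ = (tp (1 / 2) 1 + tp (1 / 2) 1) * tp 1 (1 / 2) := by ring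
    _ = tp 1 (1 / 2) := by rw [e1, one_mul]

theorem rz_of_inK {J : Type} [Finite J] [Nonempty J] {V : Set (J → ℝ)} {ω : J → J → TT}
    (h : InK V ω) (hsymm : ∀ i j, ω j i = swp (ω i j)) :
    ∃ cs : List (J → ℝ), (∀ c ∈ cs, c ∈ V) ∧ Rz ω cs := by
  obtain ⟨cs, hcs, hR⟩ := rz_of_inK_aux h
  refine ⟨cs, hcs, ?_⟩
  have e := hR.scale (tp (1 / 2) 1) (by rw [swp_tp, tp_half]) (by rw [mu_tp]; norm_num)
  refine e.congr fun i j => ?_
  have e1 : tp (1 / 2) 1 + tp (1 / 2) 1 = 1 := by
    rw [← tp_add_left, ← tp_one_one]; norm_num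
  rw [hsymm i j, swp_swp]
  symm
  calc tp (1 / 2) 1 * (ω i j + ω i j) = (tp (1 / 2) 1 + tp (1 / 2) 1) * ω i j := by ring
    _ = ω i j := by rw [e1, one_mul]

end Vale.Agent.Lib.P058
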