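import Vale.Agent.Lib.P058C.SDef

/-!
# P058C, module RzMulti: finitely many witnesses at once

PROOF.  Induction on `n`.  `n = 0`: nothing to do (`W` and `κ` are empty families).
Step `n + 1`: choose `W₀` for `ω 0` and `C`; `P = W₀.K × J` is finite; by induction choose the family `W'` for
`fun t => ω t.succ` and the colours `P → C`; `W = Fin.cons W₀ W'`.
Given `χ`, colour a family `y` of points of the spaces `W' t` by
`(κ, i) ↦ χ (Fin.cons (W₀.w κ i) y)` and get `κ'`; `y⁰ = (fun t => (W' t).w (κ' t) j₀)`.  Then colour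
`x` by `χ (Fin.cons x y⁰)` and get `κ₀` with `χ (cons (W₀.w κ₀ j) y⁰)` independent of `j`.  `κ = Fin.cons κ₀ κ'`.
For `t = 0`: `update (cons x₀ y⁰) 0 x = cons x y⁰`.  For `t = t'.succ`:
`update (cons x₀ y⁰) t'.succ z = cons x₀ (update y⁰ t' z)` and the choice of `κ'` at the index `(κ₀, j₀) : P`,
`x₀ = W₀.w κ₀ j₀`.
-/

namespace Vale.Agent.Lib.P058

theorem rz_multi {J : Type} [Finite J] (j₀ : J) (n : ℕ) (ω : Fin n → J → J → TT)
    (cs : Fin n → List (J → ℝ)) (h : ∀ t, Rz (ω t) (cs t)) (C : Type) [Finite C] :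
    ∃ W : ∀ t : Fin n, Wit J (ω t) (cs t),
      ∀ χ : (∀ t, EuclideanSpace ℝ (W t).ι) → C, ∃ κ : ∀ t, (W t).K, ∀ t j,
        χ (Function.update (fun t' => (W t').w (κ t') j₀) t ((W t).w (κ t) j)) =
          χ (fun t' => (W t').w (κ t') j₀) := by
  induction n generalizing C with
  | zero =>
    exact ⟨fun t => t.elim0, fun χ => ⟨fun t => t.elim0, fun t => t.elim0⟩⟩
  | succ n ih =>
    obtain ⟨W₀, hW₀⟩ := h 0 C
    obtain ⟨W', hW'⟩ := ih (fun t => ω t.succ) (fun t => cs t.succ) (fun t => h t.succ)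
      (W₀.K × J → C)
    refine ⟨Fin.cons (α := fun t => Wit J (ω t) (cs t)) W₀ W', fun χ => ?_⟩
    let W : ∀ t : Fin (n + 1), Wit J (ω t) (cs t) :=
      Fin.cons (α := fun t => Wit J (ω t) (cs t)) W₀ W'
    let cc : EuclideanSpace ℝ W₀.ι → (∀ t, EuclideanSpace ℝ (W' t).ι) →
        ∀ t, EuclideanSpace ℝ (W t).ι :=
      fun x y => Fin.cons (α := fun t => EuclideanSpace ℝ (W t).ι) x y
    change (∀ t, EuclideanSpace ℝ (W t).ι) → C at χ
    obtain ⟨κ', hκ'⟩ := hW' (fun y p => χ (cc (W₀.w p.1 p.2) y))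
    let y0 : ∀ t, EuclideanSpace ℝ (W' t).ι := fun t => (W' t).w (κ' t) j₀
    obtain ⟨κ₀, hκ₀⟩ := hW₀ (fun x => χ (cc x y0))
    let κ : ∀ t, (W t).K := Fin.cons (α := fun t => (W t).K) κ₀ κ'
    have hpt : (fun t' => (W t').w (κ t') j₀) = cc (W₀.w κ₀ j₀) y0 := by
      funext t'
      refine Fin.cases ?_ (fun i => ?_) t'
      · rfl
      · rfl
    refine ⟨κ, ?_⟩
    intro t j
    change χ (Function.update (fun t' => (W t').w (κ t') j₀) t ((W t).w (κ t) j)) =
          χ (fun t' => (W t').w (κ t') j₀)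
    rw [hpt]
    refine Fin.cases ?_ (fun i => ?_) t
    · have h1 : Function.update (cc (W₀.w κ₀ j₀) y0) 0 ((W 0).w (κ 0) j) = cc (W₀.w κ₀ j) y0 :=
        Fin.update_cons_zero _ _ _
      rw [h1]
      exact hκ₀ j j₀
    · have h1 : Function.update (cc (W₀.w κ₀ j₀) y0) i.succ ((W i.succ).w (κ i.succ) j)
          = cc (W₀.w κ₀ j₀) (Function.update y0 i ((W' i).w (κ' i) j)) :=
        (Fin.cons_update _ _ _ _).symm
      rw [h1]
      exact congrFun (hκ' i j) (κ₀, j₀)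

end Vale.Agent.Lib.P058
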