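import Vale.Agent.Lib.P058C.NWD
import Vale.Agent.Lib.P058C.RzMulti
import Vale.Agent.Lib.P058C.RzAlg
import Vale.Agent.Lib.P058C.InGB

/-!
# P058C, module NW: existence of the witness of one step

PROOF.  `ω γ γ' = β.B (x γ) (x γ')`.  Hales-Jewett
(`Combinatorics.Line.exists_mono_in_high_dimension Γ (Z → Prop)`): a finite type `H` such that every
`f : (H → Γ) → (Z → Prop)` is constant on a combinatorial line `ℓ : Combinatorics.Line Γ H`.
`M = card H`, `P : ℕ` with `P ^ 2 > M`, `η = 1 / P`.  For `t : Fin (M + 1)` let `λ t = 1 - t / P ^ 2 > 0` (rational) and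
`ω t = λ t • ω`.  `rz_of_inK` gives `cs` in `VQ` with `Rz ω cs`, and `Rz.scale` (`σ = tp (λ t) 1`, which is
symmetric since `λ t` is rational) gives `Rz (ω t) cs` with the same `cs`.
`rz_multi` for `n = M + 1`, `j₀ = γ₀ : Γ`, colours `(H → Γ) → Z → Prop`: witnesses `W t`.

The space: direct sum over `T = H ⊕ Fin (M + 1) ⊕ Unit` of `EuclideanSpace ℝ ι` (for `h : H`),
`EuclideanSpace ℝ (W t).ι`, `EuclideanSpace ℝ ιZ`, form `SForm.sigma` (module SSum).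
For `h : H → Γ`, `y : ∀ t, EuclideanSpace ℝ (W t).ι`, `z : Z` let
`pt h y z = mkS (η • x (h i), y t, z)`.
`K = Line Γ H × (∀ t, (W t).K) × Z` (finite; `Fintype.ofFinite`); for a line `ℓ` let
`aℓ = {i | ℓ.idxFun i = none}` (nonempty, `ℓ.proper`), `tℓ = card aℓ : Fin (M + 1)`, and
`p (ℓ, κ, z) γ = pt (ℓ γ) (fun t => (W t).w (κ t) (if t = tℓ then γ else γ₀)) z`,
`a (ℓ, κ, z) = aℓ`, `φ (ℓ, κ, z) i γ = ℓ γ i` (`= (ℓ.idxFun i).getD γ`).

`gram`: with `c = κ₀` the constant diagonal value of `ω` (`hκ`), `m = tℓ`,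
the sum is `∑_{i ∈ a} η² ω γ γ' + ∑_{i ∉ a} η² c + (λ m ω γ γ' + s m) + ∑_{t ≠ m} (λ t c + s t) + κZ`
`= ω γ γ' + (M - m) η² c + ∑_t s t + ∑_{t} λ t c - λ m c + κZ`, and `(M - m) η² - λ m = M η² - 1`.  So
`s = (M η² - 1) c + ∑_t (λ t c + s t) + κZ`, independent of the copy.  `mu s > 0`: `λ 0 = 1`, the other
terms are `≥ 0` (`mu c = ‖x γ‖² ≥ 0`, `mu κZ = ‖z‖² ≥ 0`), `mu (s t) > 0`.  (`tp η η = η²` since `η` is rational.)

`pull`: `g γ = ⟪w, x γ⟫`; the vector with the component `(1/η) • w` at `i`, `0` elsewhere.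

`gen`: `u` is the sum of its components (the function is additive in `u`).  Component `i : H`:
`⟪u_i, η • x (φ κ i γ)⟫ = g (φ κ i γ)` with `g γ = ⟪η • u_i, x γ⟫ ∈ VQ`.  Component `Z`: the function does not
depend on `γ`: it is `IsG2` with `U = [f]`, `cs = []`.  Component `t : Fin (M + 1)`: a linear combination of the
coordinate functions `f_{t,q} (κ, γ) = (p κ γ) (t, q)`, `q : (W t).ι`.  For `t = 0` it does not depend on `γ`
(`tℓ ≥ 1`).  For `t ≥ 1` it is `(μ_{t,q})⁻¹` times the function `μ_{t,q} f_{t,q}`, which is `IsG2` with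
`U` = concatenation over all `t' : Fin (M + 1)` of `t'` copies of the list of the functions
`μ_{t',q} f_{t',q}` (`q ∈ Finset.univ.toList`), and the list `cs` of `Rz ω cs`: in the block `(ℓ, κ, z)` with `tℓ = m`, the
functions with `t' ≠ m` are constant, and those with `t' = m` give `m` times (`cs` and constants)
by `(W m).cov (κ m)`.  (Membership in the span: multiples by `(μ_{t,q})⁻¹`.)

`ram`: given `χ`, apply `rz_multi` to `y ↦ (h ↦ z ↦ χ (pt h y z))`, get `κ`, `y⁰ t = (W t).w (κ t) γ₀`; then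
Hales-Jewett for `h ↦ (z ↦ χ (pt h y⁰ z))`, get a line `ℓ`, `m = tℓ`.  For all `γ`, `z`:
`p (ℓ, κ, z) γ = pt (ℓ γ) (update y⁰ m ((W m).w (κ m) γ)) z` and
`χ (p (ℓ, κ, z) γ) ↔ χ (pt (ℓ γ) y⁰ z) ↔ χ (pt (ℓ γ₀) y⁰ z)`.  If this holds for some `z`, the first
alternative holds with `(ℓ, κ, z)`; otherwise take `e z = ((ℓ, κ, z), γ₀)`; the points
`p (e z)` differ only in the component `Z`, so the distances are `dist z z'`.
-/

namespace Vale.Agent.Lib.P058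

open Combinatorics

/-- the Ramsey property -/
theorem nw_ram {Γ H ι ιZ : Type} [Fintype H] [Fintype ι] [Fintype ιZ]
    {ω : Fin (Fintype.card H + 1) → Γ → Γ → TT} {cs : List (Γ → ℝ)}
    (x : Γ → EuclideanSpace ℝ ι) (W : ∀ t, Wit Γ (ω t) cs) (Z : Finset (EuclideanSpace ℝ ιZ))
    (γ₀ : Γ)
    (hH : ∀ C : (H → Γ) → (Z → Prop), ∃ l : Line Γ H, l.IsMono C)
    (hW : ∀ χ : (∀ t, EuclideanSpace ℝ (W t).ι) → ((H → Γ) → (Z → Prop)), ∃ κ : ∀ t, (W t).K,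
      ∀ t j, χ (Function.update (fun t' => (W t').w (κ t') γ₀) t ((W t).w (κ t) j)) =
        χ (fun t' => (W t').w (κ t') γ₀))
    (χ : EuclideanSpace ℝ ((Σ _ : H, ι) ⊕ ((Σ t, (W t).ι) ⊕ ιZ)) → Prop) :
    (∃ k : Line Γ H × (∀ t, (W t).K) × Z, ∀ γ, χ (nwP x W γ₀ k γ)) ∨
    ∃ e : Z → (Line Γ H × (∀ t, (W t).K) × Z) × Γ, (∀ z, ¬ χ (nwP x W γ₀ (e z).1 (e z).2)) ∧
      ∀ z z', dist (nwP x W γ₀ (e z).1 (e z).2) (nwP x W γ₀ (e z').1 (e z').2) =
        dist (z : EuclideanSpace ℝ ιZ) z' := by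
  obtain ⟨κ, hκ⟩ := hW (fun y h z => χ (nwPt x h y z))
  obtain ⟨l, c, hl⟩ := hH (fun h z => χ (nwPt x h (fun t' => (W t').w (κ t') γ₀) z))
  have key : ∀ (z : Z) (γ : Γ), χ (nwP x W γ₀ (l, κ, z) γ) ↔ c z := by
    intro z γ
    have e1 : (fun t => (W t).w (κ t) (if t = nwT l then γ else γ₀)) =
        Function.update (fun t' => (W t').w (κ t') γ₀) (nwT l) ((W (nwT l)).w (κ (nwT l)) γ) := by
      funext t
      by_cases ht : t = nwT l
      · subst ht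
        rw [Function.update_self, if_pos rfl]
      · rw [Function.update_of_ne ht, if_neg ht]
    have e2 := congrFun (congrFun (hκ (nwT l) γ) (l γ)) z
    have e3 := congrFun (hl γ) z
    show χ (nwPt x (l γ) (fun t => (W t).w (κ t) (if t = nwT l then γ else γ₀)) z) ↔ c z
    rw [e1]
    exact (Eq.to_iff e2).trans (Eq.to_iff e3)
  by_cases hz : ∃ z, c z
  · obtain ⟨z, hz⟩ := hz
    exact Or.inl ⟨(l, κ, z), fun γ => (key z γ).2 hz⟩
  · refine Or.inr ⟨fun z => ((l, κ, z), γ₀), fun z h => hz ⟨z, (key z γ₀).1 h⟩, fun z z' => ?_⟩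
    exact nwPt_dist x _ _ _ _

theorem nwit {Γ : Type} [Fintype Γ] [Nonempty Γ] {ι : Type} [Fintype ι]
    (β : SForm (EuclideanSpace ℝ ι)) (x : Γ → EuclideanSpace ℝ ι) (κ₀ : TT)
    (hκ : ∀ γ, β.B (x γ) (x γ) = κ₀) (VQ : Submodule ℝ (Γ → ℝ))
    (hVQ : ∀ c, c ∈ VQ ↔ ∃ w : EuclideanSpace ℝ ι, ∀ γ, c γ = inner ℝ w (x γ))
    (hK : InK (VQ : Set (Γ → ℝ)) (fun γ γ' => β.B (x γ) (x γ')))
    {ιZ : Type} [Fintype ιZ] (βZ : SForm (EuclideanSpace ℝ ιZ)) (Z : Finset (EuclideanSpace ℝ ιZ))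
    (hZ : Z.Nonempty) (κZ : TT) (hκZ : ∀ z ∈ Z, βZ.B z z = κZ) :
    Nonempty (NWit Γ VQ (fun γ γ' => β.B (x γ) (x γ')) Z
      (fun z z' => dist (z : EuclideanSpace ℝ ιZ) z')) := by
  obtain ⟨γ₀⟩ := ‹Nonempty Γ›
  have : Nonempty Γ := ⟨γ₀⟩
  obtain ⟨H, fH, hH⟩ := Line.exists_mono_in_high_dimension Γ (Z → Prop)
  obtain ⟨cs, hcs, hRz⟩ := rz_of_inK hK (fun i j => β.symm' (x i) (x j))
  obtain ⟨W, hW⟩ := rz_multi γ₀ (Fintype.card H + 1)
    (fun t γ γ' => tp ((nwLam (Fintype.card H) t : ℚ) : ℝ) 1 * β.B (x γ) (x γ')) (fun _ => cs)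
    (fun t => hRz.scale _ (swp_tp_rat _) (by
      rw [mu_tp, mul_one]
      exact_mod_cast nwLam_pos t.2)) ((H → Γ) → (Z → Prop))
  have : Finite (Line Γ H) := finite_line
  have : Fintype (Line Γ H × (∀ t, (W t).K) × Z) := Fintype.ofFinite _
  have h0 : 0 ≤ mu κ₀ := by
    rw [← hκ γ₀, β.real']
    exact real_inner_self_nonneg
  have hZ0 : 0 ≤ mu κZ := by
    obtain ⟨z, hz⟩ := hZ
    rw [← hκZ z hz, βZ.real']
    exact real_inner_self_nonneg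
  refine ⟨{
    ι := (Σ _ : H, ι) ⊕ ((Σ t, (W t).ι) ⊕ ιZ)
    fι := inferInstance
    β := nwForm β (fun t => (W t).β) βZ
    K := Line Γ H × (∀ t, (W t).K) × Z
    fK := inferInstance
    p := nwP x W γ₀
    s := (Fintype.card H * nwEta (Fintype.card H) ^ 2 - 1 : ℚ) • κ₀ +
        ∑ t : Fin (Fintype.card H + 1), (nwLam (Fintype.card H) t • κ₀ + (W t).s) + κZ
    hs := nw_mu_pos κ₀ κZ (fun t => (W t).s) h0 hZ0 (fun t => (W t).hs)
    gram := fun k γ γ' => nw_gram β (fun t => (W t).β) βZ x κ₀ κZ hκ k.1 k.2.2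
      (hκZ _ k.2.2.2) (fun t => (W t).s) (fun t => (W t).w (k.2.1 t)) γ₀
      (fun t γ γ' => by rw [(W t).gram, tp_rat_mul]) γ γ'
    H := H
    fH := fH
    a := fun k => nwAct k.1
    φ := fun k h γ => k.1 γ h
    hact := fun k => nwAct_nonempty k.1
    hφ := fun k h hh => line_act k.1 hh
    hφ' := fun k h hh => line_not_act k.1 hh
    pull := ?_
    gen := nw_gen x W γ₀ VQ hVQ hcs
    ram := nw_ram x W Z γ₀ hH hW }⟩
  intro g hg h
  obtain ⟨w, hw⟩ := (hVQ g).1 hg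
  obtain ⟨u, hu⟩ := nw_pull x W (Z := Z) γ₀ w h
  exact ⟨u, fun k γ => (hu k γ).trans (hw _).symm⟩

end Vale.Agent.Lib.P058
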