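import Vale.Agent.Lib.P058C.SSum

/-!
# P058C, module NW, part A: binary sums, rational factors
-/

namespace Vale.Agent.Lib.P058

open scoped TensorProduct

section Pair

variable {α β : Type}

/-- the vector with given components -/
noncomputable def pairS (x : EuclideanSpace ℝ α) (y : EuclideanSpace ℝ β) :
    EuclideanSpace ℝ (α ⊕ β) :=
  WithLp.toLp 2 (Sum.elim (fun i => x i) (fun i => y i))

/-- first component -/
noncomputable def fstS (u : EuclideanSpace ℝ (α ⊕ β)) : EuclideanSpace ℝ α :=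
  WithLp.toLp 2 (fun i => u (Sum.inl i))

/-- second component -/
noncomputable def sndS (u : EuclideanSpace ℝ (α ⊕ β)) : EuclideanSpace ℝ β :=
  WithLp.toLp 2 (fun i => u (Sum.inr i))

@[simp] theorem pairS_inl (x : EuclideanSpace ℝ α) (y : EuclideanSpace ℝ β) (i : α) :
    pairS x y (Sum.inl i) = x i := rfl

@[simp] theorem pairS_inr (x : EuclideanSpace ℝ α) (y : EuclideanSpace ℝ β) (i : β) :
    pairS x y (Sum.inr i) = y i := rfl

@[simp] theorem fstS_pairS (x : EuclideanSpace ℝ α) (y : EuclideanSpace ℝ β) :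
    fstS (pairS x y) = x := rfl

@[simp] theorem sndS_pairS (x : EuclideanSpace ℝ α) (y : EuclideanSpace ℝ β) :
    sndS (pairS x y) = y := rfl

theorem fstS_add (u v : EuclideanSpace ℝ (α ⊕ β)) : fstS (u + v) = fstS u + fstS v := rfl

theorem sndS_add (u v : EuclideanSpace ℝ (α ⊕ β)) : sndS (u + v) = sndS u + sndS v := rfl

theorem fstS_smul (r : ℝ) (u : EuclideanSpace ℝ (α ⊕ β)) : fstS (r • u) = r • fstS u := rfl

theorem sndS_smul (r : ℝ) (u : EuclideanSpace ℝ (α ⊕ β)) : sndS (r • u) = r • sndS u := rfl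

variable [Fintype α] [Fintype β]

theorem inner_fst_snd (u v : EuclideanSpace ℝ (α ⊕ β)) :
    inner ℝ u v = inner ℝ (fstS u) (fstS v) + inner ℝ (sndS u) (sndS v) := by
  simp only [PiLp.inner_apply]
  rw [Fintype.sum_sum_type]
  rfl

theorem dist_pairS (x : EuclideanSpace ℝ α) (y y' : EuclideanSpace ℝ β) :
    dist (pairS x y) (pairS x y') = dist y y' := by
  rw [EuclideanSpace.dist_eq, EuclideanSpace.dist_eq, Fintype.sum_sum_type]
  simp

/-- the direct sum of two forms -/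
noncomputable def SForm.pair (β₁ : SForm (EuclideanSpace ℝ α)) (β₂ : SForm (EuclideanSpace ℝ β)) :
    SForm (EuclideanSpace ℝ (α ⊕ β)) where
  B := fun u v => β₁.B (fstS u) (fstS v) + β₂.B (sndS u) (sndS v)
  add_left' := fun u u' v => by
    simp only [fstS_add, sndS_add, SForm.add_left']
    ring
  smul_left' := fun r u v => by
    simp only [fstS_smul, sndS_smul, SForm.smul_left']
    ring
  symm' := fun u v => by
    rw [map_add, ← β₁.symm', ← β₂.symm']
  real' := fun u v => by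
    rw [map_add, inner_fst_snd, β₁.real', β₂.real']

theorem SForm.pair_pairS (β₁ : SForm (EuclideanSpace ℝ α)) (β₂ : SForm (EuclideanSpace ℝ β))
    (x x' : EuclideanSpace ℝ α) (y y' : EuclideanSpace ℝ β) :
    (β₁.pair β₂).B (pairS x y) (pairS x' y') = β₁.B x x' + β₂.B y y' := rfl

end Pair

theorem tp_rat (q : ℚ) : tp (q : ℝ) 1 = q • (1 : TT) := by
  rw [← tp_one_one]
  show ((q : ℝ)) ⊗ₜ[ℚ] (1 : ℝ) = q • ((1 : ℝ) ⊗ₜ[ℚ] (1 : ℝ))
  rw [TensorProduct.smul_tmul', Rat.smul_def, mul_one]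

theorem tp_rat' (q : ℚ) : tp 1 (q : ℝ) = q • (1 : TT) := by
  rw [← tp_one_one]
  show (1 : ℝ) ⊗ₜ[ℚ] (q : ℝ) = q • ((1 : ℝ) ⊗ₜ[ℚ] (1 : ℝ))
  rw [← TensorProduct.tmul_smul, Rat.smul_def, mul_one]

theorem tp_rat_mul (q : ℚ) (s : TT) : tp (q : ℝ) 1 * s = q • s := by
  rw [tp_rat, smul_mul_assoc, one_mul]

theorem tp_rat_mul' (q : ℚ) (s : TT) : tp 1 (q : ℝ) * s = q • s := by
  rw [tp_rat', smul_mul_assoc, one_mul]

theorem swp_tp_rat (q : ℚ) : swp (tp (q : ℝ) 1) = tp (q : ℝ) 1 := by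
  rw [swp_tp, tp_rat, tp_rat']

theorem mu_rat_smul (q : ℚ) (s : TT) : mu (q • s) = q * mu s := by
  rw [map_smul, Rat.smul_def]

/-- the form on multiples by a rational number -/
theorem SForm.smul_smul_rat {E : Type} [NormedAddCommGroup E] [InnerProductSpace ℝ E] (β : SForm E)
    (q : ℚ) (u v : E) : β.B ((q : ℝ) • u) ((q : ℝ) • v) = (q ^ 2) • β.B u v := by
  rw [β.smul_left', β.smul_right', tp_rat_mul, tp_rat_mul', smul_smul, sq]

end Vale.Agent.Lib.P058
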