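import Vale.Agent.Lib.P058C.NWA
import Mathlib.Combinatorics.HalesJewett

/-!
# P058C, module NW, part B: the points
-/

namespace Vale.Agent.Lib.P058

open Combinatorics

variable {Γ H ι ιZ : Type} [Fintype H]

/-- the active coordinates of a line -/
noncomputable def nwAct (l : Line Γ H) : Finset H := by
  classical exact Finset.univ.filter (fun i => l.idxFun i = none)

theorem mem_nwAct (l : Line Γ H) (i : H) : i ∈ nwAct l ↔ l.idxFun i = none := by
  classical
  unfold nwAct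
  simp

theorem nwAct_nonempty (l : Line Γ H) : (nwAct l).Nonempty := by
  obtain ⟨i, hi⟩ := l.proper
  exact ⟨i, (mem_nwAct l i).2 hi⟩

theorem nwAct_card_lt (l : Line Γ H) : (nwAct l).card < Fintype.card H + 1 :=
  Nat.lt_succ_of_le (Finset.card_le_univ _)

/-- the number of the active coordinates -/
noncomputable def nwT (l : Line Γ H) : Fin (Fintype.card H + 1) := ⟨(nwAct l).card, nwAct_card_lt l⟩

theorem nwT_ne_zero (l : Line Γ H) : nwT l ≠ 0 := by
  intro h
  have h1 : (nwAct l).card = 0 := congrArg Fin.val h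
  exact (Finset.card_ne_zero.2 (nwAct_nonempty l)) h1

theorem line_act (l : Line Γ H) {i : H} (hi : i ∈ nwAct l) : (fun γ => l γ i) = id := by
  funext γ
  exact l.apply_none γ i ((mem_nwAct l i).1 hi)

theorem line_not_act (l : Line Γ H) {i : H} (hi : i ∉ nwAct l) : ∃ γ₀, (fun γ => l γ i) = fun _ => γ₀ := by
  rw [mem_nwAct] at hi
  obtain ⟨γ₀, h⟩ := Option.ne_none_iff_exists'.1 hi
  exact ⟨γ₀, funext fun γ => Line.apply_some h⟩

theorem finite_line [Finite Γ] : Finite (Line Γ H) := by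
  refine Finite.of_injective (fun l : Line Γ H => l.idxFun) ?_
  rintro ⟨f, hf⟩ ⟨g, hg⟩ h
  simp only at h
  subst h
  rfl

/-- the rational factors -/
def nwEta (M : ℕ) : ℚ := 1 / (M + 1)

/-- the rational factors -/
def nwLam (M t : ℕ) : ℚ := 1 - t * nwEta M ^ 2

theorem nwEta_pos (M : ℕ) : 0 < nwEta M := by
  unfold nwEta
  positivity

theorem nwLam_pos {M t : ℕ} (h : t < M + 1) : 0 < nwLam M t := by
  unfold nwLam nwEta
  have h1 : (t : ℚ) < M + 1 := by exact_mod_cast h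
  have h2 : (0 : ℚ) < M + 1 := by positivity
  have h3 : (t : ℚ) * (1 / (M + 1)) ^ 2 < 1 := by
    rw [div_pow, one_pow, mul_one_div, div_lt_one (by positivity)]
    nlinarith
  linarith

theorem nwLam_zero (M : ℕ) : nwLam M 0 = 1 := by
  unfold nwLam
  simp

variable {κ : Fin (Fintype.card H + 1) → Type}

/-- the points -/
noncomputable def nwPt (x : Γ → EuclideanSpace ℝ ι) (h : H → Γ)
    (y : ∀ t, EuclideanSpace ℝ (κ t)) (z : EuclideanSpace ℝ ιZ) :
    EuclideanSpace ℝ ((Σ _ : H, ι) ⊕ ((Σ t, κ t) ⊕ ιZ)) :=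
  pairS (mkS (fun i => ((nwEta (Fintype.card H) : ℚ) : ℝ) • x (h i))) (pairS (mkS y) z)

theorem nwPt_inl (x : Γ → EuclideanSpace ℝ ι) (h : H → Γ)
    (y : ∀ t, EuclideanSpace ℝ (κ t)) (z : EuclideanSpace ℝ ιZ) (i : H) (r : ι) :
    nwPt x h y z (Sum.inl ⟨i, r⟩) = ((nwEta (Fintype.card H) : ℚ) : ℝ) * x (h i) r := rfl

theorem nwPt_inrl (x : Γ → EuclideanSpace ℝ ι) (h : H → Γ)
    (y : ∀ t, EuclideanSpace ℝ (κ t)) (z : EuclideanSpace ℝ ιZ) (t : Fin (Fintype.card H + 1))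
    (q : κ t) : nwPt x h y z (Sum.inr (Sum.inl ⟨t, q⟩)) = y t q := rfl

theorem nwPt_inrr (x : Γ → EuclideanSpace ℝ ι) (h : H → Γ)
    (y : ∀ t, EuclideanSpace ℝ (κ t)) (z : EuclideanSpace ℝ ιZ) (r : ιZ) :
    nwPt x h y z (Sum.inr (Sum.inr r)) = z r := rfl

variable [Fintype ι] [Fintype ιZ] [∀ t, Fintype (κ t)]

/-- the form on the points -/
noncomputable def nwForm (β : SForm (EuclideanSpace ℝ ι)) (βt : ∀ t, SForm (EuclideanSpace ℝ (κ t)))
    (βZ : SForm (EuclideanSpace ℝ ιZ)) :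
    SForm (EuclideanSpace ℝ ((Σ _ : H, ι) ⊕ ((Σ t, κ t) ⊕ ιZ))) :=
  (SForm.sigma (fun _ : H => β)).pair ((SForm.sigma βt).pair βZ)

theorem nwForm_pt (β : SForm (EuclideanSpace ℝ ι)) (βt : ∀ t, SForm (EuclideanSpace ℝ (κ t)))
    (βZ : SForm (EuclideanSpace ℝ ιZ)) (x : Γ → EuclideanSpace ℝ ι) (h h' : H → Γ)
    (y y' : ∀ t, EuclideanSpace ℝ (κ t)) (z z' : EuclideanSpace ℝ ιZ) :
    (nwForm β βt βZ).B (nwPt x h y z) (nwPt x h' y' z') =
      ∑ i, (nwEta (Fintype.card H) ^ 2) • β.B (x (h i)) (x (h' i)) +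
        (∑ t, (βt t).B (y t) (y' t) + βZ.B z z') := by
  unfold nwForm nwPt
  rw [SForm.pair_pairS, SForm.pair_pairS, SForm.sigma_mkS, SForm.sigma_mkS]
  congr 1
  exact Finset.sum_congr rfl fun i _ => β.smul_smul_rat _ _ _

theorem nwPt_dist (x : Γ → EuclideanSpace ℝ ι) (h : H → Γ)
    (y : ∀ t, EuclideanSpace ℝ (κ t)) (z z' : EuclideanSpace ℝ ιZ) :
    dist (nwPt x h y z) (nwPt x h y z') = dist z z' := by
  unfold nwPt
  rw [dist_pairS, dist_pairS]

/-- the computation of the Gram matrix -/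
theorem nw_gram (β : SForm (EuclideanSpace ℝ ι)) (βt : ∀ t, SForm (EuclideanSpace ℝ (κ t)))
    (βZ : SForm (EuclideanSpace ℝ ιZ)) (x : Γ → EuclideanSpace ℝ ι) (κ₀ κZ : TT)
    (hκ : ∀ γ, β.B (x γ) (x γ) = κ₀) (l : Line Γ H) (z : EuclideanSpace ℝ ιZ)
    (hz : βZ.B z z = κZ) (st : Fin (Fintype.card H + 1) → TT)
    (w : ∀ t, Γ → EuclideanSpace ℝ (κ t)) (γ₀ : Γ)
    (hw : ∀ t γ γ', (βt t).B (w t γ) (w t γ') =
      nwLam (Fintype.card H) t • β.B (x γ) (x γ') + st t) (γ γ' : Γ) :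
    (nwForm β βt βZ).B (nwPt x (l γ) (fun t => w t (if t = nwT l then γ else γ₀)) z)
        (nwPt x (l γ') (fun t => w t (if t = nwT l then γ' else γ₀)) z) =
      β.B (x γ) (x γ') + ((Fintype.card H * nwEta (Fintype.card H) ^ 2 - 1 : ℚ) • κ₀ +
        ∑ t : Fin (Fintype.card H + 1), (nwLam (Fintype.card H) t • κ₀ + st t) + κZ) := by
  classical
  rw [nwForm_pt, hz]
  have h1 : ∑ i, (nwEta (Fintype.card H) ^ 2) • β.B (x (l γ i)) (x (l γ' i)) =
      ((nwAct l).card * nwEta (Fintype.card H) ^ 2 : ℚ) • β.B (x γ) (x γ') +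
        ((Fintype.card H - (nwAct l).card) * nwEta (Fintype.card H) ^ 2 : ℚ) • κ₀ := by
    rw [← Finset.sum_add_sum_compl (nwAct l)]
    have e1 : ∑ i ∈ nwAct l, (nwEta (Fintype.card H) ^ 2) • β.B (x (l γ i)) (x (l γ' i)) =
        ((nwAct l).card * nwEta (Fintype.card H) ^ 2 : ℚ) • β.B (x γ) (x γ') := by
      rw [Finset.sum_congr rfl (g := fun _ => (nwEta (Fintype.card H) ^ 2) • β.B (x γ) (x γ'))]
      · rw [Finset.sum_const, ← Nat.cast_smul_eq_nsmul ℚ, smul_smul]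
      · intro i hi
        have e := line_act l hi
        rw [congrFun e γ, congrFun e γ']
        rfl
    have e2 : ∑ i ∈ (nwAct l)ᶜ, (nwEta (Fintype.card H) ^ 2) • β.B (x (l γ i)) (x (l γ' i)) =
        ((Fintype.card H - (nwAct l).card) * nwEta (Fintype.card H) ^ 2 : ℚ) • κ₀ := by
      rw [Finset.sum_congr rfl (g := fun _ => (nwEta (Fintype.card H) ^ 2) • κ₀)]
      · rw [Finset.sum_const, ← Nat.cast_smul_eq_nsmul ℚ, smul_smul, Finset.card_compl,
          Nat.cast_sub (Finset.card_le_univ _)]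
      · intro i hi
        rw [Finset.mem_compl] at hi
        obtain ⟨g, e⟩ := line_not_act l hi
        rw [congrFun e γ, congrFun e γ', hκ]
    rw [e1, e2]
  have h2 : ∑ t, (βt t).B (w t (if t = nwT l then γ else γ₀)) (w t (if t = nwT l then γ' else γ₀)) =
      ∑ t : Fin (Fintype.card H + 1), (nwLam (Fintype.card H) t • κ₀ + st t) +
        nwLam (Fintype.card H) (nwAct l).card • (β.B (x γ) (x γ') - κ₀) := by
    have e1 : ∀ t : Fin (Fintype.card H + 1),
        (βt t).B (w t (if t = nwT l then γ else γ₀)) (w t (if t = nwT l then γ' else γ₀)) =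
        (nwLam (Fintype.card H) t • κ₀ + st t) +
          (if t = nwT l then nwLam (Fintype.card H) t • (β.B (x γ) (x γ') - κ₀) else 0) := by
      intro t
      rw [hw]
      split_ifs with h
      · module
      · rw [hκ, add_zero]
    rw [Finset.sum_congr rfl fun t _ => e1 t, Finset.sum_add_distrib, Finset.sum_ite_eq']
    simp only [Finset.mem_univ, if_true]
    rfl
  rw [h1, h2]
  generalize (∑ t : Fin (Fintype.card H + 1), (nwLam (Fintype.card H) t • κ₀ + st t)) = S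
  unfold nwLam
  module

end Vale.Agent.Lib.P058
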