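import Vale.Agent.Lib.P058C.NWB

/-!
# P058C, module NW, part C: lists of columns, positivity
-/

namespace Vale.Agent.Lib.P058

open Combinatorics

/-- up to the order `L` consists of `n` copies of `cs` and of constants -/
def PC {Γ : Type} (cs : List (Γ → ℝ)) (n : ℕ) (L : List (Γ → ℝ)) : Prop :=
  ∃ ks : List ℝ, L.Perm ((List.replicate n cs).flatten ++ ks.map (fun k => (fun _ : Γ => k)))

theorem PC.nil {Γ : Type} (cs : List (Γ → ℝ)) : PC cs 0 [] := ⟨[], by simp⟩

theorem PC.append {Γ : Type} {cs : List (Γ → ℝ)} {n n' : ℕ} {L L' : List (Γ → ℝ)}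
    (h : PC cs n L) (h' : PC cs n' L') : PC cs (n + n') (L ++ L') := by
  obtain ⟨ks, h⟩ := h
  obtain ⟨ks', h'⟩ := h'
  refine ⟨ks ++ ks', (h.append h').trans ?_⟩
  rw [List.replicate_add, List.flatten_append, List.map_append, List.append_assoc,
    List.append_assoc]
  refine List.Perm.append_left _ ?_
  rw [← List.append_assoc, ← List.append_assoc]
  exact List.Perm.append_right _ List.perm_append_comm

theorem PC.const {Γ : Type} [Nonempty Γ] (cs : List (Γ → ℝ)) {L : List (Γ → ℝ)}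
    (h : ∀ f ∈ L, ∃ k, f = fun _ => k) : PC cs 0 L := by
  obtain ⟨γ₀⟩ := ‹Nonempty Γ›
  refine ⟨L.map (fun f => f γ₀), ?_⟩
  rw [List.replicate_zero, List.flatten_nil, List.nil_append, List.map_map]
  have e : L.map ((fun k => (fun _ : Γ => k)) ∘ fun f => f γ₀) = L.map id := by
    refine List.map_congr_left fun f hf => ?_
    obtain ⟨k, rfl⟩ := h f hf
    rfl
  rw [e, List.map_id]

theorem PC.replicate {Γ : Type} {cs : List (Γ → ℝ)} {m : ℕ} {L : List (Γ → ℝ)}
    (h : PC cs m L) (n : ℕ) : PC cs (n * m) (List.replicate n L).flatten := by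
  induction n with
  | zero =>
    rw [Nat.zero_mul]
    exact PC.nil cs
  | succ n ih =>
    rw [List.replicate_succ, List.flatten_cons, Nat.succ_mul, Nat.add_comm]
    exact h.append ih

theorem PC.flatMap {Γ α : Type} {cs : List (Γ → ℝ)} (ts : List α) (F : α → List (Γ → ℝ))
    (n : α → ℕ) (h : ∀ t ∈ ts, PC cs (n t) (F t)) : PC cs (ts.map n).sum (ts.flatMap F) := by
  induction ts with
  | nil => exact PC.nil cs
  | cons t ts ih =>
    rw [List.map_cons, List.sum_cons, List.flatMap_cons]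
    exact (h t (by simp)).append (ih fun t' ht' => h t' (by simp [ht']))

theorem nw_mu_pos {M : ℕ} (κ₀ κZ : TT) (st : Fin (M + 1) → TT) (h0 : 0 ≤ mu κ₀)
    (hZ : 0 ≤ mu κZ) (hst : ∀ t, 0 < mu (st t)) :
    0 < mu ((M * nwEta M ^ 2 - 1 : ℚ) • κ₀ + ∑ t : Fin (M + 1), (nwLam M t • κ₀ + st t) + κZ) := by
  rw [map_add, map_add, map_sum, mu_rat_smul]
  have h1 : mu κ₀ + mu (st 0) ≤ ∑ t : Fin (M + 1), mu (nwLam M t • κ₀ + st t) := by
    have h2 : mu κ₀ + mu (st 0) = mu (nwLam M ((0 : Fin (M + 1)) : ℕ) • κ₀ + st 0) := by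
      rw [Fin.val_zero, nwLam_zero, one_smul, map_add]
    rw [h2]
    refine Finset.single_le_sum (f := fun t : Fin (M + 1) => mu (nwLam M t • κ₀ + st t))
      (fun t _ => ?_) (Finset.mem_univ _)
    show 0 ≤ mu (nwLam M t • κ₀ + st t)
    rw [map_add, mu_rat_smul]
    have h3 : (0 : ℝ) < (nwLam M t : ℚ) := by exact_mod_cast nwLam_pos t.2
    have h4 := hst t
    positivity
  have h5 := hst 0
  have h6 : 0 ≤ (((M : ℚ) * nwEta M ^ 2 : ℚ) : ℝ) * mu κ₀ := by
    have : (0 : ℚ) ≤ (M : ℚ) * nwEta M ^ 2 := by positivity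
    have h7 : (0 : ℝ) ≤ (((M : ℚ) * nwEta M ^ 2 : ℚ) : ℝ) := by exact_mod_cast this
    positivity
  have h8 : (((M : ℚ) * nwEta M ^ 2 - 1 : ℚ) : ℝ) * mu κ₀ =
      (((M : ℚ) * nwEta M ^ 2 : ℚ) : ℝ) * mu κ₀ - mu κ₀ := by
    push_cast
    ring
  rw [h8]
  linarith

end Vale.Agent.Lib.P058
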