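import Vale.Agent.Lib.P058C.NWC

/-!
# P058C, module NW, part D: the copies
-/

namespace Vale.Agent.Lib.P058

open Combinatorics

section

variable {Γ H ι ιZ : Type} [Fintype H]
  {ω : Fin (Fintype.card H + 1) → Γ → Γ → TT} {cs : List (Γ → ℝ)}

/-- the copies -/
noncomputable def nwP (x : Γ → EuclideanSpace ℝ ι) (W : ∀ t, Wit Γ (ω t) cs)
    {Z : Finset (EuclideanSpace ℝ ιZ)} (γ₀ : Γ) (k : Line Γ H × (∀ t, (W t).K) × Z) (γ : Γ) :
    EuclideanSpace ℝ ((Σ _ : H, ι) ⊕ ((Σ t, (W t).ι) ⊕ ιZ)) :=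
  nwPt x (k.1 γ) (fun t => (W t).w (k.2.1 t) (if t = nwT k.1 then γ else γ₀)) k.2.2

/-- the columns of the component `t` -/
noncomputable def nwL (W : ∀ t, Wit Γ (ω t) cs) (Z : Finset (EuclideanSpace ℝ ιZ)) (γ₀ : Γ)
    (t : Fin (Fintype.card H + 1)) : List (Line Γ H × (∀ t, (W t).K) × Z → Γ → ℝ) :=
  (Finset.univ : Finset (W t).ι).toList.map (fun q => fun k γ =>
    (W t).μ q * (W t).w (k.2.1 t) (if t = nwT k.1 then γ else γ₀) q)

/-- all columns -/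
noncomputable def nwU (W : ∀ t, Wit Γ (ω t) cs) (Z : Finset (EuclideanSpace ℝ ιZ)) (γ₀ : Γ) :
    List (Line Γ H × (∀ t, (W t).K) × Z → Γ → ℝ) :=
  (List.finRange (Fintype.card H + 1)).flatMap
    (fun t : Fin (Fintype.card H + 1) => (List.replicate (t : ℕ) (nwL W Z γ₀ t)).flatten)

theorem nwL_const [Nonempty Γ] (W : ∀ t, Wit Γ (ω t) cs) (Z : Finset (EuclideanSpace ℝ ιZ)) (γ₀ : Γ)
    (t : Fin (Fintype.card H + 1)) (k : Line Γ H × (∀ t, (W t).K) × Z) (ht : t ≠ nwT k.1) :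
    PC cs 0 ((nwL W Z γ₀ t).map (fun u => u k)) := by
  refine PC.const cs fun f hf => ?_
  unfold nwL at hf
  rw [List.map_map] at hf
  obtain ⟨q, -, rfl⟩ := List.mem_map.1 hf
  refine ⟨(W t).μ q * (W t).w (k.2.1 t) γ₀ q, ?_⟩
  funext γ
  simp only [Function.comp, if_neg ht]

theorem nwL_cov (W : ∀ t, Wit Γ (ω t) cs) (Z : Finset (EuclideanSpace ℝ ιZ)) (γ₀ : Γ)
    (k : Line Γ H × (∀ t, (W t).K) × Z) :
    PC cs 1 ((nwL W Z γ₀ (nwT k.1)).map (fun u => u k)) := by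
  obtain ⟨ks, hks⟩ := (W (nwT k.1)).cov (k.2.1 (nwT k.1))
  refine ⟨ks, ?_⟩
  have e : (nwL W Z γ₀ (nwT k.1)).map (fun u => u k) =
      (Finset.univ : Finset (W (nwT k.1)).ι).toList.map (fun p => (fun j : Γ =>
        (W (nwT k.1)).μ p * (W (nwT k.1)).w (k.2.1 (nwT k.1)) j p)) := by
    unfold nwL
    rw [List.map_map]
    refine List.map_congr_left fun q _ => ?_
    funext γ
    simp only [Function.comp, if_true]
  rw [e, List.replicate_one, List.flatten_singleton]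
  exact hks

theorem nwU_cov [Nonempty Γ] (W : ∀ t, Wit Γ (ω t) cs) (Z : Finset (EuclideanSpace ℝ ιZ)) (γ₀ : Γ)
    (k : Line Γ H × (∀ t, (W t).K) × Z) :
    PC cs (nwAct k.1).card ((nwU W Z γ₀).map (fun u => u k)) := by
  unfold nwU
  rw [List.map_flatMap]
  have h1 : PC cs ((List.finRange (Fintype.card H + 1)).map
      (fun t : Fin (Fintype.card H + 1) => if t = nwT k.1 then (t : ℕ) else 0)).sum
      ((List.finRange (Fintype.card H + 1)).flatMap (fun t : Fin (Fintype.card H + 1) =>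
        ((List.replicate (t : ℕ) (nwL W Z γ₀ t)).flatten).map (fun u => u k))) := by
    refine PC.flatMap _ _ _ fun t _ => ?_
    rw [List.map_flatten, List.map_replicate]
    split_ifs with h
    · subst h
      have h2 := (nwL_cov W Z γ₀ k).replicate ((nwT k.1 : Fin (Fintype.card H + 1)) : ℕ)
      rwa [Nat.mul_one] at h2
    · have h2 := (nwL_const W Z γ₀ t k h).replicate (t : ℕ)
      rwa [Nat.mul_zero] at h2
  have h2 : ((List.finRange (Fintype.card H + 1)).map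
      (fun t : Fin (Fintype.card H + 1) => if t = nwT k.1 then (t : ℕ) else 0)).sum = (nwAct k.1).card := by
    rw [← List.ofFn_eq_map, List.sum_ofFn, Finset.sum_ite_eq']
    simp only [Finset.mem_univ, if_true]
    rfl
  rwa [h2] at h1

theorem mem_nwU (W : ∀ t, Wit Γ (ω t) cs) (Z : Finset (EuclideanSpace ℝ ιZ)) (γ₀ : Γ)
    {t : Fin (Fintype.card H + 1)} (ht : t ≠ 0) (q : (W t).ι) :
    (fun (k : Line Γ H × (∀ t, (W t).K) × Z) γ =>
      (W t).μ q * (W t).w (k.2.1 t) (if t = nwT k.1 then γ else γ₀) q) ∈ nwU W Z γ₀ := by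
  unfold nwU
  rw [List.mem_flatMap]
  refine ⟨t, List.mem_finRange t, ?_⟩
  rw [List.mem_flatten]
  refine ⟨nwL W Z γ₀ t, ?_, ?_⟩
  · rw [List.mem_replicate]
    exact ⟨fun h => ht (Fin.ext h), rfl⟩
  · unfold nwL
    rw [List.mem_map]
    exact ⟨q, by simp, rfl⟩

variable [Fintype ι] [Fintype ιZ]

theorem nw_coord (x : Γ → EuclideanSpace ℝ ι) (W : ∀ t, Wit Γ (ω t) cs)
    {Z : Finset (EuclideanSpace ℝ ιZ)} (γ₀ : Γ) (j : (Σ _ : H, ι) ⊕ ((Σ t, (W t).ι) ⊕ ιZ)) (c : ℝ) :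
    ∃ u, (fun (k : Line Γ H × (∀ t, (W t).K) × Z) γ => c * nwP x W γ₀ k γ j) =
      fun k γ => inner ℝ u (nwP x W γ₀ k γ) := by
  classical
  refine ⟨EuclideanSpace.single j c, ?_⟩
  funext k γ
  rw [EuclideanSpace.inner_single_left]
  simp

theorem nwU_sub (x : Γ → EuclideanSpace ℝ ι) (W : ∀ t, Wit Γ (ω t) cs)
    {Z : Finset (EuclideanSpace ℝ ιZ)} (γ₀ : Γ) :
    ∀ f ∈ nwU W Z γ₀, f ∈ {f : Line Γ H × (∀ t, (W t).K) × Z → Γ → ℝ |
      ∃ u, f = fun k γ => inner ℝ u (nwP x W γ₀ k γ)} := by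
  intro f hf
  unfold nwU at hf
  rw [List.mem_flatMap] at hf
  obtain ⟨t, -, hf⟩ := hf
  rw [List.mem_flatten] at hf
  obtain ⟨L, hL, hf⟩ := hf
  have hL' := List.eq_of_mem_replicate hL
  subst hL'
  unfold nwL at hf
  rw [List.mem_map] at hf
  obtain ⟨q, -, rfl⟩ := hf
  exact nw_coord x W γ₀ (Sum.inr (Sum.inl ⟨t, q⟩)) ((W t).μ q)

theorem isG2_const [Nonempty Γ] (x : Γ → EuclideanSpace ℝ ι) (W : ∀ t, Wit Γ (ω t) cs)
    {Z : Finset (EuclideanSpace ℝ ιZ)} (γ₀ : Γ) (VQ : Set (Γ → ℝ))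
    (f : Line Γ H × (∀ t, (W t).K) × Z → Γ → ℝ)
    (hf : ∃ u, f = fun k γ => inner ℝ u (nwP x W γ₀ k γ)) (hc : ∀ k, ∃ c, f k = fun _ => c) :
    IsG2 {f : Line Γ H × (∀ t, (W t).K) × Z → Γ → ℝ |
      ∃ u, f = fun k γ => inner ℝ u (nwP x W γ₀ k γ)} VQ (fun k => nwAct k.1) f := by
  refine ⟨[f], [], by simp, ?_, by simp, fun k => ?_⟩
  · intro u hu
    rw [List.mem_singleton] at hu
    subst hu
    exact hf
  · obtain ⟨c, hc⟩ := hc k
    refine ⟨[c], ?_⟩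
    simp [hc]

theorem nw_gen [Nonempty Γ] (x : Γ → EuclideanSpace ℝ ι) (W : ∀ t, Wit Γ (ω t) cs)
    {Z : Finset (EuclideanSpace ℝ ιZ)} (γ₀ : Γ) (VQ : Submodule ℝ (Γ → ℝ))
    (hVQ : ∀ c, c ∈ VQ ↔ ∃ w : EuclideanSpace ℝ ι, ∀ γ, c γ = inner ℝ w (x γ))
    (hcs : ∀ c ∈ cs, c ∈ (VQ : Set (Γ → ℝ)))
    (u : EuclideanSpace ℝ ((Σ _ : H, ι) ⊕ ((Σ t, (W t).ι) ⊕ ιZ))) :
    (fun (k : Line Γ H × (∀ t, (W t).K) × Z) γ => inner ℝ u (nwP x W γ₀ k γ)) ∈ Submodule.span ℝ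
    ({f : Line Γ H × (∀ t, (W t).K) × Z → Γ → ℝ | ∃ g ∈ VQ, ∃ h : H,
        f = fun k γ => g (k.1 γ h)} ∪
      {f | IsG2 {f | ∃ u, f = fun k γ => inner ℝ u (nwP x W γ₀ k γ)} (VQ : Set (Γ → ℝ))
        (fun k => nwAct k.1) f}) := by
  classical
  have e : (fun (k : Line Γ H × (∀ t, (W t).K) × Z) γ => inner ℝ u (nwP x W γ₀ k γ)) =
      ∑ j, (u j) • (fun (k : Line Γ H × (∀ t, (W t).K) × Z) γ => nwP x W γ₀ k γ j) := by
    funext k γ
    rw [PiLp.inner_apply, Finset.sum_apply, Finset.sum_apply]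
    refine Finset.sum_congr rfl fun j _ => ?_
    simp [mul_comm]
  rw [e]
  refine Submodule.sum_mem _ fun j _ => Submodule.smul_mem _ _ ?_
  rcases j with ⟨i, r⟩ | ⟨t, q⟩ | r
  · refine Submodule.subset_span (Or.inl ?_)
    refine ⟨fun γ => ((nwEta (Fintype.card H) : ℚ) : ℝ) * x γ r, ?_, i, rfl⟩
    rw [hVQ]
    refine ⟨EuclideanSpace.single r ((nwEta (Fintype.card H) : ℚ) : ℝ), fun γ => ?_⟩
    rw [EuclideanSpace.inner_single_left]
    simp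
  · rcases eq_or_ne t 0 with ht | ht
    · refine Submodule.subset_span (Or.inr ?_)
      refine isG2_const x W γ₀ _ _ ?_ fun k => ?_
      · obtain ⟨u', hu'⟩ := nw_coord x W (Z := Z) γ₀ (Sum.inr (Sum.inl ⟨t, q⟩)) 1
        refine ⟨u', ?_⟩
        rw [← hu']
        funext k γ
        rw [one_mul]
      · refine ⟨(W t).w (k.2.1 t) γ₀ q, ?_⟩
        funext γ
        show (W t).w (k.2.1 t) (if t = nwT k.1 then γ else γ₀) q = _
        rw [if_neg]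
        rw [ht]
        exact (nwT_ne_zero k.1).symm
    · have e2 : (fun (k : Line Γ H × (∀ t, (W t).K) × Z) γ =>
          nwP x W γ₀ k γ (Sum.inr (Sum.inl ⟨t, q⟩))) =
          ((W t).μ q)⁻¹ • (fun (k : Line Γ H × (∀ t, (W t).K) × Z) γ =>
            (W t).μ q * (W t).w (k.2.1 t) (if t = nwT k.1 then γ else γ₀) q) := by
        funext k γ
        show (W t).w (k.2.1 t) (if t = nwT k.1 then γ else γ₀) q = ((W t).μ q)⁻¹ * ((W t).μ q * _)
        rw [← mul_assoc, inv_mul_cancel₀ ((W t).hμ q), one_mul]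
      rw [e2]
      refine Submodule.smul_mem _ _ (Submodule.subset_span (Or.inr ?_))
      exact ⟨nwU W Z γ₀, cs, mem_nwU W Z γ₀ ht q, nwU_sub x W γ₀, hcs, fun k => nwU_cov W Z γ₀ k⟩
  · refine Submodule.subset_span (Or.inr ?_)
    refine isG2_const x W γ₀ _ _ ?_ fun k => ?_
    · obtain ⟨u', hu'⟩ := nw_coord x W (Z := Z) γ₀ (Sum.inr (Sum.inr r)) 1
      refine ⟨u', ?_⟩
      rw [← hu']
      funext k γ
      rw [one_mul]
    · exact ⟨(k.2.2 : EuclideanSpace ℝ ιZ) r, rfl⟩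

theorem nw_pull (x : Γ → EuclideanSpace ℝ ι) (W : ∀ t, Wit Γ (ω t) cs)
    {Z : Finset (EuclideanSpace ℝ ιZ)} (γ₀ : Γ) (w : EuclideanSpace ℝ ι) (h : H) :
    ∃ u, ∀ (k : Line Γ H × (∀ t, (W t).K) × Z) γ, inner ℝ u (nwP x W γ₀ k γ) =
      inner ℝ w (x (k.1 γ h)) := by
  classical
  refine ⟨pairS (mkS (fun i => if i = h then (((nwEta (Fintype.card H))⁻¹ : ℚ) : ℝ) • w else 0)) 0,
    fun k γ => ?_⟩
  unfold nwP nwPt
  rw [inner_fst_snd]
  simp only [fstS_pairS, sndS_pairS]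
  rw [inner_mkS, inner_zero_left, add_zero, Finset.sum_eq_single h]
  · rw [if_pos rfl, inner_smul_left, inner_smul_right, ← mul_assoc]
    have h1 : (((nwEta (Fintype.card H))⁻¹ : ℚ) : ℝ) * ((nwEta (Fintype.card H) : ℚ) : ℝ) = 1 := by
      rw [← Rat.cast_mul, inv_mul_cancel₀ (nwEta_pos _).ne', Rat.cast_one]
    simp only [conj_trivial]
    rw [h1, one_mul]
  · intro i _ hi
    rw [if_neg hi, inner_zero_left]
  · intro hh
    exact absurd (Finset.mem_univ h) hh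

end

end Vale.Agent.Lib.P058
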