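import Vale.Agent.Lib.P058C.SDef

/-!
# P058C, module NecA: the dual of `IsGood`

PROOF.  `U = (A → A → TT) × (A → A → ℝ)` (real vector space, `TT` with its left action
`r • (x ⊗ y) = (r x) ⊗ y`).  Let `R ⊆ U` be the real subspace spanned by the elements
`e f g = (fun x y => tp (f x) (g x) - tp (f y) (g y), fun x y => (f x - f y) * (g x - g y))`.
Every element of `R` is a finite sum `∑ k, e (f k) (g k)`.  If `(0, dist²) ∈ R` then `A` is good.
So `(0, dist²) ∉ R` and there is a real linear `Λ : U → ℝ` with `Λ = 0` on `R` and `Λ (0, dist²) = 1`.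
Write `Λ (σ, D) = ∑ x y, Λ' x y (σ x y) + ∑ x y, l x y * D x y`.
Put `b x t = ∑ y, (Λ' x y (tp 1 t) - Λ' y x (tp 1 t))`, an additive map of `t`.
-/

namespace Vale.Agent.Lib.P058

/-- the generators -/
noncomputable def necE {d : ℕ} (A : Set (EuclideanSpace ℝ (Fin d)))
    (f g : EuclideanSpace ℝ (Fin d) →ᵃ[ℝ] ℝ) : (A → A → TT) × (A → A → ℝ) :=
  (fun x y => tp (f x) (g x) - tp (f y) (g y), fun x y => (f x - f y) * (g x - g y))

theorem necE_smul {d : ℕ} (A : Set (EuclideanSpace ℝ (Fin d))) (r : ℝ)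
    (f g : EuclideanSpace ℝ (Fin d) →ᵃ[ℝ] ℝ) : r • necE A f g = necE A (r • f) g := by
  refine Prod.ext ?_ ?_
  · funext x y
    show r • (tp (f x) (g x) - tp (f y) (g y)) = tp ((r • f) x) (g x) - tp ((r • f) y) (g y)
    rw [smul_sub, real_smul_tp, real_smul_tp]
    rfl
  · funext x y
    show r * ((f x - f y) * (g x - g y)) = ((r • f) x - (r • f) y) * (g x - g y)
    have h1 : (r • f) (x : EuclideanSpace ℝ (Fin d)) = r * f x := rfl
    have h2 : (r • f) (y : EuclideanSpace ℝ (Fin d)) = r * f y := rfl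
    rw [h1, h2]
    ring

theorem necE_span {d : ℕ} (A : Set (EuclideanSpace ℝ (Fin d)))
    (u : (A → A → TT) × (A → A → ℝ))
    (hu : u ∈ Submodule.span ℝ {u | ∃ f g, u = necE A f g}) :
    ∃ (n : ℕ) (f g : Fin n → EuclideanSpace ℝ (Fin d) →ᵃ[ℝ] ℝ), u = ∑ k, necE A (f k) (g k) := by
  induction hu using Submodule.span_induction with
  | mem u hu =>
    obtain ⟨f, g, rfl⟩ := hu
    exact ⟨1, fun _ => f, fun _ => g, by simp⟩
  | zero => exact ⟨0, fun k => k.elim0, fun k => k.elim0, by simp⟩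
  | add u v _ _ hu hv =>
    obtain ⟨n, f, g, rfl⟩ := hu
    obtain ⟨m, f', g', rfl⟩ := hv
    refine ⟨n + m, Fin.append f f', Fin.append g g', ?_⟩
    rw [Fin.sum_univ_add]
    simp
  | smul r u _ hu =>
    obtain ⟨n, f, g, rfl⟩ := hu
    refine ⟨n, fun k => r • f k, g, ?_⟩
    rw [Finset.smul_sum]
    exact Finset.sum_congr rfl fun k _ => necE_smul A r _ _

theorem isGood_of_mem {d : ℕ} (A : Set (EuclideanSpace ℝ (Fin d)))
    (h : ((fun _ _ => 0, fun x y => dist (x : EuclideanSpace ℝ (Fin d)) y ^ 2) :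
      (A → A → TT) × (A → A → ℝ)) ∈ Submodule.span ℝ {u | ∃ f g, u = necE A f g}) :
    IsGood A := by
  obtain ⟨n, f, g, he⟩ := necE_span A _ h
  refine ⟨n, f, g, fun x hx y hy => ?_, fun φ x hx y hy => ?_⟩
  · have h1 := congrArg (fun u => u.2 ⟨x, hx⟩ ⟨y, hy⟩) he
    simp only [Prod.snd_sum, Finset.sum_apply] at h1
    exact h1.symm
  · have h1 := congrArg (fun u => bfun φ (u.1 ⟨x, hx⟩ ⟨y, hy⟩)) he
    simp only [Prod.fst_sum, Finset.sum_apply, map_zero, map_sum] at h1
    have h2 : ∀ k, bfun φ ((necE A (f k) (g k)).1 ⟨x, hx⟩ ⟨y, hy⟩)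
        = f k x * φ (g k x) - f k y * φ (g k y) := by
      intro k
      show bfun φ (tp (f k x) (g k x) - tp (f k y) (g k y)) = _
      rw [map_sub, bfun_tp, bfun_tp]
    simp only [h2, Finset.sum_sub_distrib] at h1
    linarith

theorem exists_dual {d : ℕ} (A : Set (EuclideanSpace ℝ (Fin d))) [Fintype A] (h : ¬ IsGood A) :
    ∃ (b : A → (ℝ →+ ℝ)) (l : A → A → ℝ), (∀ t, ∑ x, b x t = 0) ∧
      (∀ f g : EuclideanSpace ℝ (Fin d) →ᵃ[ℝ] ℝ,
        ∑ x : A, f x * b x (g x) + ∑ x : A, ∑ y : A, l x y * ((f x - f y) * (g x - g y)) = 0) ∧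
      ∑ x : A, ∑ y : A, l x y * dist (x : EuclideanSpace ℝ (Fin d)) y ^ 2 = 1 := by
  classical
  have h0 := fun h' => h (isGood_of_mem A h')
  obtain ⟨Λ₀, hΛ₀, hker⟩ := Submodule.exists_le_ker_of_notMem h0
  set D : A → A → ℝ := fun x y => dist (x : EuclideanSpace ℝ (Fin d)) y ^ 2 with hD
  set c := Λ₀ ((fun _ _ => 0, D) : (A → A → TT) × (A → A → ℝ)) with hc
  -- normalise
  set Λ : ((A → A → TT) × (A → A → ℝ)) →ₗ[ℝ] ℝ := c⁻¹ • Λ₀ with hΛ
  have hΛ1 : Λ ((fun _ _ => 0, D) : (A → A → TT) × (A → A → ℝ)) = 1 := by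
    show c⁻¹ * Λ₀ _ = 1
    exact inv_mul_cancel₀ hΛ₀
  have hΛe : ∀ f g, Λ (necE A f g) = 0 := by
    intro f g
    show c⁻¹ * Λ₀ _ = 0
    have h1 : Λ₀ (necE A f g) = 0 := hker (Submodule.subset_span ⟨f, g, rfl⟩)
    rw [h1, mul_zero]
  -- components
  set Λ' : A → A → TT → ℝ := fun x y s => Λ (Pi.single x (Pi.single y s), 0) with hΛ'
  set l : A → A → ℝ := fun x y => Λ (0, Pi.single x (Pi.single y 1)) with hl
  have hadd : ∀ x y s t, Λ' x y (s + t) = Λ' x y s + Λ' x y t := by
    intro x y s t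
    simp only [hΛ']
    rw [← map_add, Prod.mk_add_mk, ← Pi.single_add, ← Pi.single_add, add_zero]
  have hsm : ∀ x y (r s : ℝ), Λ' x y (tp r s) = r * Λ' x y (tp 1 s) := by
    intro x y r s
    simp only [hΛ']
    rw [← smul_eq_mul, ← map_smul]
    congr 1
    rw [Prod.smul_mk, smul_zero, ← Pi.single_smul, ← Pi.single_smul, real_smul_tp, mul_one]
  have hexp : ∀ (σ : A → A → TT) (δ : A → A → ℝ),
      Λ (σ, δ) = ∑ x, ∑ y, Λ' x y (σ x y) + ∑ x, ∑ y, l x y * δ x y := by
    intro σ δ
    have h1 : (σ, δ) = ((σ, 0) : (A → A → TT) × (A → A → ℝ)) + (0, δ) := by simp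
    rw [h1, map_add]
    congr 1
    · have h2 : ((σ, 0) : (A → A → TT) × (A → A → ℝ))
          = ∑ x, ∑ y, (Pi.single x (Pi.single y (σ x y)), 0) := by
        refine Prod.ext ?_ ?_
        · simp only [Prod.fst_sum]
          funext x y
          simp only [Finset.sum_apply]
          rw [Finset.sum_eq_single x, Finset.sum_eq_single y]
          · simp
          · intro b _ hb
            simp [hb.symm]
          · simp
          · intro b _ hb
            refine Finset.sum_eq_zero fun z _ => ?_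
            simp [hb.symm]
          · simp
        · simp only [Prod.snd_sum]
          simp
      rw [h2, map_sum]
      refine Finset.sum_congr rfl fun x _ => ?_
      rw [map_sum]
    · have h2 : ((0, δ) : (A → A → TT) × (A → A → ℝ))
          = ∑ x, ∑ y, δ x y • (0, Pi.single x (Pi.single y 1)) := by
        refine Prod.ext ?_ ?_
        · simp only [Prod.fst_sum]
          simp
        · simp only [Prod.snd_sum]
          funext x y
          simp only [Finset.sum_apply]
          rw [Finset.sum_eq_single x, Finset.sum_eq_single y]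
          · simp
          · intro b _ hb
            simp [hb.symm]
          · simp
          · intro b _ hb
            refine Finset.sum_eq_zero fun z _ => ?_
            simp [hb.symm]
          · simp
      rw [h2, map_sum]
      refine Finset.sum_congr rfl fun x _ => ?_
      rw [map_sum]
      refine Finset.sum_congr rfl fun y _ => ?_
      rw [map_smul, smul_eq_mul, mul_comm]
  have hneg : ∀ x y s t, Λ' x y (s - t) = Λ' x y s - Λ' x y t := by
    intro x y s t
    have h1 := hadd x y (s - t) t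
    rw [sub_add_cancel] at h1
    linarith
  set b : A → (ℝ →+ ℝ) := fun x =>
    { toFun := fun t => ∑ y, (Λ' x y (tp 1 t) - Λ' y x (tp 1 t))
      map_zero' := by
        refine Finset.sum_eq_zero fun y _ => ?_
        have h1 : ∀ x y, Λ' x y 0 = 0 := fun x y => by
          have := hadd x y 0 0
          rw [add_zero] at this
          linarith
        rw [tp_zero_right, h1, h1, sub_zero]
      map_add' := by
        intro s t
        rw [← Finset.sum_add_distrib]
        refine Finset.sum_congr rfl fun y _ => ?_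
        rw [tp_add_right, hadd, hadd]
        ring } with hb
  have hbt : ∀ x t, b x t = ∑ y, (Λ' x y (tp 1 t) - Λ' y x (tp 1 t)) := fun x t => rfl
  refine ⟨b, l, ?_, ?_, ?_⟩
  · intro t
    simp only [hbt, Finset.sum_sub_distrib]
    rw [Finset.sum_comm, sub_self]
  · intro f g
    have h1 := hΛe f g
    rw [necE, hexp] at h1
    rw [← h1]
    congr 1
    have h3 : ∀ x y : A, Λ' x y (tp (f x) (g x) - tp (f y) (g y))
        = f x * Λ' x y (tp 1 (g x)) - f y * Λ' x y (tp 1 (g y)) := by
      intro x y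
      rw [hneg, hsm x y (f x), hsm x y (f y)]
    have h4 : ∑ x : A, ∑ y : A, f y * Λ' x y (tp 1 (g y))
        = ∑ x : A, ∑ y : A, f x * Λ' y x (tp 1 (g x)) := Finset.sum_comm
    simp only [h3, hbt, Finset.mul_sum, mul_sub, Finset.sum_sub_distrib]
    rw [h4]
  · have h1 := hexp (fun _ _ => 0) D
    rw [hΛ1] at h1
    have h2 : ∀ x y, Λ' x y 0 = 0 := fun x y => by
      have := hadd x y 0 0
      rw [add_zero] at this
      linarith
    simp only [h2, Finset.sum_const_zero, zero_add] at h1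
    exact h1.symm

end Vale.Agent.Lib.P058
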