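import Vale.Agent.Lib.P058C.InGB
import Vale.Agent.Lib.P058.Realize

/-!
# P058C, module RealS: monochromatic realisation by words, and compactness

A copy is represented by the list `U` of its columns (including constant columns): the word of the
row `j` is `U.map (fun c => c j)`.

PROOF of `realizeS`.  Take `Φ` from `exists_ultra` (module P058/Ultra).  Key lemma (induction on `InG V v G`, as
`realize_key` in module P058/Realize): there is `cs` (columns in `V`, `(cs.map Gc).sum = G`, and the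
statement on `homL` of `InG.exists_list`) such that for all `C : J → Set (List ℝ)` with
`∀ j, ∀ᶠ w in Φ (v j), w ∈ C j` there are `U`, `ks` with `U.Perm (cs ++ ks.map (fun k _ => k))` and
`U.map (fun c => c j) ∈ C j` for all `j`.
* `const b`: `cs = []`; a word `w ∈ ⋂ C j`, `U = w.map (fun k _ => k)`, `ks = w`.
* `col c`: `cs = [c]`; `U = u.map const ++ (c :: w.map const)`.
* `mul`: `cs = cs₁ ++ cs₂`, `U = U₁ ++ U₂`.
For `v = const b`, `cs` is balanced (as in `exc_list`).  For a colouring `χ`, the ultrafilter `Φ b` gives a colour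
`k` with `∀ᶠ w in Φ b, χ w = k`; use `C j = {w | χ w = k}`.

PROOF of `realizeS_finite` (as `realize_finite` in module P058/Compact, with the same `cs`, which does not depend on
`C`): suppose that for every finite set `𝒰` of admissible `U`'s there is a bad colouring `χ_𝒰`; take a limit
colouring along an ultrafilter on `Finset (List (J → ℝ))` finer than `atTop` and apply `realizeS`.
-/

namespace Vale.Agent.Lib.P058

private theorem realS_key {J : Type} [Finite J] {V : Set (J → ℝ)}
    (Φ : FreeGroup ℝ → Ultrafilter (List ℝ))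
    (hmul : ∀ (g h : FreeGroup ℝ) (p : List ℝ → Prop),
      (∀ᶠ w in (Φ (g * h) : Filter (List ℝ)), p w) ↔
        ∀ᶠ u in (Φ g : Filter (List ℝ)), ∀ᶠ w in (Φ h : Filter (List ℝ)), p (u ++ w))
    (hof : ∀ (x : ℝ) (p : List ℝ → Prop),
      (∀ᶠ w in (Φ (FreeGroup.of x) : Filter (List ℝ)), p w) ↔
        ∀ᶠ u in (Φ 1 : Filter (List ℝ)), ∀ᶠ w in (Φ 1 : Filter (List ℝ)), p (u ++ (x :: w)))
    {v : J → FreeGroup ℝ} {G : J → J → TT} (h : InG V v G) :
    ∃ cs : List (J → ℝ), (∀ c ∈ cs, c ∈ V) ∧ (cs.map Gc).sum = G ∧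
      (∀ (φ : ℝ → ℝ) (i j : J), homL φ (v i) - homL φ (v j) =
        (cs.map (fun c => φ (c i))).sum - (cs.map (fun c => φ (c j))).sum) ∧
      ∀ C : J → Set (List ℝ), (∀ j, ∀ᶠ w in (Φ (v j) : Filter (List ℝ)), w ∈ C j) →
        ∃ (U : List (J → ℝ)) (ks : List ℝ),
          U.Perm (cs ++ ks.map (fun k => (fun _ : J => k))) ∧
          ∀ j, U.map (fun c => c j) ∈ C j := by
  induction h with
  | const b =>
    refine ⟨[], by simp, by simp, by simp, fun C hC => ?_⟩
    obtain ⟨w, hw⟩ := (Filter.eventually_all.2 hC).exists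
    refine ⟨w.map (fun k => (fun _ : J => k)), w, by simp, fun j => ?_⟩
    rw [List.map_map]
    have e : w.map ((fun c : J → ℝ => c j) ∘ fun k => (fun _ : J => k)) = w := List.map_id w
    rw [e]
    exact hw j
  | col c hc =>
    refine ⟨[c], by simpa using hc, by simp, by simp [colF], fun C hC => ?_⟩
    have h1 : ∀ j, ∀ᶠ u in (Φ 1 : Filter (List ℝ)), ∀ᶠ w in (Φ 1 : Filter (List ℝ)),
        u ++ (c j :: w) ∈ C j := fun j => (hof (c j) (fun w => w ∈ C j)).1 (hC j)
    obtain ⟨u, hu⟩ := (Filter.eventually_all.2 h1).exists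
    obtain ⟨w, hw⟩ := (Filter.eventually_all.2 hu).exists
    refine ⟨u.map (fun k => (fun _ : J => k)) ++ (c :: w.map (fun k => (fun _ : J => k))),
      u ++ w, ?_, fun j => ?_⟩
    · rw [List.map_append]
      exact List.perm_middle
    · rw [List.map_append, List.map_cons, List.map_map, List.map_map]
      have e : ∀ w : List ℝ, w.map ((fun c : J → ℝ => c j) ∘ fun k => (fun _ : J => k)) = w :=
        fun w => List.map_id w
      rw [e, e]
      exact hw j
  | mul _ _ ih ih' =>
    rename_i v v' G G' _ _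
    obtain ⟨cs, h1, h2, h3, h4⟩ := ih
    obtain ⟨cs', h1', h2', h3', h4'⟩ := ih'
    refine ⟨cs ++ cs', ?_, ?_, ?_, fun C hC => ?_⟩
    · intro c hc
      rcases List.mem_append.1 hc with h | h
      · exact h1 c h
      · exact h1' c h
    · rw [List.map_append, List.sum_append, h2, h2']
    · intro φ i j
      have e1 := h3 φ i j
      have e2 := h3' φ i j
      simp only [List.map_append, List.sum_append, Pi.mul_apply, homL_mul]
      linarith
    · obtain ⟨U, ks, hU, hUC⟩ := h4
        (fun j => {u | ∀ᶠ w in (Φ (v' j) : Filter (List ℝ)), u ++ w ∈ C j})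
        (fun j => (hmul (v j) (v' j) (fun w => w ∈ C j)).1 (hC j))
      obtain ⟨U', ks', hU', hUC'⟩ := h4' (fun j => {w | U.map (fun c => c j) ++ w ∈ C j})
        (fun j => hUC j)
      refine ⟨U ++ U', ks ++ ks', ?_, fun j => ?_⟩
      · refine (hU.append hU').trans ?_
        rw [List.map_append, List.append_assoc, List.append_assoc]
        refine List.Perm.append_left _ ?_
        rw [← List.append_assoc, ← List.append_assoc]
        exact List.Perm.append_right _ List.perm_append_comm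
      · rw [List.map_append]
        exact hUC' j

theorem realizeS {J : Type} [Finite J] (V : Set (J → ℝ)) (b : FreeGroup ℝ) (G : J → J → TT)
    (h : InG V (fun _ => b) G) :
    ∃ cs : List (J → ℝ), (∀ c ∈ cs, c ∈ V) ∧ (cs.map Gc).sum = G ∧ Balanced cs ∧
      ∀ (C : Type) [Finite C] (χ : List ℝ → C), ∃ (U : List (J → ℝ)) (ks : List ℝ),
        U.Perm (cs ++ ks.map (fun k => (fun _ : J => k))) ∧
        ∀ i j, χ (U.map (fun c => c i)) = χ (U.map (fun c => c j)) := by
  obtain ⟨Φ, hmul, hof⟩ := exists_ultra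
  obtain ⟨cs, h1, h2, h3, h4⟩ := realS_key Φ hmul hof h
  refine ⟨cs, h1, h2, balanced_of_sums fun φ i j => ?_, fun C _ χ => ?_⟩
  · have := h3 φ i j
    linarith
  · obtain ⟨k, hk⟩ := Ultrafilter.eq_pure_of_finite ((Φ b).map χ)
    have hk' : ∀ᶠ w in (Φ b : Filter (List ℝ)), χ w = k := by
      have : ∀ᶠ c in (((Φ b).map χ : Ultrafilter C) : Filter C), c = k := by
        rw [hk]
        simp
      simpa using this
    obtain ⟨U, ks, hU, hUC⟩ := h4 (fun _ => {w | χ w = k}) (fun _ => hk')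
    refine ⟨U, ks, hU, fun i j => ?_⟩
    have e1 : χ (U.map (fun c => c i)) = k := hUC i
    have e2 : χ (U.map (fun c => c j)) = k := hUC j
    rw [e1, e2]

theorem realizeS_finite {J : Type} [Finite J] (V : Set (J → ℝ)) (b : FreeGroup ℝ)
    (G : J → J → TT) (h : InG V (fun _ => b) G) :
    ∃ cs : List (J → ℝ), (∀ c ∈ cs, c ∈ V) ∧ (cs.map Gc).sum = G ∧ Balanced cs ∧
      ∀ (C : Type) [Finite C], ∃ 𝒰 : Finset (List (J → ℝ)),
        (∀ U ∈ 𝒰, ∃ ks : List ℝ, U.Perm (cs ++ ks.map (fun k => (fun _ : J => k)))) ∧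
        ∀ χ : List ℝ → C, ∃ U ∈ 𝒰, ∀ i j, χ (U.map (fun c => c i)) = χ (U.map (fun c => c j)) := by
  obtain ⟨cs, h1, h2, h3, h4⟩ := realizeS V b G h
  refine ⟨cs, h1, h2, h3, fun C _ => ?_⟩
  classical
  by_contra hcon
  push Not at hcon
  have hcon' : ∀ W : Finset (List (J → ℝ)), ∃ χ : List ℝ → C, ∀ U ∈ W,
      (∃ ks : List ℝ, U.Perm (cs ++ ks.map (fun k => (fun _ : J => k)))) →
      ∃ i j, χ (U.map (fun c => c i)) ≠ χ (U.map (fun c => c j)) := by
    intro W
    obtain ⟨χ, hχ⟩ := hcon (W.filter fun U =>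
      ∃ ks : List ℝ, U.Perm (cs ++ ks.map (fun k => (fun _ : J => k))))
      (fun U hU => (Finset.mem_filter.1 hU).2)
    exact ⟨χ, fun U hU hks => hχ U (Finset.mem_filter.2 ⟨hU, hks⟩)⟩
  choose χ hχ using hcon'
  let F : Ultrafilter (Finset (List (J → ℝ))) := Ultrafilter.of Filter.atTop
  have hF : (F : Filter (Finset (List (J → ℝ)))) ≤ Filter.atTop := Ultrafilter.of_le _
  have hlim : ∀ u : List ℝ, ∃ k : C, ∀ᶠ W in (F : Filter (Finset (List (J → ℝ)))), χ W u = k := by
    intro u
    obtain ⟨k, hk⟩ := Ultrafilter.eq_pure_of_finite (F.map fun W => χ W u)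
    refine ⟨k, ?_⟩
    have h1 : ({k} : Set C) ∈ F.map fun W => χ W u := by
      rw [hk]
      exact Ultrafilter.mem_pure.2 rfl
    exact Ultrafilter.mem_map.1 h1
  choose ψ hψ using hlim
  obtain ⟨U, ks, hU, hUm⟩ := h4 C ψ
  have g1 : ∀ᶠ W in (F : Filter (Finset (List (J → ℝ)))), {U} ≤ W :=
    hF (Filter.eventually_ge_atTop _)
  have g2 : ∀ᶠ W in (F : Filter (Finset (List (J → ℝ)))), ∀ j,
      χ W (U.map (fun c => c j)) = ψ (U.map (fun c => c j)) :=
    Filter.eventually_all.2 fun j => hψ _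
  obtain ⟨W, hW1, hW2⟩ := (g1.and g2).exists
  obtain ⟨i, j, hij⟩ := hχ W U (hW1 (Finset.mem_singleton_self U)) ⟨ks, hU⟩
  exact hij (by rw [hW2, hW2, hUm i j])

end Vale.Agent.Lib.P058
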