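import Vale.Agent.Lib.P058C.RealS

/-!
# P058C, module RzExc: exact Gram matrices are realised on a sphere of a form

PROOF.  `Exc V G`: `InG V (const b) (G + s₀)`.  Take `cs` from `realizeS_finite`, `(cs.map Gc).sum = G + s₀`, and a
finite type `C` of colours, `𝒰` the finite set for `C`.  Fix a row `j₀`.  For a word `w : List ℝ` let
`nu w = (w.map (fun a => tp a a)).sum` (`swp (nu w) = nu w`, `0 ≤ mu (nu w)`).
For `U ∈ 𝒰` all words `U.map (· j)` have the same length and the same
`nu U = G j₀ j₀ + s₀ + ∑ tp k k` (`Balanced.diag`; `List.Perm`), and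
`∑_{c ∈ U} tp (c i) (c j) = G i j + s₀ + ∑ tp k k`.
Let `n` be a bound of all lengths, `T` the finite set of the values `nu U`, `U ∈ 𝒰`, and `k₀` a natural
number bigger than all `mu ν`, `ν ∈ T`, and than `mu (G j₀ j₀)`.  `r ν = √(k₀ - mu ν) > 0`.
Coordinates: `ι = Fin n ⊕ T`.  For a word `w` of length `≤ n` let `x w : EuclideanSpace ℝ ι` have the
coordinates `w.getD p 0` (`p : Fin n`) and `if nu w = ν then r ν else 0` (`ν : T`).
The form is diagonal: `β.B u v = ∑ p : Fin n, tp (u p) (v p) + ∑ ν : T, tp (u ν) (v ν) * θ ν`,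
`θ ν = (k₀ - ν) * tp (r ν)⁻¹ (r ν)⁻¹` (`mu (θ ν) = 1`, `swp (θ ν) = θ ν`; `(k₀ : TT)` a natural number).
Copies `K = 𝒰`, `w U j = x (U.map (· j))`.  Then
`β.B (w U i) (w U j) = G i j + s₀ + ∑ tp k k + (k₀ - nu U) = G i j + (k₀ - G j₀ j₀)`, so
`s = k₀ - G j₀ j₀`, `0 < mu s`.
`cov`: `μ = 1`; the coordinate functions are the columns `U`, zero columns (padding) and constants.
`Mono`: for `χ` on the Euclidean space use `realizeS_finite` with `χ ∘ x`.
-/

namespace Vale.Agent.Lib.P058

/-- a diagonal form -/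
noncomputable def diagForm {ι : Type} [Fintype ι] (θ : ι → TT) (h1 : ∀ p, swp (θ p) = θ p)
    (h2 : ∀ p, mu (θ p) = 1) : SForm (EuclideanSpace ℝ ι) where
  B u v := ∑ p, tp (u p) (v p) * θ p
  add_left' u u' v := by
    rw [← Finset.sum_add_distrib]
    refine Finset.sum_congr rfl (fun p _ => ?_)
    rw [PiLp.add_apply, tp_add_left, add_mul]
  smul_left' r u v := by
    rw [Finset.mul_sum]
    refine Finset.sum_congr rfl (fun p _ => ?_)
    rw [PiLp.smul_apply, smul_eq_mul, ← mul_assoc, tp_mul_tp, one_mul]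
  symm' u v := by
    rw [map_sum]
    refine Finset.sum_congr rfl (fun p _ => ?_)
    rw [map_mul, swp_tp, h1]
  real' u v := by
    rw [map_sum, PiLp.inner_apply]
    refine Finset.sum_congr rfl (fun p _ => ?_)
    rw [map_mul, mu_tp, h2, mul_one]
    simp [mul_comm]

/-- the value of a word -/
noncomputable def nuW (w : List ℝ) : TT := (w.map (fun a => tp a a)).sum

theorem swp_nuW (w : List ℝ) : swp (nuW w) = nuW w := by
  unfold nuW
  induction w with
  | nil => simp
  | cons a w ih => rw [List.map_cons, List.sum_cons, map_add, ih, swp_tp]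

theorem gc_sum_apply {J : Type} (U : List (J → ℝ)) (i j : J) :
    (U.map Gc).sum i j = (U.map (fun c => tp (c i) (c j))).sum := by
  induction U with
  | nil => simp
  | cons c U ih =>
    simp only [List.map_cons, List.sum_cons, Pi.add_apply, ih]
    rfl

theorem nuW_map {J : Type} (U : List (J → ℝ)) (j : J) :
    nuW (U.map (fun c => c j)) = (U.map Gc).sum j j := by
  rw [gc_sum_apply, nuW, List.map_map]
  rfl

theorem gc_const_sum {J : Type} (ks : List ℝ) (i j : J) :
    ((ks.map (fun k => (fun _ : J => k))).map Gc).sum i j = nuW ks := by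
  rw [gc_sum_apply, nuW, List.map_map]
  rfl

theorem ofFn_getD {α : Type} (U : List α) (z : α) (n : ℕ) (hn : U.length ≤ n) :
    List.ofFn (fun p : Fin n => U.getD p z) = U ++ List.replicate (n - U.length) z := by
  apply List.ext_getElem
  · simp; omega
  · intro m h1 h2
    rw [List.getElem_ofFn]
    by_cases hm : m < U.length
    · rw [List.getElem_append_left hm, List.getD_eq_getElem _ _ hm]
    · rw [List.getElem_append_right (by omega), List.getElem_replicate]
      simp only [List.getD_eq_getElem?_getD]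
      rw [List.getElem?_eq_none (by omega)]
      rfl

theorem sum_getD {J : Type} (U : List (J → ℝ)) (n : ℕ) (hn : U.length ≤ n) (i j : J) :
    ∑ p : Fin n, tp ((U.map (fun c => c i)).getD p 0) ((U.map (fun c => c j)).getD p 0)
      = (U.map (fun c => tp (c i) (c j))).sum := by
  have h1 : ∀ p : Fin n, tp ((U.map (fun c => c i)).getD p 0) ((U.map (fun c => c j)).getD p 0)
      = (fun c : J → ℝ => tp (c i) (c j)) (U.getD p (fun _ => 0)) := by
    intro p
    have h2 : ∀ k : J, (U.map (fun c => c k)).getD p 0 = (U.getD p (fun _ => 0)) k := by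
      intro k
      simp only [List.getD_eq_getElem?_getD, List.getElem?_map]
      cases U[(p : ℕ)]? <;> rfl
    rw [h2, h2]
  rw [Finset.sum_congr rfl (fun p _ => h1 p), ← List.sum_ofFn,
    show (List.ofFn fun p : Fin n => (fun c : J → ℝ => tp (c i) (c j)) (U.getD p (fun _ => 0)))
      = (List.ofFn fun p : Fin n => U.getD p (fun _ => (0:ℝ))).map (fun c : J → ℝ => tp (c i) (c j))
      by rw [List.map_ofFn]; rfl,
    ofFn_getD _ _ _ hn, List.map_append, List.sum_append, List.map_replicate]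
  simp

theorem rz_exc {J : Type} [Finite J] [Nonempty J] {V : Set (J → ℝ)} {G : J → J → TT}
    (h : Exc V G) : ∃ cs : List (J → ℝ), (∀ c ∈ cs, c ∈ V) ∧ Rz G cs := by
  classical
  obtain ⟨b, s₀, hb⟩ := h
  obtain ⟨cs, hcs, hsum, hbal, hfin⟩ := realizeS_finite V b _ hb
  refine ⟨cs, hcs, ?_⟩
  intro C _
  obtain ⟨𝒰, h𝒰, hχ⟩ := hfin C
  obtain ⟨j₀⟩ := ‹Nonempty J›
  -- data
  set n : ℕ := 𝒰.sup List.length with hn
  have hlen : ∀ U ∈ 𝒰, U.length ≤ n := fun U hU => Finset.le_sup (f := List.length) hU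
  set TF : Finset TT := 𝒰.image (fun U => nuW (U.map (fun c => c j₀))) with hTF
  obtain ⟨k₀, hk₀⟩ : ∃ k₀ : ℕ, (∀ ν ∈ TF, mu ν < k₀) ∧ mu (G j₀ j₀) < k₀ := by
    obtain ⟨M, hM⟩ := (TF.image mu).bddAbove
    obtain ⟨k₁, hk₁⟩ := exists_nat_gt M
    obtain ⟨k₂, hk₂⟩ := exists_nat_gt (mu (G j₀ j₀))
    refine ⟨max k₁ k₂, fun ν hν => ?_, ?_⟩
    · have h1 : mu ν ≤ M := hM (by simpa using ⟨ν, hν, rfl⟩)
      have h2 : (k₁ : ℝ) ≤ ((max k₁ k₂ : ℕ) : ℝ) := by exact_mod_cast le_max_left _ _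
      linarith
    · have h2 : (k₂ : ℝ) ≤ ((max k₁ k₂ : ℕ) : ℝ) := by exact_mod_cast le_max_right _ _
      linarith
  let r : TT → ℝ := fun ν => Real.sqrt (k₀ - mu ν)
  have hr : ∀ ν ∈ TF, 0 < r ν := fun ν hν => Real.sqrt_pos.2 (sub_pos.2 (hk₀.1 ν hν))
  have hr2 : ∀ ν ∈ TF, r ν * r ν = k₀ - mu ν := fun ν hν =>
    Real.mul_self_sqrt (sub_pos.2 (hk₀.1 ν hν)).le
  let θ : Fin n ⊕ {ν // ν ∈ TF} → TT :=
    Sum.elim (fun _ => 1) (fun ν => ((k₀ : TT) - ν.1) * tp (r ν.1)⁻¹ (r ν.1)⁻¹)
  have hθ1 : ∀ p, swp (θ p) = θ p := by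
    rintro (p | ⟨ν, hν⟩)
    · exact map_one _
    · obtain ⟨U, _, rfl⟩ := Finset.mem_image.1 hν
      change swp (((k₀ : TT) - nuW (U.map (fun c => c j₀))) * tp _ _) = _
      rw [map_mul, map_sub, map_natCast, swp_nuW, swp_tp]
      rfl
  have hθ2 : ∀ p, mu (θ p) = 1 := by
    rintro (p | ⟨ν, hν⟩)
    · exact map_one _
    · change mu (((k₀ : TT) - ν) * tp (r ν)⁻¹ (r ν)⁻¹) = 1
      rw [map_mul, map_sub, map_natCast, mu_tp, ← hr2 ν hν]
      have := (hr ν hν).ne'
      field_simp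
  let x : List ℝ → EuclideanSpace ℝ (Fin n ⊕ {ν // ν ∈ TF}) := fun w =>
    WithLp.toLp 2 (Sum.elim (fun p => w.getD p 0) (fun ν => if nuW w = ν.1 then r ν.1 else 0))
  have hxl : ∀ w (p : Fin n), x w (Sum.inl p) = w.getD p 0 := fun _ _ => rfl
  have hxr : ∀ w (ν : {ν // ν ∈ TF}), x w (Sum.inr ν) = if nuW w = ν.1 then r ν.1 else 0 :=
    fun _ _ => rfl
  -- facts on the copies
  have hbalU : ∀ U ∈ 𝒰, ∀ j, nuW (U.map (fun c => c j)) = nuW (U.map (fun c => c j₀)) := by
    intro U hU j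
    obtain ⟨ks, hks⟩ := h𝒰 U hU
    rw [nuW_map, nuW_map, ((hks.map Gc)).sum_eq, List.map_append, List.sum_append]
    simp only [Pi.add_apply]
    rw [hbal.diag j j₀, gc_const_sum, gc_const_sum]
  have hgr : ∀ U ∈ 𝒰, ∀ i j, (U.map Gc).sum i j - nuW (U.map (fun c => c j₀))
      = G i j - G j₀ j₀ := by
    intro U hU i j
    obtain ⟨ks, hks⟩ := h𝒰 U hU
    rw [nuW_map, ((hks.map Gc)).sum_eq, List.map_append, List.sum_append]
    simp only [Pi.add_apply]
    rw [hsum, gc_const_sum, gc_const_sum]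
    ring
  refine ⟨{
    ι := Fin n ⊕ {ν // ν ∈ TF}
    fι := inferInstance
    β := diagForm θ hθ1 hθ2
    K := {U // U ∈ 𝒰}
    fK := inferInstance
    w := fun U j => x (U.1.map (fun c => c j))
    s := (k₀ : TT) - G j₀ j₀
    hs := ?_
    gram := ?_
    μ := fun _ => 1
    hμ := fun _ => one_ne_zero
    cov := ?_ }, ?_⟩
  · rw [map_sub, map_natCast]
    exact sub_pos.2 hk₀.2
  · rintro ⟨U, hU⟩ i j
    change ∑ p, tp (x (U.map (fun c => c i)) p) (x (U.map (fun c => c j)) p) * θ p = _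
    rw [Fintype.sum_sum_type]
    have e1 : ∑ p : Fin n, tp (x (U.map (fun c => c i)) (Sum.inl p))
        (x (U.map (fun c => c j)) (Sum.inl p)) * θ (Sum.inl p) = (U.map Gc).sum i j := by
      rw [gc_sum_apply, ← sum_getD U n (hlen U hU) i j]
      refine Finset.sum_congr rfl (fun p _ => ?_)
      rw [hxl, hxl]
      exact mul_one _
    have hmem : nuW (U.map (fun c => c j₀)) ∈ TF := Finset.mem_image_of_mem _ hU
    have e2 : ∑ ν : {ν // ν ∈ TF}, tp (x (U.map (fun c => c i)) (Sum.inr ν))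
        (x (U.map (fun c => c j)) (Sum.inr ν)) * θ (Sum.inr ν)
        = (k₀ : TT) - nuW (U.map (fun c => c j₀)) := by
      rw [Finset.sum_eq_single (⟨_, hmem⟩ : {ν // ν ∈ TF})]
      · rw [hxr, hxr, if_pos (hbalU U hU i), if_pos (hbalU U hU j)]
        change tp _ _ * (((k₀ : TT) - nuW (U.map (fun c => c j₀))) * tp _ _) = _
        have hne := (hr _ hmem).ne'
        rw [mul_left_comm, tp_mul_tp, mul_inv_cancel₀ hne, tp_one_one, mul_one]
      · intro ν _ hν
        rw [hxr, if_neg, tp_zero_left, zero_mul]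
        rw [hbalU U hU i]
        intro h
        exact hν (Subtype.ext h.symm)
      · intro h
        exact absurd (Finset.mem_univ _) h
    rw [e1, e2]
    have h3 := hgr U hU i j
    have : (U.map Gc).sum i j + ((k₀ : TT) - nuW (U.map (fun c => c j₀)))
        = ((U.map Gc).sum i j - nuW (U.map (fun c => c j₀))) + k₀ := by abel
    rw [this, h3]
    abel
  · rintro ⟨U, hU⟩
    obtain ⟨ks, hks⟩ := h𝒰 U hU
    refine ⟨ks ++ List.replicate (n - U.length) 0 ++
      (Finset.univ : Finset {ν // ν ∈ TF}).toList.map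
        (fun ν => if nuW (U.map (fun c => c j₀)) = ν.1 then r ν.1 else 0), ?_⟩
    rw [← Multiset.coe_eq_coe, ← Multiset.map_coe, Finset.coe_toList, ← Finset.univ_disjSum_univ,
      Finset.val_disjSum, Multiset.disjSum, Multiset.map_add, Multiset.map_map, Multiset.map_map,
      Fin.univ_val_map]
    have e1 : (List.ofFn ((fun (p : Fin n ⊕ {ν // ν ∈ TF}) => (fun j : J =>
        (1 : ℝ) * x (U.map (fun c => c j)) p)) ∘ Sum.inl))
        = U ++ List.replicate (n - U.length) (fun _ : J => (0:ℝ)) := by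
      rw [← ofFn_getD U (fun _ : J => (0:ℝ)) n (hlen U hU)]
      congr 1
      funext p j
      simp only [Function.comp_apply, one_mul, hxl]
      simp only [List.getD_eq_getElem?_getD, List.getElem?_map]
      cases U[(p : ℕ)]? <;> rfl
    rw [e1]
    have e2 : Multiset.map ((fun (p : Fin n ⊕ {ν // ν ∈ TF}) => (fun j : J =>
        (1 : ℝ) * x (U.map (fun c => c j)) p)) ∘ Sum.inr) (Finset.univ : Finset {ν // ν ∈ TF}).val
        = ((((Finset.univ : Finset {ν // ν ∈ TF}).toList.map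
        (fun ν => if nuW (U.map (fun c => c j₀)) = ν.1 then r ν.1 else 0)).map
          (fun k => (fun _ : J => k)) : List (J → ℝ)) : Multiset (J → ℝ)) := by
      rw [List.map_map, ← Multiset.map_coe, Finset.coe_toList]
      refine Multiset.map_congr rfl (fun ν _ => ?_)
      funext j
      simp only [Function.comp_apply, one_mul, hxr, hbalU U hU j]
    rw [e2, Multiset.coe_add, Multiset.coe_eq_coe]
    simp only [List.map_append, List.map_replicate]
    refine (List.Perm.append_right _ (hks.append_right _)).trans ?_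
    simp only [List.append_assoc]
    exact List.Perm.refl _
  · intro χ
    obtain ⟨U, hU, hUχ⟩ := hχ (fun w => χ (x w))
    exact ⟨⟨U, hU⟩, hUχ⟩

end Vale.Agent.Lib.P058
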