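import Vale.Agent.Lib.P058.Basic

/-!
# P058C: definitions for the characterization of the Ramsey sets

`TT = ℝ ⊗[ℚ] ℝ` is a commutative ring; `tp x y = x ⊗ y`, `mu (x ⊗ y) = x * y`, `swp (x ⊗ y) = y ⊗ x`,
`r • (x ⊗ y) = (r * x) ⊗ y` for real `r`.
-/

namespace Vale.Agent.Lib.P058

open scoped TensorProduct

/-- `ℝ ⊗[ℚ] ℝ` -/
abbrev TT : Type := TensorProduct ℚ ℝ ℝ

/-- the multiplication `x ⊗ y ↦ x * y` -/
noncomputable def mu : TT →ₐ[ℚ] ℝ := Algebra.TensorProduct.lmul' ℚ

/-- the exchange of the factors -/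
noncomputable def swp : TT ≃ₐ[ℚ] TT := Algebra.TensorProduct.comm ℚ ℝ ℝ

/-- `x ⊗ y` -/
noncomputable def tp (x y : ℝ) : TT := x ⊗ₜ[ℚ] y

@[simp] theorem mu_tp (x y : ℝ) : mu (tp x y) = x * y := by simp [mu, tp]

@[simp] theorem swp_tp (x y : ℝ) : swp (tp x y) = tp y x := by simp [swp, tp]

@[simp] theorem swp_swp (s : TT) : swp (swp s) = s := by
  induction s using TensorProduct.induction_on with
  | zero => simp
  | tmul x y => exact (congrArg swp (swp_tp x y)).trans (swp_tp y x)
  | add a b ha hb => rw [map_add, map_add, ha, hb]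

@[simp] theorem mu_swp (s : TT) : mu (swp s) = mu s := by
  induction s using TensorProduct.induction_on with
  | zero => simp
  | tmul x y =>
    refine (congrArg mu (swp_tp x y)).trans ?_
    rw [mu_tp]
    exact (mul_comm y x).trans (mu_tp x y).symm
  | add a b ha hb => rw [map_add, map_add, map_add, ha, hb]

theorem tp_add_left (x x' y : ℝ) : tp (x + x') y = tp x y + tp x' y := TensorProduct.add_tmul ..

theorem tp_add_right (x y y' : ℝ) : tp x (y + y') = tp x y + tp x y' := TensorProduct.tmul_add ..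

theorem tp_sub_left (x x' y : ℝ) : tp (x - x') y = tp x y - tp x' y := TensorProduct.sub_tmul ..

theorem tp_sub_right (x y y' : ℝ) : tp x (y - y') = tp x y - tp x y' := TensorProduct.tmul_sub ..

@[simp] theorem tp_zero_left (y : ℝ) : tp 0 y = 0 := TensorProduct.zero_tmul ..

@[simp] theorem tp_zero_right (x : ℝ) : tp x 0 = 0 := TensorProduct.tmul_zero ..

theorem tp_mul_tp (x y z w : ℝ) : tp x y * tp z w = tp (x * z) (y * w) := by
  simp [tp]

theorem tp_one_one : tp 1 1 = 1 := rfl

theorem real_smul_tp (r x y : ℝ) : r • tp x y = tp (r * x) y := rfl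

theorem real_smul_eq (r : ℝ) (s : TT) : r • s = tp r 1 * s := by
  induction s using TensorProduct.induction_on with
  | zero => simp
  | tmul x y =>
    refine (real_smul_tp r x y).trans ?_
    refine Eq.trans ?_ (tp_mul_tp r 1 x y).symm
    rw [one_mul]
  | add a b ha hb => rw [smul_add, mul_add, ha, hb]

@[simp] theorem mu_real_smul (r : ℝ) (s : TT) : mu (r • s) = r * mu s := by
  rw [real_smul_eq, map_mul, mu_tp, mul_one]

theorem TT_induction {p : TT → Prop} (h0 : p 0) (h1 : ∀ x y, p (tp x y))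
    (h2 : ∀ s t, p s → p t → p (s + t)) (s : TT) : p s := by
  induction s using TensorProduct.induction_on with
  | zero => exact h0
  | tmul x y => exact h1 x y
  | add a b ha hb => exact h2 a b ha hb

/-- the sum of two additive maps `ℝ → ℝ` is used through this functional: for `b : ℝ →+ ℝ`,
`x ⊗ y ↦ x * b y`. -/
noncomputable def bfun (b : ℝ →+ ℝ) : TT →ₗ[ℝ] ℝ :=
  { toFun := fun s => TensorProduct.lift
      (LinearMap.mk₂ ℚ (fun x y : ℝ => x * b y) (fun x x' y => by ring)
        (fun c x y => by simp [Rat.smul_def]; ring)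
        (fun x y y' => by rw [map_add]; ring)
        (fun c x y => by
          rw [map_rat_smul b c y]
          simp [Rat.smul_def]; ring)) s
    map_add' := fun s t => map_add _ s t
    map_smul' := fun r s => by
      induction s using TT_induction with
      | h0 => simp
      | h1 x y =>
        rw [real_smul_tp]
        simp [tp]
        ring
      | h2 s t hs ht =>
        rw [smul_add, map_add, hs, ht, map_add, smul_add] }

theorem bfun_tp (b : ℝ →+ ℝ) (x y : ℝ) : bfun b (tp x y) = x * b y := by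
  simp [bfun, tp]

/-- A Euclidean space with a form with values in `ℝ ⊗[ℚ] ℝ` whose real image is the inner product. -/
structure SForm (E : Type) [NormedAddCommGroup E] [InnerProductSpace ℝ E] where
  /-- the form -/
  B : E → E → TT
  add_left' : ∀ u u' v, B (u + u') v = B u v + B u' v
  smul_left' : ∀ (r : ℝ) (u v : E), B (r • u) v = tp r 1 * B u v
  symm' : ∀ u v, B v u = swp (B u v)
  real' : ∀ u v, mu (B u v) = inner ℝ u v

/-- the tensor square of a column -/
noncomputable def Gc {J : Type*} (c : J → ℝ) : J → J → TT := fun i j => tp (c i) (c j)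

/-- `InG V v G`: `v : J → FreeGroup ℝ` is a product of constants and of columns `colF c`, `c ∈ V`,
and `G` is the sum of the `Gc c` over the columns used. -/
inductive InG {J : Type*} (V : Set (J → ℝ)) : (J → FreeGroup ℝ) → (J → J → TT) → Prop
  | const (b : FreeGroup ℝ) : InG V (fun _ => b) 0
  | col (c : J → ℝ) (hc : c ∈ V) : InG V (colF c) (Gc c)
  | mul {v v' : J → FreeGroup ℝ} {G G' : J → J → TT} :
      InG V v G → InG V v' G' → InG V (v * v') (G + G')

/-- `G` is, up to a constant, the sum of the `Gc c` over the columns of a product equal to a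
constant -/
def Exc {J : Type*} (V : Set (J → ℝ)) (G : J → J → TT) : Prop :=
  ∃ (b : FreeGroup ℝ) (s : TT), InG V (fun _ => b) (fun i j => G i j + s)

/-- the column `c` has an inverse -/
def Un {J : Type*} (V : Set (J → ℝ)) (c : J → ℝ) : Prop :=
  ∃ G, InG V (fun j => (FreeGroup.of (c j))⁻¹) G

/-- the column `c` is a member of a balanced list -/
def Bal {J : Type*} (V : Set (J → ℝ)) (c : J → ℝ) : Prop :=
  ∃ L : List (J → ℝ), (∀ c' ∈ L, c' ∈ V) ∧ Balanced (c :: L)

/-- the cone generated by the exact Gram matrices and the constants -/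
inductive InK {J : Type*} (V : Set (J → ℝ)) : (J → J → TT) → Prop
  | const (s : TT) : InK V (fun _ _ => s)
  | exc (σ : TT) (hσ : 0 < mu σ) (G : J → J → TT) (hG : Exc V G) : InK V (fun i j => σ * G i j)
  | add {G G' : J → J → TT} : InK V G → InK V G' → InK V (G + G')

/-- A finite family `w κ` of copies of the index set `J` in a Euclidean space with a form; all have
the Gram matrix `ω + s`.  Up to factors `μ p` the coordinate functions of every copy are the columns
`cs` and constants. -/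
structure Wit (J : Type) (ω : J → J → TT) (cs : List (J → ℝ)) : Type 1 where
  /-- coordinates -/
  ι : Type
  fι : Fintype ι
  /-- the form -/
  β : SForm (EuclideanSpace ℝ ι)
  /-- the copies -/
  K : Type
  fK : Fintype K
  /-- the points of the copies -/
  w : K → J → EuclideanSpace ℝ ι
  /-- the constant -/
  s : TT
  hs : 0 < mu s
  gram : ∀ (κ : K) (i j : J), β.B (w κ i) (w κ j) = ω i j + s
  /-- factors -/
  μ : ι → ℝ
  hμ : ∀ p, μ p ≠ 0
  cov : ∀ κ : K, ∃ ks : List ℝ,
    ((Finset.univ : Finset ι).toList.map (fun p => (fun j : J => μ p * w κ j p))).Perm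
      (cs ++ ks.map (fun k => (fun _ : J => k)))

attribute [instance] Wit.fι Wit.fK

/-- every colouring with colours in `C` has a monochromatic copy -/
def Wit.Mono {J : Type} {ω : J → J → TT} {cs : List (J → ℝ)} (W : Wit J ω cs) (C : Type) : Prop :=
  ∀ χ : EuclideanSpace ℝ W.ι → C, ∃ κ : W.K, ∀ i j, χ (W.w κ i) = χ (W.w κ j)

/-- `ω` is realised monochromatically by finite configurations, with columns `cs` -/
def Rz {J : Type} (ω : J → J → TT) (cs : List (J → ℝ)) : Prop :=
  ∀ (C : Type) [Finite C], ∃ W : Wit J ω cs, W.Mono C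

/-- restriction of the columns to the rows `Γ × X`, `ξ : X → I` -/
noncomputable def resV {Γ I X : Type} (V : Submodule ℝ (Γ × I → ℝ)) (ξ : X → I) :
    Submodule ℝ (Γ × X → ℝ) :=
  V.map (LinearMap.funLeft ℝ ℝ (fun r : Γ × X => (r.1, ξ r.2)))

/-- the possibility of replacing the entries `m, -m` of the row `x` by `0, 0` with columns vanishing
at `q` -/
def Corr {I X : Type} (Cl : Submodule ℝ (I → ℝ)) (q : I) (ξ : X → I) : Prop :=
  ∀ (x : X) (m : ℝ), ∃ P N : List (X → ℝ),
    (∀ f ∈ P ++ N, ∃ g ∈ Cl, g q = 0 ∧ ∀ y, g (ξ y) = f y) ∧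
    (∀ y, y ≠ x → (P.map (fun f => f y)).Perm (N.map (fun f => f y))) ∧
    (m :: (-m) :: P.map (fun f => f x)).Perm (0 :: 0 :: N.map (fun f => f x))

/-- functions on `K × Γ` that occur in a list in `VN` which in every block `κ` consists of
`(a κ).card` copies of the columns `cs` and of constants -/
def IsG2 {K Γ H : Type} (VN : Set (K → Γ → ℝ)) (VQ : Set (Γ → ℝ)) (a : K → Finset H)
    (f : K → Γ → ℝ) : Prop :=
  ∃ (U : List (K → Γ → ℝ)) (cs : List (Γ → ℝ)), f ∈ U ∧ (∀ u ∈ U, u ∈ VN) ∧ (∀ c ∈ cs, c ∈ VQ) ∧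
    ∀ κ, ∃ ks : List ℝ, (U.map (fun u => u κ)).Perm
      ((List.replicate (a κ).card cs).flatten ++ ks.map (fun k => (fun _ : Γ => k)))

/-- A finite family of copies of `Γ` (with the Gram matrix `ω`) such that every set of points
contains a copy, or its complement contains a copy of `Z`. -/
structure NWit (Γ : Type) (VQ : Submodule ℝ (Γ → ℝ)) (ω : Γ → Γ → TT) (Z : Type)
    (dZ : Z → Z → ℝ) : Type 1 where
  /-- coordinates -/
  ι : Type
  fι : Fintype ι
  /-- the form -/
  β : SForm (EuclideanSpace ℝ ι)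
  /-- the copies -/
  K : Type
  fK : Fintype K
  /-- the points of the copies -/
  p : K → Γ → EuclideanSpace ℝ ι
  /-- the constant -/
  s : TT
  hs : 0 < mu s
  gram : ∀ (κ : K) (γ γ' : Γ), β.B (p κ γ) (p κ γ') = ω γ γ' + s
  /-- Hales-Jewett coordinates -/
  H : Type
  fH : Fintype H
  /-- the active coordinates of a copy -/
  a : K → Finset H
  /-- the coordinates of the points of a copy -/
  φ : K → H → Γ → Γ
  hact : ∀ κ, (a κ).Nonempty
  hφ : ∀ κ, ∀ h ∈ a κ, φ κ h = id
  hφ' : ∀ κ, ∀ h, h ∉ a κ → ∃ γ₀, φ κ h = fun _ => γ₀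
  pull : ∀ g ∈ VQ, ∀ h, ∃ u, ∀ κ γ, inner ℝ u (p κ γ) = g (φ κ h γ)
  gen : ∀ u, (fun κ γ => inner ℝ u (p κ γ)) ∈ Submodule.span ℝ
    ({f : K → Γ → ℝ | ∃ g ∈ VQ, ∃ h, f = fun κ γ => g (φ κ h γ)} ∪
      {f | IsG2 {f | ∃ u, f = fun κ γ => inner ℝ u (p κ γ)} (VQ : Set (Γ → ℝ)) a f})
  ram : ∀ χ : EuclideanSpace ℝ ι → Prop, (∃ κ, ∀ γ, χ (p κ γ)) ∨
    ∃ e : Z → K × Γ, (∀ z, ¬ χ (p (e z).1 (e z).2)) ∧
      ∀ z z', dist (p (e z).1 (e z).2) (p (e z').1 (e z').2) = dZ z z'

attribute [instance] NWit.fι NWit.fK NWit.fH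

/-- The criterion: there are affine functions `f k`, `g k` such that
`∑ (f k x - f k y) (g k x - g k y) = |x - y| ^ 2` for `x y ∈ A`, and for every additive function `φ`
the function `∑ f k x * φ (g k x)` is constant on `A`. -/
def IsGood {d : ℕ} (A : Set (EuclideanSpace ℝ (Fin d))) : Prop :=
  ∃ (n : ℕ) (f g : Fin n → EuclideanSpace ℝ (Fin d) →ᵃ[ℝ] ℝ),
    (∀ x ∈ A, ∀ y ∈ A, ∑ k, (f k x - f k y) * (g k x - g k y) = dist x y ^ 2) ∧
    ∀ φ : ℝ →+ ℝ, ∀ x ∈ A, ∀ y ∈ A, ∑ k, f k x * φ (g k x) = ∑ k, f k y * φ (g k y)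

end Vale.Agent.Lib.P058
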