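import Vale.Agent.Lib.P058C.SDef

/-!
# P058C, module SF1: forms are signed sums of squares of linear forms

PROOF.  Let `e a` be the standard basis, `θ a b = β.B (e a) (e b)`.  Bi-additivity gives
`β.B u v = ∑ a b, tp (u a) (v b) * θ a b` (right additivity and `β.B u (r • v) = tp 1 r * β.B u v` follow from
`symm'`, `swp` is a ring map).  Every element of `TT` is a finite sum of `tp r r'`
(`TensorProduct.exists_finset`, or an induction), so `β.B u v = ∑ k, tp (⟪p k, u⟫) (⟪q k, v⟫)` for finitely
many vectors `p k = r • e a`, `q k = r' • e b`.  By `symm'`,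
`2 * β.B u v = ∑ k, (tp ⟪p k, u⟫ ⟪q k, v⟫ + tp ⟪q k, u⟫ ⟪p k, v⟫)`
`= ∑ k, (tp ⟪p k + q k, u⟫ ⟪p k + q k, v⟫ - tp ⟪p k, u⟫ ⟪p k, v⟫ - tp ⟪q k, u⟫ ⟪q k, v⟫)`.
-/

namespace Vale.Agent.Lib.P058

section SF1

variable {ι : Type} [Fintype ι]

private theorem sf_zero_left {E : Type} [NormedAddCommGroup E] [InnerProductSpace ℝ E]
    (β : SForm E) (v : E) : β.B 0 v = 0 := by
  have h := β.add_left' 0 0 v
  rw [add_zero] at h
  exact left_eq_add.mp h

private theorem sf_add_right {E : Type} [NormedAddCommGroup E] [InnerProductSpace ℝ E]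
    (β : SForm E) (u v v' : E) : β.B u (v + v') = β.B u v + β.B u v' := by
  rw [β.symm' (v + v') u, β.add_left', map_add, ← β.symm', ← β.symm']

private theorem sf_smul_right {E : Type} [NormedAddCommGroup E] [InnerProductSpace ℝ E]
    (β : SForm E) (r : ℝ) (u v : E) : β.B u (r • v) = tp 1 r * β.B u v := by
  rw [β.symm' (r • v) u, β.smul_left', map_mul, swp_tp, ← β.symm']

private theorem sf_zero_right {E : Type} [NormedAddCommGroup E] [InnerProductSpace ℝ E]
    (β : SForm E) (u : E) : β.B u 0 = 0 := by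
  rw [β.symm' 0 u, sf_zero_left, map_zero]

private theorem sf_sum_left {E : Type} [NormedAddCommGroup E] [InnerProductSpace ℝ E]
    (β : SForm E) {κ : Type} (s : Finset κ) (f : κ → E) (v : E) :
    β.B (∑ a ∈ s, f a) v = ∑ a ∈ s, β.B (f a) v := by
  classical
  induction s using Finset.induction_on with
  | empty => rw [Finset.sum_empty, Finset.sum_empty, sf_zero_left]
  | insert a s ha ih => rw [Finset.sum_insert ha, Finset.sum_insert ha, β.add_left', ih]

private theorem sf_sum_right {E : Type} [NormedAddCommGroup E] [InnerProductSpace ℝ E]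
    (β : SForm E) {κ : Type} (s : Finset κ) (f : κ → E) (u : E) :
    β.B u (∑ a ∈ s, f a) = ∑ a ∈ s, β.B u (f a) := by
  classical
  induction s using Finset.induction_on with
  | empty => rw [Finset.sum_empty, Finset.sum_empty, sf_zero_right]
  | insert a s ha ih => rw [Finset.sum_insert ha, Finset.sum_insert ha, sf_add_right, ih]

/-- `f` is a finite sum of products of linear forms -/
private def SfDec (f : EuclideanSpace ℝ ι → EuclideanSpace ℝ ι → TT) : Prop :=
  ∃ L : List (EuclideanSpace ℝ ι × EuclideanSpace ℝ ι), ∀ u v,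
    f u v = (L.map fun pq => tp (inner ℝ pq.1 u) (inner ℝ pq.2 v)).sum

private theorem sfDec_zero : SfDec (fun _ _ : EuclideanSpace ℝ ι => (0 : TT)) :=
  ⟨[], fun _ _ => rfl⟩

private theorem sfDec_add {f g : EuclideanSpace ℝ ι → EuclideanSpace ℝ ι → TT} (hf : SfDec f)
    (hg : SfDec g) : SfDec (fun u v => f u v + g u v) := by
  obtain ⟨L, hL⟩ := hf
  obtain ⟨M, hM⟩ := hg
  refine ⟨L ++ M, fun u v => ?_⟩
  change f u v + g u v = _
  rw [hL, hM, List.map_append, List.sum_append]

private theorem sfDec_sum {κ : Type} (s : Finset κ)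
    (f : κ → EuclideanSpace ℝ ι → EuclideanSpace ℝ ι → TT) (hf : ∀ a ∈ s, SfDec (f a)) :
    SfDec (fun u v => ∑ a ∈ s, f a u v) := by
  classical
  induction s using Finset.induction_on with
  | empty => simpa using sfDec_zero
  | insert a s ha ih =>
    have h1 := sfDec_add (hf a (Finset.mem_insert_self a s))
      (ih fun b hb => hf b (Finset.mem_insert_of_mem hb))
    have e : (fun u v => ∑ b ∈ insert a s, f b u v) = fun u v => f a u v + ∑ b ∈ s, f b u v := by
      funext u v
      rw [Finset.sum_insert ha]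
    rw [e]
    exact h1

private theorem sf_expand [DecidableEq ι] (u : EuclideanSpace ℝ ι) :
    u = ∑ a, u a • EuclideanSpace.single a (1 : ℝ) := by
  ext b
  simp [Pi.single_apply]

private theorem sf_inner [DecidableEq ι] (x : ℝ) (a : ι) (u : EuclideanSpace ℝ ι) :
    inner ℝ (x • EuclideanSpace.single a (1 : ℝ)) u = u a * x := by
  rw [inner_smul_left, EuclideanSpace.inner_single_left]
  simp [mul_comm]

private theorem sfDec_term [DecidableEq ι] (a b : ι) (s : TT) :
    SfDec (fun u v : EuclideanSpace ℝ ι => tp (u a) (v b) * s) := by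
  induction s using TT_induction with
  | h0 => simpa using sfDec_zero
  | h1 x y =>
    refine ⟨[(x • EuclideanSpace.single a (1 : ℝ), y • EuclideanSpace.single b (1 : ℝ))],
      fun u v => ?_⟩
    change tp (u a) (v b) * tp x y = _
    rw [List.map_singleton, List.sum_singleton, sf_inner, sf_inner, tp_mul_tp]
  | h2 s t hs ht =>
    have e : (fun u v : EuclideanSpace ℝ ι => tp (u a) (v b) * (s + t)) =
        fun u v => tp (u a) (v b) * s + tp (u a) (v b) * t := by
      funext u v
      rw [mul_add]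
    rw [e]
    exact sfDec_add hs ht

private theorem sfDec_form (β : SForm (EuclideanSpace ℝ ι)) : SfDec β.B := by
  classical
  have e : β.B = fun u v : EuclideanSpace ℝ ι => ∑ a, ∑ b, tp (u a) (v b) *
      β.B (EuclideanSpace.single a (1 : ℝ)) (EuclideanSpace.single b (1 : ℝ)) := by
    funext u v
    conv_lhs => rw [sf_expand u, sf_expand v]
    rw [sf_sum_left]
    refine Finset.sum_congr rfl fun a _ => ?_
    rw [sf_sum_right]
    refine Finset.sum_congr rfl fun b _ => ?_
    rw [sf_smul_right, β.smul_left', ← mul_assoc, tp_mul_tp, one_mul, mul_one]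
  rw [e]
  exact sfDec_sum _ _ fun a _ => sfDec_sum _ _ fun b _ => sfDec_term a b _

private theorem sf_polar (x y z w : ℝ) :
    tp x w + tp y z = tp (x + y) (z + w) + (-1 : ℚ) • tp x z + (-1 : ℚ) • tp y w := by
  rw [tp_add_left, tp_add_right, tp_add_right, neg_smul, neg_smul, one_smul, one_smul]
  abel

private theorem sf_squares (L : List (EuclideanSpace ℝ ι × EuclideanSpace ℝ ι)) :
    ∃ M : List (ℚ × EuclideanSpace ℝ ι), ∀ u v,
      (L.map fun pq => tp (inner ℝ pq.1 u) (inner ℝ pq.2 v)).sum +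
      (L.map fun pq => tp (inner ℝ pq.2 u) (inner ℝ pq.1 v)).sum =
      (M.map fun ep => ep.1 • tp (inner ℝ ep.2 u) (inner ℝ ep.2 v)).sum := by
  induction L with
  | nil => exact ⟨[], fun u v => by simp⟩
  | cons pq L ih =>
    obtain ⟨M, hM⟩ := ih
    refine ⟨(1, pq.1 + pq.2) :: (-1, pq.1) :: (-1, pq.2) :: M, fun u v => ?_⟩
    have h := sf_polar (inner ℝ pq.1 u) (inner ℝ pq.2 u) (inner ℝ pq.1 v) (inner ℝ pq.2 v)
    rw [List.map_cons, List.map_cons, List.sum_cons, List.sum_cons, List.map_cons, List.map_cons,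
      List.map_cons, List.sum_cons, List.sum_cons, List.sum_cons, ← hM u v, inner_add_left,
      inner_add_left, one_smul, add_add_add_comm, h]
    simp only [add_assoc]

end SF1

theorem SForm.exists_squares {ι : Type} [Fintype ι] (β : SForm (EuclideanSpace ℝ ι)) :
    ∃ (n : ℕ) (ε : Fin n → ℚ) (p : Fin n → EuclideanSpace ℝ ι), ∀ u v,
      β.B u v = ∑ k, ε k • tp (inner ℝ (p k) u) (inner ℝ (p k) v) := by
  obtain ⟨L, hL⟩ := sfDec_form β
  obtain ⟨M, hM⟩ := sf_squares L
  refine ⟨M.length, fun k => 2⁻¹ * (M.get k).1, fun k => (M.get k).2, fun u v => ?_⟩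
  have h1 : β.B u v = (L.map fun pq => tp (inner ℝ pq.2 u) (inner ℝ pq.1 v)).sum := by
    rw [β.symm' v u, hL v u, map_list_sum, List.map_map]
    congr 1
  have h2 : (2 : ℚ) • β.B u v =
      (M.map fun ep => ep.1 • tp (inner ℝ ep.2 u) (inner ℝ ep.2 v)).sum := by
    rw [← hM u v, ← hL u v, ← h1, two_smul]
  have h3 : β.B u v = (2⁻¹ : ℚ) • ((2 : ℚ) • β.B u v) := by
    rw [smul_smul, inv_mul_cancel₀ two_ne_zero, one_smul]
  rw [h3, h2, ← Fin.sum_univ_fun_getElem, Finset.smul_sum]
  refine Finset.sum_congr rfl fun k _ => ?_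
  rw [smul_smul]
  rfl

end Vale.Agent.Lib.P058
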