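import Vale.Agent.Lib.P058C.SDef

/-!
# P058C, module SSum: direct sums of forms
-/

namespace Vale.Agent.Lib.P058

variable {T : Type} [Fintype T] {ι : T → Type} [∀ t, Fintype (ι t)]

/-- the component of a vector -/
noncomputable def compS (u : EuclideanSpace ℝ (Σ t, ι t)) (t : T) : EuclideanSpace ℝ (ι t) :=
  WithLp.toLp 2 (fun i => u ⟨t, i⟩)

/-- the vector with given components -/
noncomputable def mkS (x : ∀ t, EuclideanSpace ℝ (ι t)) : EuclideanSpace ℝ (Σ t, ι t) :=
  WithLp.toLp 2 (fun p => x p.1 p.2)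

omit [Fintype T] [∀ t, Fintype (ι t)] in
@[simp] theorem compS_apply (u : EuclideanSpace ℝ (Σ t, ι t)) (t : T) (i : ι t) :
    compS u t i = u ⟨t, i⟩ := rfl

omit [Fintype T] [∀ t, Fintype (ι t)] in
@[simp] theorem mkS_apply (x : ∀ t, EuclideanSpace ℝ (ι t)) (p : Σ t, ι t) :
    mkS x p = x p.1 p.2 := rfl

omit [Fintype T] [∀ t, Fintype (ι t)] in
@[simp] theorem compS_mkS (x : ∀ t, EuclideanSpace ℝ (ι t)) (t : T) : compS (mkS x) t = x t := rfl

omit [Fintype T] [∀ t, Fintype (ι t)] in
@[simp] theorem mkS_compS (u : EuclideanSpace ℝ (Σ t, ι t)) : mkS (compS u) = u := rfl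

omit [Fintype T] [∀ t, Fintype (ι t)] in
theorem compS_add (u v : EuclideanSpace ℝ (Σ t, ι t)) (t : T) :
    compS (u + v) t = compS u t + compS v t := rfl

omit [Fintype T] [∀ t, Fintype (ι t)] in
theorem compS_smul (r : ℝ) (u : EuclideanSpace ℝ (Σ t, ι t)) (t : T) :
    compS (r • u) t = r • compS u t := rfl

theorem inner_compS (u v : EuclideanSpace ℝ (Σ t, ι t)) :
    inner ℝ u v = ∑ t, inner ℝ (compS u t) (compS v t) := by
  simp only [PiLp.inner_apply]
  rw [Fintype.sum_sigma]
  rfl

theorem inner_mkS (x y : ∀ t, EuclideanSpace ℝ (ι t)) :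
    inner ℝ (mkS x) (mkS y) = ∑ t, inner ℝ (x t) (y t) := by
  rw [inner_compS]
  rfl

/-- the direct sum of forms -/
noncomputable def SForm.sigma (β : ∀ t, SForm (EuclideanSpace ℝ (ι t))) :
    SForm (EuclideanSpace ℝ (Σ t, ι t)) where
  B := fun u v => ∑ t, (β t).B (compS u t) (compS v t)
  add_left' := fun u u' v => by
    simp only [compS_add, SForm.add_left', Finset.sum_add_distrib]
  smul_left' := fun r u v => by
    simp only [compS_smul, SForm.smul_left', Finset.mul_sum]
  symm' := fun u v => by
    rw [map_sum]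
    exact Finset.sum_congr rfl fun t _ => (β t).symm' _ _
  real' := fun u v => by
    rw [map_sum, inner_compS]
    exact Finset.sum_congr rfl fun t _ => (β t).real' _ _

theorem SForm.sigma_mkS (β : ∀ t, SForm (EuclideanSpace ℝ (ι t)))
    (x y : ∀ t, EuclideanSpace ℝ (ι t)) :
    (SForm.sigma β).B (mkS x) (mkS y) = ∑ t, (β t).B (x t) (y t) := rfl

theorem SForm.add_right' {E : Type} [NormedAddCommGroup E] [InnerProductSpace ℝ E] (β : SForm E)
    (u v v' : E) : β.B u (v + v') = β.B u v + β.B u v' := by
  rw [β.symm' (v + v') u, β.add_left', map_add, ← β.symm', ← β.symm']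

theorem SForm.smul_right' {E : Type} [NormedAddCommGroup E] [InnerProductSpace ℝ E] (β : SForm E)
    (r : ℝ) (u v : E) : β.B u (r • v) = tp 1 r * β.B u v := by
  rw [β.symm' (r • v) u, β.smul_left', map_mul, swp_tp, ← β.symm']

theorem SForm.zero_left {E : Type} [NormedAddCommGroup E] [InnerProductSpace ℝ E] (β : SForm E)
    (v : E) : β.B 0 v = 0 := by
  have h := β.smul_left' 0 0 v
  rwa [zero_smul, tp_zero_left, zero_mul] at h

theorem SForm.zero_right {E : Type} [NormedAddCommGroup E] [InnerProductSpace ℝ E] (β : SForm E)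
    (v : E) : β.B v 0 = 0 := by
  have h := β.smul_right' 0 v 0
  rwa [zero_smul, tp_zero_right, zero_mul] at h

/-- `B (∑ r i • u i) v` -/
theorem SForm.sum_left {E : Type} [NormedAddCommGroup E] [InnerProductSpace ℝ E] (β : SForm E)
    {α : Type} (s : Finset α) (r : α → ℝ) (u : α → E) (v : E) :
    β.B (∑ i ∈ s, r i • u i) v = ∑ i ∈ s, tp (r i) 1 * β.B (u i) v := by
  classical
  induction s using Finset.induction_on with
  | empty => simp [β.zero_left]
  | insert a s ha ih => rw [Finset.sum_insert ha, Finset.sum_insert ha, β.add_left', β.smul_left', ih]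

theorem SForm.sum_right {E : Type} [NormedAddCommGroup E] [InnerProductSpace ℝ E] (β : SForm E)
    {α : Type} (s : Finset α) (r : α → ℝ) (u : α → E) (v : E) :
    β.B v (∑ i ∈ s, r i • u i) = ∑ i ∈ s, tp 1 (r i) * β.B v (u i) := by
  classical
  induction s using Finset.induction_on with
  | empty => simp [β.zero_right]
  | insert a s ha ih => rw [Finset.sum_insert ha, Finset.sum_insert ha, β.add_right', β.smul_right', ih]

/-- distances are determined by the form -/
theorem SForm.dist_sq {E : Type} [NormedAddCommGroup E] [InnerProductSpace ℝ E] (β : SForm E)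
    (u v : E) : dist u v ^ 2 = mu (β.B u u) + mu (β.B v v) - 2 * mu (β.B u v) := by
  rw [β.real', β.real', β.real', dist_eq_norm, @norm_sub_sq_real, real_inner_self_eq_norm_sq,
    real_inner_self_eq_norm_sq]
  ring

/-- the form transported by a linear isometry equivalence -/
noncomputable def SForm.comap {E F : Type} [NormedAddCommGroup E] [InnerProductSpace ℝ E]
    [NormedAddCommGroup F] [InnerProductSpace ℝ F] (β : SForm F) (L : E →ₗᵢ[ℝ] F) : SForm E where
  B := fun u v => β.B (L u) (L v)
  add_left' := fun u u' v => by rw [map_add, β.add_left']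
  smul_left' := fun r u v => by rw [map_smul, β.smul_left']
  symm' := fun u v => β.symm' _ _
  real' := fun u v => by rw [β.real', L.inner_map_map]

/-- the one-dimensional form `σ * (x ⊗ y)`, `mu σ = 1`, `swp σ = σ` -/
noncomputable def SForm.unit (σ : TT) (h1 : mu σ = 1) (h2 : swp σ = σ) :
    SForm (EuclideanSpace ℝ Unit) where
  B := fun u v => σ * tp (u ()) (v ())
  add_left' := fun u u' v => by
    rw [← mul_add, ← tp_add_left]
    rfl
  smul_left' := fun r u v => by
    have e : tp ((r • u) ()) (v ()) = tp r 1 * tp (u ()) (v ()) := by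
      rw [tp_mul_tp, one_mul]
      rfl
    rw [e]
    ring
  symm' := fun u v => by rw [map_mul, h2, swp_tp]
  real' := fun u v => by
    rw [map_mul, h1, mu_tp, PiLp.inner_apply]
    simp [mul_comm]

end Vale.Agent.Lib.P058
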