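import Vale.Agent.Lib.P058C.SSum

/-!
# P058C, module Shift: adding a constant to the Gram matrix; equal Gram matrices

`shift`: coordinates `Unit ⊕ ι` (or a `Sigma` type with `SForm.sigma`), the one-dimensional form
`SForm.unit σ` with `σ = s * tp ρ⁻¹ ρ⁻¹`, `ρ = √(mu s)`; points `x' r = (ρ, x r)`.  Columns of `x'`:
`ρ t + ⟪w, x r⟫`, and constants are columns of `x` by `hone`.

`gram_col`: there is a linear map from the span of the `x r` to `F` with `x r ↦ y r` (norms of
combinations agree); or: the column `c r = ⟪u, y r⟫` vanishes on all `λ : R →₀ ℝ` with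
`∑ λ r • x r = 0` (since then `‖∑ λ r • y r‖ = 0`), so `c r = ℓ (x r)` for a linear functional `ℓ` on `E`
(`LinearMap.exists_extend`, Riesz representation in finite dimension: `InnerProductSpace.toDual`).
-/

namespace Vale.Agent.Lib.P058

/-- the second component -/
private noncomputable def prS {ι : Type} (u : EuclideanSpace ℝ (Unit ⊕ ι)) :
    EuclideanSpace ℝ ι :=
  WithLp.toLp 2 (fun i => u (Sum.inr i))

/-- a vector from its components -/
private noncomputable def inS {ι : Type} (a : ℝ) (x : EuclideanSpace ℝ ι) :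
    EuclideanSpace ℝ (Unit ⊕ ι) :=
  WithLp.toLp 2 (Sum.elim (fun _ => a) (fun i => x i))

private theorem inner_prS {ι : Type} [Fintype ι] (u v : EuclideanSpace ℝ (Unit ⊕ ι)) :
    inner ℝ u v = u (Sum.inl ()) * v (Sum.inl ()) + inner ℝ (prS u) (prS v) := by
  rw [PiLp.inner_apply, Fintype.sum_sum_type, PiLp.inner_apply]
  congr 1
  simp [mul_comm]

/-- the form on `Unit ⊕ ι` -/
private noncomputable def shF {ι : Type} [Fintype ι] (β : SForm (EuclideanSpace ℝ ι)) (σ : TT)
    (h1 : mu σ = 1) (h2 : swp σ = σ) : SForm (EuclideanSpace ℝ (Unit ⊕ ι)) where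
  B := fun u v => σ * tp (u (Sum.inl ())) (v (Sum.inl ())) + β.B (prS u) (prS v)
  add_left' := fun u u' v => by
    have e1 : tp ((u + u') (Sum.inl ())) (v (Sum.inl ())) =
        tp (u (Sum.inl ())) (v (Sum.inl ())) + tp (u' (Sum.inl ())) (v (Sum.inl ())) :=
      tp_add_left _ _ _
    have e2 : prS (u + u') = prS u + prS u' := rfl
    rw [e1, e2, β.add_left']
    ring
  smul_left' := fun r u v => by
    have e1 : tp ((r • u) (Sum.inl ())) (v (Sum.inl ())) =
        tp r 1 * tp (u (Sum.inl ())) (v (Sum.inl ())) := by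
      rw [tp_mul_tp, one_mul]
      rfl
    have e2 : prS (r • u) = r • prS u := rfl
    rw [e1, e2, β.smul_left']
    ring
  symm' := fun u v => by
    rw [map_add, map_mul, h2, swp_tp, ← β.symm']
  real' := fun u v => by
    rw [map_add, map_mul, h1, mu_tp, β.real', inner_prS, one_mul]

theorem shift {R : Type} {ι : Type} [Fintype ι] (β : SForm (EuclideanSpace ℝ ι))
    (x : R → EuclideanSpace ℝ ι) (s : TT) (hs : 0 < mu s) (hs' : swp s = s)
    (hone : ∃ w : EuclideanSpace ℝ ι, ∀ r, inner ℝ w (x r) = 1) :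
    ∃ (ι' : Type) (_ : Fintype ι') (β' : SForm (EuclideanSpace ℝ ι'))
      (x' : R → EuclideanSpace ℝ ι'),
      (∀ r r', β'.B (x' r) (x' r') = β.B (x r) (x r') + s) ∧
      ∀ c : R → ℝ, (∃ w, ∀ r, c r = inner ℝ w (x' r)) ↔ (∃ w, ∀ r, c r = inner ℝ w (x r)) := by
  set ρ : ℝ := Real.sqrt (mu s) with hρ
  have hρ0 : 0 < ρ := Real.sqrt_pos.2 hs
  have hρ2 : ρ * ρ = mu s := Real.mul_self_sqrt hs.le
  have h1 : mu (s * tp ρ⁻¹ ρ⁻¹) = 1 := by
    rw [map_mul, mu_tp, ← hρ2]
    field_simp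
  have h2 : swp (s * tp ρ⁻¹ ρ⁻¹) = s * tp ρ⁻¹ ρ⁻¹ := by
    rw [map_mul, hs', swp_tp]
  obtain ⟨w1, hw1⟩ := hone
  refine ⟨Unit ⊕ ι, inferInstance, shF β _ h1 h2, fun r => inS ρ (x r), ?_, ?_⟩
  · intro r r'
    have e1 : s * tp ρ⁻¹ ρ⁻¹ * tp ρ ρ = s := by
      rw [mul_assoc, tp_mul_tp, inv_mul_cancel₀ hρ0.ne', tp_one_one, mul_one]
    change s * tp ρ⁻¹ ρ⁻¹ * tp ρ ρ + β.B (x r) (x r') = β.B (x r) (x r') + s
    rw [e1, add_comm]
  · intro c
    constructor
    · rintro ⟨w, hw⟩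
      refine ⟨(w (Sum.inl ()) * ρ) • w1 + prS w, fun r => ?_⟩
      rw [hw r, inner_prS, inner_add_left, inner_smul_left, hw1]
      change w (Sum.inl ()) * ρ + inner ℝ (prS w) (x r) = _
      simp
    · rintro ⟨w, hw⟩
      refine ⟨inS 0 w, fun r => ?_⟩
      rw [hw r, inner_prS]
      change _ = 0 * ρ + inner ℝ w (x r)
      rw [zero_mul, zero_add]

theorem gram_col {R : Type} {ι ι' : Type} [Fintype ι] [Fintype ι']
    (x : R → EuclideanSpace ℝ ι) (y : R → EuclideanSpace ℝ ι')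
    (h : ∀ r r', inner ℝ (x r) (x r') = inner ℝ (y r) (y r')) (u : EuclideanSpace ℝ ι') :
    ∃ w : EuclideanSpace ℝ ι, ∀ r, inner ℝ w (x r) = inner ℝ u (y r) := by
  set X : (R →₀ ℝ) →ₗ[ℝ] EuclideanSpace ℝ ι := Finsupp.linearCombination ℝ x with hX
  set Y : (R →₀ ℝ) →ₗ[ℝ] EuclideanSpace ℝ ι' := Finsupp.linearCombination ℝ y with hY
  have key : ∀ l : R →₀ ℝ, inner ℝ (X l) (X l) = inner ℝ (Y l) (Y l) := by
    intro l
    simp only [hX, hY, Finsupp.linearCombination_apply, Finsupp.sum, sum_inner, inner_sum,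
      inner_smul_left, inner_smul_right, h]
  set l0 : (R →₀ ℝ) →ₗ[ℝ] ℝ := (innerₛₗ ℝ u).comp Y with hl0
  have hker : LinearMap.ker X ≤ LinearMap.ker l0 := by
    intro l hl
    rw [LinearMap.mem_ker] at hl ⊢
    have h1 := key l
    rw [hl, inner_zero_left] at h1
    have h2 : Y l = 0 := inner_self_eq_zero.1 h1.symm
    rw [hl0, LinearMap.comp_apply, h2, map_zero]
  set l1 : LinearMap.range X →ₗ[ℝ] ℝ :=
    ((LinearMap.ker X).liftQ l0 hker).comp X.quotKerEquivRange.symm.toLinearMap with hl1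
  obtain ⟨gl, hgl⟩ := LinearMap.exists_extend l1
  refine ⟨(InnerProductSpace.toDual ℝ (EuclideanSpace ℝ ι)).symm
    (LinearMap.toContinuousLinearMap gl), fun r => ?_⟩
  rw [InnerProductSpace.toDual_symm_apply]
  change gl (x r) = _
  have h1 : x r = X (Finsupp.single r 1) := by
    rw [hX, Finsupp.linearCombination_single, one_smul]
  have h2 : gl (x r) = l1 ⟨X (Finsupp.single r 1), LinearMap.mem_range_self _ _⟩ := by
    rw [← hgl, h1]
    rfl
  rw [h2, hl1, LinearMap.comp_apply]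
  have h3 : X.quotKerEquivRange.symm.toLinearMap
      ⟨X (Finsupp.single r 1), LinearMap.mem_range_self _ _⟩ =
      (LinearMap.ker X).mkQ (Finsupp.single r 1) :=
    LinearMap.quotKerEquivRange_symm_apply_image X _ _
  rw [h3, Submodule.mkQ_apply, Submodule.liftQ_apply, hl0, LinearMap.comp_apply, hY,
    Finsupp.linearCombination_single, one_smul]
  rfl

end Vale.Agent.Lib.P058
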