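import Vale.Agent.Lib.P058C.SSum

/-!
# P058C, module SysDef: systems

`I` is the index set of `A`, `C i j` its `TT`-valued Gram matrix, `Cl` the space of the restrictions of
affine functions to `A`.  A system consists of copies `{γ} × I` of `A`.
-/

namespace Vale.Agent.Lib.P058

/-- the columns restricted to the class `q` -/
noncomputable def clsV {Γ I : Type} (V : Submodule ℝ (Γ × I → ℝ)) (q : I) :
    Submodule ℝ (Γ → ℝ) :=
  V.map (LinearMap.funLeft ℝ ℝ (fun γ : Γ => (γ, q)))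

theorem mem_clsV {Γ I : Type} {V : Submodule ℝ (Γ × I → ℝ)} {q : I} {g : Γ → ℝ} :
    g ∈ clsV V q ↔ ∃ c ∈ V, (fun γ => c (γ, q)) = g := by
  rw [clsV, Submodule.mem_map]
  rfl

theorem mem_resV {Γ I X : Type} {V : Submodule ℝ (Γ × I → ℝ)} {ξ : X → I} {g : Γ × X → ℝ} :
    g ∈ resV V ξ ↔ ∃ c ∈ V, (fun r : Γ × X => c (r.1, ξ r.2)) = g := by
  rw [resV, Submodule.mem_map]
  rfl

/-- a system of copies of `A` -/
structure Sys {I : Type} (C : I → I → TT) (Cl : Submodule ℝ (I → ℝ)) : Type 1 where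
  /-- the copies -/
  Γ : Type
  fΓ : Fintype Γ
  nΓ : Nonempty Γ
  /-- coordinates -/
  ι : Type
  fι : Fintype ι
  /-- the form -/
  β : SForm (EuclideanSpace ℝ ι)
  /-- the points -/
  v : Γ → I → EuclideanSpace ℝ ι
  /-- the constant -/
  s : TT
  gram : ∀ γ i j, β.B (v γ i) (v γ j) = C i j + s
  /-- the columns -/
  V : Submodule ℝ (Γ × I → ℝ)
  hV : ∀ c, c ∈ V ↔ ∃ w : EuclideanSpace ℝ ι, ∀ r, c r = inner ℝ w (v r.1 r.2)
  cl : ∀ f ∈ Cl, (fun r : Γ × I => f r.2) ∈ V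
  blk : ∀ c ∈ V, ∀ γ, (fun i => c (γ, i)) ∈ Cl

attribute [instance] Sys.fΓ Sys.nΓ Sys.fι

/-- all columns on the rows `Γ × X` are in balanced lists, and invertible columns separate the rows -/
def GoodRows {R : Type} (V : Submodule ℝ (R → ℝ)) : Prop :=
  (∀ c ∈ V, Bal (V : Set (R → ℝ)) c) ∧
    ∀ r r', r ≠ r' → ∃ c ∈ V, c r ≠ c r' ∧ Un (V : Set (R → ℝ)) c

/-- the squared distances of `A` -/
noncomputable def dC {I : Type} (C : I → I → TT) (i j : I) : ℝ := mu (C i i) + mu (C j j) - 2 * mu (C i j)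

/-- if all classes in `Y` have the same colour there is a monochromatic copy of `A` -/
def Sys.Ded {I : Type} {C : I → I → TT} {Cl : Submodule ℝ (I → ℝ)} (T : Sys C Cl) (r : ℕ)
    (Y : Set I) : Prop :=
  ∀ (χ : T.Γ → I → ℕ) (Kc : Finset ℕ), Kc.card ≤ r →
    (∀ γ i γ' i', T.v γ i = T.v γ' i' → χ γ i = χ γ' i') → (∀ γ i, χ γ i ∈ Kc) →
    ∀ k₀ ∈ Kc, (∀ γ, ∀ i ∈ Y, χ γ i = k₀) →
      ∃ g : I → T.Γ × I,
        (∀ i j, dist (T.v (g i).1 (g i).2) (T.v (g j).1 (g j).2) ^ 2 = dC C i j) ∧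
        ∀ i j, χ (g i).1 (g i).2 = χ (g j).1 (g j).2

/-- the Ramsey property on spheres of forms for `r` colours -/
def HRc {I : Type} (C : I → I → TT) (r : ℕ) : Prop :=
  ∃ (ι : Type) (_ : Fintype ι) (β : SForm (EuclideanSpace ℝ ι)) (Z : Finset (EuclideanSpace ℝ ι))
    (κ : TT), Z.Nonempty ∧ (∀ z ∈ Z, β.B z z = κ) ∧
    ∀ (χ : EuclideanSpace ℝ ι → ℕ) (Kc : Finset ℕ), Kc.card ≤ r → (∀ z ∈ Z, χ z ∈ Kc) →
      ∃ f : I → EuclideanSpace ℝ ι, (∀ i, f i ∈ Z) ∧ (∀ i j, dist (f i) (f j) ^ 2 = dC C i j) ∧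
        ∀ i j, χ (f i) = χ (f j)

end Vale.Agent.Lib.P058
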