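import Vale.Agent.Lib.P058C.SysDef
import Vale.Agent.Lib.P058C.InGB
import Vale.Agent.Lib.P058.S0

/-!
# P058C, module TSep: invertible columns of the amalgam separate the rows

PROOF.  Elements of `V'`: see part (0) of the proof in module TU (class columns `g r.2`, `g ∈ Cl`; `f 1_κ` for `f ∈ V`
vanishing on the class `q`; pull-backs `f ∘ φ^h`).  Let `r = ((κ, γ), x) ≠ r' = ((κ', γ'), x')`.
(1) `x ≠ x'`.  Every column `f r.2`, `f : X → ℝ`, is in `resV V' ξ` (`hξ`).  The monoid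
`{v : X → FreeGroup ℝ | ∃ G, InG Set.univ v G}` contains the constants and is stable under
permutations of `X` (`InG.comap`), so by `inv_mem_of_perm` (module S0) under inverses; so
`InG Set.univ (fun x => (of (f x))⁻¹) G`, and `InG.comap Prod.snd` shows that the column `f r.2` is `Un`.
Take `f` with `f x ≠ f x'`.
(2) `x = x'`, `κ ≠ κ'`.  Take `g ∈ Cl` with `g (ξ x) ≠ g q` (`hq`) and `f = g ∘ ξ - g q`, `f x ≠ 0`.  The column
`if r.1.1 = κ then f r.2 else 0` separates; it is `Un`: as in `unit_const` (module P058/UnitsA).  Rows `K × X`, columns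
`Vc = {c | ∃ m : ℝ, ∀ κ, (fun x => c (κ, x) - m) ∈ Loc}`, `Loc = {g ∘ ξ | g ∈ Cl, g q = 0}` (a subspace).
All columns `c (κ, x) = f x` (`f : X → ℝ` arbitrary) are in `Vc` (`f = g ∘ ξ`, `m = g q`), so by (1)
`H = {u : X → FreeGroup ℝ | (∃ G, InG Vc (fun r => u r.2) G) ∧ (∃ G, InG Vc (fun r => (u r.2)⁻¹) G)}` is a
subgroup containing the `x ↦ of (f x)`.  `A = {v : K → H | ∃ G, InG Vc (fun r => (v r.1 : X → _) r.2) G}` is a
submonoid of `K → H`, contains the constants, and is stable under permutations of `K` (`Vc` is), so it is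
stable under inverses.  For `c ∈ Vc` the element `κ ↦ (x ↦ of (c (κ, x)))` of `K → H` is in `A`, so its
inverse is.  Pull back along `((κ, γ), x) ↦ (κ, x)` (`InG.comap`): the pull-backs of the columns in `Vc`
are in `resV V' ξ` (sum of the constant `m` and of columns `f_κ 1_κ`).
(3) `x = x'`, `κ = κ'`, `γ ≠ γ'`: take `h ∈ a κ` and `c ∈ resV V ξ`, `Un`, separating `(γ, x)` and
`(γ', x)` (`hS`); `c ∘ ρ` with `ρ ((κ, γ), x) = (φ κ h γ, x)`; `Un.comap`.
-/

namespace Vale.Agent.Lib.P058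

/-- the subgroup of class level elements -/
private def TSep_H (X : Type) [Fintype X] : Subgroup (X → FreeGroup ℝ) where
  carrier := {v | ∃ D, InG (Set.univ : Set (X → ℝ)) v D}
  mul_mem' := by
    rintro a b ⟨D, hD⟩ ⟨D', hD'⟩
    exact ⟨_, InG.mul hD hD'⟩
  one_mem' := ⟨0, InG.const 1⟩
  inv_mem' := by
    intro v hv
    let A : Submonoid (X → FreeGroup ℝ) :=
      { carrier := {v | ∃ D, InG (Set.univ : Set (X → ℝ)) v D}
        mul_mem' := by
          rintro a b ⟨D, hD⟩ ⟨D', hD'⟩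
          exact ⟨_, InG.mul hD hD'⟩
        one_mem' := ⟨0, InG.const 1⟩ }
    have h := inv_mem_of_perm A (fun g => ⟨0, InG.const g⟩)
      (fun u hu σ => by
        obtain ⟨D, hD⟩ := hu
        exact ⟨_, hD.comap (V' := Set.univ) σ (fun c _ => Set.mem_univ _)⟩) v hv
    exact h

/-- columns of the rows `X` are invertible -/
private theorem TSep_unX {X : Type} [Fintype X] (f : X → ℝ) :
    Un (Set.univ : Set (X → ℝ)) f := by
  have h1 : colF f ∈ TSep_H X := ⟨_, InG.col f (Set.mem_univ _)⟩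
  obtain ⟨D, hD⟩ := (TSep_H X).inv_mem h1
  exact ⟨D, hD⟩

/-- columns on the rows `K × X` -/
private def TSep_Vc (K : Type) {I X : Type} (Cl : Submodule ℝ (I → ℝ)) (q : I) (ξ : X → I) :
    Set (K × X → ℝ) :=
  {c | ∃ m : ℝ, ∀ κ : K, ∃ g ∈ Cl, g q = 0 ∧ ∀ x, g (ξ x) = c (κ, x) - m}

private theorem TSep_inv {K I X : Type} [Fintype K] [Fintype X]
    (Cl : Submodule ℝ (I → ℝ)) (q : I) (ξ : X → I) (hone : (fun _ => (1 : ℝ)) ∈ Cl)
    (hξ : ∀ f : X → ℝ, ∃ g ∈ Cl, ∀ x, g (ξ x) = f x)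
    (c : K × X → ℝ) (hc : c ∈ TSep_Vc K Cl q ξ) : Un (TSep_Vc K Cl q ξ) c := by
  let A : Submonoid (K → TSep_H X) :=
    { carrier := {v | ∃ D, InG (TSep_Vc K Cl q ξ)
        (fun j : K × X => (v j.1 : X → FreeGroup ℝ) j.2) D}
      mul_mem' := by
        rintro a b ⟨D, hD⟩ ⟨D', hD'⟩
        exact ⟨_, InG.mul hD hD'⟩
      one_mem' := ⟨0, InG.const 1⟩ }
  have hconst : ∀ g : TSep_H X, (fun _ => g) ∈ A := by
    rintro ⟨g, D, hD⟩
    refine ⟨_, hD.comap (V' := TSep_Vc K Cl q ξ) (fun j : K × X => j.2) ?_⟩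
    intro f _
    obtain ⟨g, hg, hgf⟩ := hξ f
    refine ⟨g q, fun κ => ⟨g - (g q) • (fun _ => (1 : ℝ)),
      Cl.sub_mem hg (Cl.smul_mem _ hone), ?_, ?_⟩⟩
    · simp
    · intro x
      simp [hgf]
  have hperm : ∀ v ∈ A, ∀ σ : Equiv.Perm K, (fun x => v (σ x)) ∈ A := by
    rintro v ⟨D, hD⟩ σ
    refine ⟨_, hD.comap (V' := TSep_Vc K Cl q ξ) (fun j : K × X => (σ j.1, j.2)) ?_⟩
    rintro c ⟨m, hm⟩
    exact ⟨m, fun κ => hm (σ κ)⟩
  let v : K → TSep_H X := fun κ => ⟨colF (fun x => c (κ, x)), _, InG.col _ (Set.mem_univ _)⟩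
  have hv : v ∈ A := ⟨_, InG.col c hc⟩
  obtain ⟨D, hD⟩ := inv_mem_of_perm A hconst hperm v hv
  exact ⟨D, hD⟩

theorem tower_sep {Γ I K H X : Type} [Fintype K] [DecidableEq K] [Fintype H]
    [DecidableEq H] [Fintype X] [DecidableEq X] [Nonempty K] [Nonempty Γ]
    (V : Submodule ℝ (Γ × I → ℝ)) (Cl : Submodule ℝ (I → ℝ)) (q : I) (ξ : X → I)
    (VN : Submodule ℝ (K → Γ → ℝ)) (a : K → Finset H) (φ : K → H → Γ → Γ)
    (hact : ∀ κ, (a κ).Nonempty) (hφ : ∀ κ, ∀ h ∈ a κ, φ κ h = id)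
    (hφ' : ∀ κ, ∀ h, h ∉ a κ → ∃ γ₀, φ κ h = fun _ => γ₀)
    (hClV : ∀ f ∈ Cl, (fun r : Γ × I => f r.2) ∈ V)
    (hblk : ∀ c ∈ V, ∀ γ, (fun i => c (γ, i)) ∈ Cl)
    (hone : (fun _ => (1 : ℝ)) ∈ Cl)
    (hξ : ∀ f : X → ℝ, ∃ g ∈ Cl, ∀ x, g (ξ x) = f x)
    (hq : ∀ x, ∃ g ∈ Cl, g (ξ x) ≠ g q)
    (hpull : ∀ c ∈ V, ∀ h, (fun κ γ => c (φ κ h γ, q)) ∈ VN)
    (hS : ∀ r r' : Γ × X, r ≠ r' → ∃ c ∈ resV V ξ, c r ≠ c r' ∧
      Un (resV V ξ : Set (Γ × X → ℝ)) c)
    (V' : Submodule ℝ ((K × Γ) × I → ℝ))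
    (hV' : ∀ c, c ∈ V' ↔ (∀ κ, (fun r : Γ × I => c ((κ, r.1), r.2)) ∈ V) ∧
      (fun κ γ => c ((κ, γ), q)) ∈ VN) :
    ∀ r r' : (K × Γ) × X, r ≠ r' → ∃ c ∈ resV V' ξ, c r ≠ c r' ∧
      Un (resV V' ξ : Set ((K × Γ) × X → ℝ)) c := by
  classical
  obtain ⟨κ₀⟩ := (inferInstance : Nonempty K)
  obtain ⟨h₀, -⟩ := hact κ₀
  -- constants on the class `q`
  have hconstN : ∀ m : ℝ, (fun (_ : K) (_ : Γ) => m) ∈ VN := by
    intro m
    have h1 : (fun _ : I => m) ∈ Cl := by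
      have h2 := Cl.smul_mem m hone
      have e : m • (fun _ : I => (1 : ℝ)) = fun _ => m := by
        funext i
        simp
      rwa [e] at h2
    exact hpull _ (hClV _ h1) h₀
  -- elements of `V'`
  have hmem : ∀ c : K × X → ℝ, c ∈ TSep_Vc K Cl q ξ →
      (fun r : (K × Γ) × X => c (r.1.1, r.2)) ∈ resV V' ξ := by
    rintro c ⟨m, hm⟩
    choose g hg1 hg2 hg3 using hm
    rw [mem_resV]
    refine ⟨fun r => m + g r.1.1 r.2, ?_, ?_⟩
    · rw [hV']
      constructor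
      · intro κ
        have h1 : (fun i : I => m + g κ i) ∈ Cl := by
          have h2 := Cl.add_mem (Cl.smul_mem m hone) (hg1 κ)
          have e : m • (fun _ : I => (1 : ℝ)) + g κ = fun i => m + g κ i := by
            funext i
            simp
          rwa [e] at h2
        exact hClV _ h1
      · have e : (fun (κ : K) (_ : Γ) => m + g κ q) = fun _ _ => m := by
          funext κ γ
          rw [hg2, add_zero]
        rw [e]
        exact hconstN m
    · funext r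
      simp only [hg3]
      ring
  have hmemX : ∀ f : X → ℝ, (fun r : (K × Γ) × X => f r.2) ∈ resV V' ξ := by
    intro f
    obtain ⟨g, hg, hgf⟩ := hξ f
    have h1 : (fun r : K × X => f r.2) ∈ TSep_Vc K Cl q ξ := by
      refine ⟨g q, fun κ => ⟨g - (g q) • (fun _ => (1 : ℝ)),
        Cl.sub_mem hg (Cl.smul_mem _ hone), ?_, ?_⟩⟩
      · simp
      · intro x
        simp [hgf]
    exact hmem _ h1
  rintro ⟨⟨κ, γ⟩, x⟩ ⟨⟨κ', γ'⟩, x'⟩ hne
  by_cases hx : x = x'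
  · subst hx
    by_cases hκ : κ = κ'
    · subst hκ
      have hγ : γ ≠ γ' := fun e => hne (by rw [e])
      obtain ⟨h, hh⟩ := hact κ
      obtain ⟨c, hc, hcne, hcU⟩ := hS (γ, x) (γ', x) (fun e => hγ (congrArg Prod.fst e))
      have hpb : ∀ c ∈ (resV V ξ : Set (Γ × X → ℝ)),
          (fun r : (K × Γ) × X => c (φ r.1.1 h r.1.2, r.2)) ∈
            (resV V' ξ : Set ((K × Γ) × X → ℝ)) := by
        intro c hc
        obtain ⟨f, hf, rfl⟩ := mem_resV.1 hc
        refine mem_resV.2 ⟨fun r => f (φ r.1.1 h r.1.2, r.2), ?_, rfl⟩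
        rw [hV']
        refine ⟨fun κ₁ => ?_, hpull f hf h⟩
        by_cases h1 : h ∈ a κ₁
        · simp only [hφ κ₁ h h1, id]
          exact hf
        · obtain ⟨γ₀, hγ₀⟩ := hφ' κ₁ h h1
          simp only [hγ₀]
          exact hClV _ (hblk f hf γ₀)
      refine ⟨_, hpb c hc, ?_, hcU.comap _ hpb⟩
      simp only [hφ κ h hh, id]
      exact hcne
    · obtain ⟨g, hg, hgx⟩ := hq x
      have h1 : (fun r : K × X => if r.1 = κ then g (ξ r.2) - g q else 0) ∈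
          TSep_Vc K Cl q ξ := by
        refine ⟨0, fun κ₁ => ?_⟩
        by_cases h2 : κ₁ = κ
        · refine ⟨g - (g q) • (fun _ => (1 : ℝ)), Cl.sub_mem hg (Cl.smul_mem _ hone), ?_, ?_⟩
          · simp
          · intro y
            simp [h2]
        · refine ⟨0, Cl.zero_mem, rfl, ?_⟩
          intro y
          simp [h2]
      refine ⟨_, hmem _ h1, ?_, ?_⟩
      · simp only [if_pos, if_neg (Ne.symm hκ)]
        exact sub_ne_zero.2 hgx
      · exact (TSep_inv Cl q ξ hone hξ _ h1).comap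
          (V' := (resV V' ξ : Set ((K × Γ) × X → ℝ)))
          (fun r : (K × Γ) × X => (r.1.1, r.2)) hmem
  · refine ⟨_, hmemX (fun y => if y = x then 1 else 0), ?_, ?_⟩
    · simp only [if_pos, if_neg (Ne.symm hx)]
      exact one_ne_zero
    · exact (TSep_unX (fun y => if y = x then (1 : ℝ) else 0)).comap
        (V' := (resV V' ξ : Set ((K × Γ) × X → ℝ)))
        (fun r : (K × Γ) × X => r.2) (fun c _ => hmemX c)

end Vale.Agent.Lib.P058
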