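import Vale.Agent.Lib.P058C.SysDef
import Vale.Agent.Lib.P058C.BCB

/-!
# P058C, module TU: all columns of the amalgam are in balanced lists

PROOF.  `V'' = resV V' ξ`, rows `((κ, γ), x)`.  `Loc = {f : X → ℝ | ∃ g ∈ Cl, g q = 0 ∧ ∀ y, g (ξ y) = f y}`.
(0) Elements of `V'`: for `g ∈ Cl` the column `g r.2` (its blocks are in `V` by `hClV`; on the class `q` it is
the constant `g q`, in `VN` by `hpull` for the constant column, `hone`, `hClV`, and some `h`, which
exists by `hact`); for `f ∈ V` with `f (γ, q) = 0` for all `γ` the column `f 1_κ`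
(`((κ', γ), i) ↦ if κ' = κ then f (γ, i) else 0`); for `f ∈ V`, `h : H` the pull-back
`f ∘ φ^h : ((κ, γ), i) ↦ f (φ κ h γ, i)`: its block `κ` is `f` if `h ∈ a κ` and otherwise the column
`f (γ₀, i)`, which depends on `i` only and is in `V` by `hblk`, `hClV`; on the class `q` use `hpull`.
So the hypotheses `hcl` (from `hξ`), `hloc`, `hcorr` (= `Corr`) of `bal_of_bcb` hold for `V''`.
(1) Pull-backs of `f ∈ V` are `Bal` in `V''`: `Bal.comap` along `((κ, γ), x) ↦ (φ κ h γ, x)` and `hU`.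
(2) `f 1_κ` (with `f = 0` on the class `q`) is `Bal` in `V''`: take `h ∈ a κ`; `f ∘ φ^h = f 1_κ + rest` with
disjoint supports, both in `V'` (`f` vanishes on the class `q`, for all `γ`); `Bal.split`.
(3) If `c, c' ∈ V'` agree on the class `q`, then `c - c' = ∑ κ, f_κ 1_κ` with `f_κ` as in (2), so by
(2), `Bal.add` (and `Bal.smul`), `c` is `Bal` iff `c'` is (`Bal` here: for the restrictions to the rows
`(K × Γ) × X`).  So it is enough to find for every `u ∈ VN` one column `c ∈ V'` with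
`c ((κ, γ), q) = u κ γ` that is `Bal`; the set of such `u` is a subspace, so by `hgen` it is enough for
`u κ γ = f (φ κ h γ, q)`, `f ∈ V`: (1); and for `IsG2 VN (clsV V q) a u`:
(4) Let `U`, `cs` be as in `IsG2`, choose for every `c ∈ cs` a column `f_c ∈ V` with
`f_c (γ, q) = c γ`, `cs' = cs.map f`, and for `f_c` a list `M_c` in `V` such that the restrictions of
`f_c :: M_c` to the rows `Γ × X` form a balanced list (`hU`; lift the members of the list from `resV V ξ`
to `V`).  For every `κ` the list `U.map (fun u => u κ)` is a permutation of the restrictions to the class `q`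
of `T_κ = (List.replicate (a κ).card cs').flatten ++ ks.map const` (constant functions on `Γ × I`, which
are in `V`), so there is a list `U'_κ` in `V`, of length `|U|`, a permutation of `T_κ`, whose `l`-th member
restricts to `U[l] κ` (`List.Perm` lifting lemma: if `l₁ ~ l₂.map g` then `l₁ = l₁'.map g` with `l₁' ~ l₂`).
Let `c_l ((κ, γ), i) = U'_κ[l] (γ, i)`: it is in `V'` (class `q`: `U[l] ∈ VN`).
Let `L` be the list of the restrictions to the rows `(K × Γ) × X` of the `c_l` and of all pull-backs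
`m ∘ φ^h`, `h : H`, `c ∈ cs`, `m ∈ M_c`.  In the row `((κ, γ), x)` its entries are: `(a κ).card` times
(`f_c (γ, x)` for `c ∈ cs` and `m (γ, x)` for `m ∈ M_c`), which up to permutation does not depend on
`γ`; the constants `ks`; and for `h ∉ a κ`, `φ κ h = const γ₀`, the numbers `m (γ₀, x)`.  So
`bal_of_bcb` applies and all members of `L` are `Bal`, in particular the lift `c_l` of `u = U[l]`.
-/

namespace Vale.Agent.Lib.P058

/-- the balanced columns in `V` -/
private noncomputable def tuBal {J : Type} (V : Submodule ℝ (J → ℝ)) : Submodule ℝ (J → ℝ) where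
  carrier := {c | c ∈ V ∧ Bal (V : Set (J → ℝ)) c}
  add_mem' := fun ha hb => ⟨V.add_mem ha.1 hb.1, Bal.add ha.1 hb.1 ha.2 hb.2⟩
  zero_mem' := ⟨V.zero_mem, Bal.zero _⟩
  smul_mem' := fun t _ hc => ⟨V.smul_mem t hc.1, hc.2.smul t⟩

private theorem mem_tuBal {J : Type} {V : Submodule ℝ (J → ℝ)} {c : J → ℝ} :
    c ∈ tuBal V ↔ c ∈ V ∧ Bal (V : Set (J → ℝ)) c := Iff.rfl

/-- lifting of permutations -/
private theorem tu_perm_lift {α β : Type} {g : α → β} (l₁ : List β) :
    ∀ l₂ : List α, l₁.Perm (l₂.map g) → ∃ l : List α, l.Perm l₂ ∧ l.map g = l₁ := by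
  induction l₁ with
  | nil =>
    intro l₂ h
    have h1 : l₂ = [] := by
      have := h.length_eq
      simpa using this.symm
    exact ⟨[], by rw [h1], rfl⟩
  | cons b l₁ ih =>
    intro l₂ h
    have hb : b ∈ l₂.map g := h.subset (by simp)
    obtain ⟨a, ha, rfl⟩ := List.mem_map.1 hb
    obtain ⟨s, t, rfl⟩ := List.append_of_mem ha
    have h1 : ((s ++ a :: t).map g).Perm (g a :: (s ++ t).map g) := by
      exact (List.perm_middle (a := a) (l₁ := s) (l₂ := t)).map g
    obtain ⟨l, hl, rfl⟩ := ih (s ++ t) (List.Perm.cons_inv (h.trans h1))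
    exact ⟨a :: l, (hl.cons a).trans List.perm_middle.symm, rfl⟩

/-- lifting of lists -/
private theorem tu_list_lift {α β : Type} {g : α → β} {p : α → Prop} (L : List β)
    (h : ∀ b ∈ L, ∃ a, p a ∧ g a = b) : ∃ l : List α, (∀ a ∈ l, p a) ∧ l.map g = L := by
  induction L with
  | nil => exact ⟨[], by simp, rfl⟩
  | cons b L ih =>
    obtain ⟨l, hl, rfl⟩ := ih (fun c hc => h c (List.mem_cons_of_mem _ hc))
    obtain ⟨a, ha, rfl⟩ := h b (by simp)
    refine ⟨a :: l, ?_, rfl⟩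
    intro c hc
    rcases List.mem_cons.1 hc with rfl | hc
    · exact ha
    · exact hl c hc

private theorem tu_range_getD {α : Type} (l : List α) (d : α) :
    (List.range l.length).map (fun i => l.getD i d) = l := by
  apply List.ext_getElem
  · simp
  · intro i h1 h2
    simp [List.getElem?_eq_getElem h2]

private theorem tu_coe_flatMap {α β : Type} (l : List α) (F : α → List β) :
    ((l.flatMap F : List β) : Multiset β) = (l.map (fun a => (F a : Multiset β))).sum := by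
  induction l with
  | nil => simp
  | cons a l ih => rw [List.flatMap_cons, List.map_cons, List.sum_cons, ← ih, Multiset.coe_add]

private theorem tu_coe_map {α β : Type} (l : List α) (F : α → β) :
    ((l.map F : List β) : Multiset β) = (l.map (fun a => ({F a} : Multiset β))).sum := by
  induction l with
  | nil => simp
  | cons a l ih =>
    rw [List.map_cons, List.map_cons, List.sum_cons, ← ih]
    rfl

private theorem tu_coe_replicate {α : Type} (n : ℕ) (l : List α) :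
    (((List.replicate n l).flatten : List α) : Multiset α) = n • (l : Multiset α) := by
  induction n with
  | zero => simp
  | succ n ih =>
    rw [List.replicate_succ, List.flatten_cons, ← Multiset.coe_add, ih, add_comm, succ_nsmul]

theorem tower_bal {Γ I K H X : Type} [Fintype K] [DecidableEq K] [Fintype H]
    [DecidableEq H] [Fintype X] [DecidableEq X] [Nonempty K] [Nonempty Γ]
    (V : Submodule ℝ (Γ × I → ℝ)) (Cl : Submodule ℝ (I → ℝ)) (q : I) (ξ : X → I)
    (VN : Submodule ℝ (K → Γ → ℝ)) (a : K → Finset H) (φ : K → H → Γ → Γ)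
    (hact : ∀ κ, (a κ).Nonempty) (hφ : ∀ κ, ∀ h ∈ a κ, φ κ h = id)
    (hφ' : ∀ κ, ∀ h, h ∉ a κ → ∃ γ₀, φ κ h = fun _ => γ₀)
    (hClV : ∀ f ∈ Cl, (fun r : Γ × I => f r.2) ∈ V)
    (hblk : ∀ c ∈ V, ∀ γ, (fun i => c (γ, i)) ∈ Cl)
    (hone : (fun _ => (1 : ℝ)) ∈ Cl)
    (hξ : ∀ f : X → ℝ, ∃ g ∈ Cl, ∀ x, g (ξ x) = f x) (hcorr : Corr Cl q ξ)
    (hVN : ∀ u ∈ VN, ∀ κ, u κ ∈ clsV V q)
    (hpull : ∀ c ∈ V, ∀ h, (fun κ γ => c (φ κ h γ, q)) ∈ VN)
    (hgen : VN ≤ Submodule.span ℝ ({f : K → Γ → ℝ | ∃ g ∈ clsV V q, ∃ h, f = fun κ γ => g (φ κ h γ)} ∪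
      {f | IsG2 (VN : Set (K → Γ → ℝ)) (clsV V q : Set (Γ → ℝ)) a f}))
    (hU : ∀ c ∈ resV V ξ, Bal (resV V ξ : Set (Γ × X → ℝ)) c)
    (V' : Submodule ℝ ((K × Γ) × I → ℝ))
    (hV' : ∀ c, c ∈ V' ↔ (∀ κ, (fun r : Γ × I => c ((κ, r.1), r.2)) ∈ V) ∧
      (fun κ γ => c ((κ, γ), q)) ∈ VN) :
    ∀ c ∈ resV V' ξ, Bal (resV V' ξ : Set ((K × Γ) × X → ℝ)) c := by
  classical
  obtain ⟨κ₀⟩ := (inferInstance : Nonempty K)
  obtain ⟨γ₁⟩ := (inferInstance : Nonempty Γ)
  obtain ⟨h₀, -⟩ := hact κ₀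
  -- (0) elements of `V'`
  have hconstCl : ∀ t : ℝ, (fun _ : I => t) ∈ Cl := by
    intro t
    have := Cl.smul_mem t hone
    have e : (t • fun _ : I => (1 : ℝ)) = fun _ => t := by
      funext i; simp
    rwa [e] at this
  have h0a : ∀ g ∈ Cl, (fun r : (K × Γ) × I => g r.2) ∈ V' := by
    intro g hg
    rw [hV']
    refine ⟨fun κ => hClV g hg, ?_⟩
    exact hpull (fun _ => g q) (hClV _ (hconstCl (g q))) h₀
  have h0b : ∀ f ∈ V, (∀ γ, f (γ, q) = 0) → ∀ κ,
      (fun r : (K × Γ) × I => if r.1.1 = κ then f (r.1.2, r.2) else 0) ∈ V' := by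
    intro f hf hf0 κ
    rw [hV']
    refine ⟨fun κ' => ?_, ?_⟩
    · by_cases hκ : κ' = κ
      · simpa [hκ] using hf
      · simp only [if_neg hκ]
        exact V.zero_mem
    · have e : (fun (κ' : K) (γ : Γ) => if κ' = κ then f (γ, q) else 0) = 0 := by
        funext κ' γ
        simp [hf0]
      change (fun (κ' : K) (γ : Γ) => if κ' = κ then f (γ, q) else 0) ∈ VN
      rw [e]
      exact VN.zero_mem
  have h0c : ∀ f ∈ V, ∀ h, (fun r : (K × Γ) × I => f (φ r.1.1 h r.1.2, r.2)) ∈ V' := by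
    intro f hf h
    rw [hV']
    refine ⟨fun κ => ?_, hpull f hf h⟩
    by_cases hh : h ∈ a κ
    · change (fun r : Γ × I => f (φ κ h r.1, r.2)) ∈ V
      rw [hφ κ h hh]
      exact hf
    · obtain ⟨γ₀, hγ₀⟩ := hφ' κ h hh
      change (fun r : Γ × I => f (φ κ h r.1, r.2)) ∈ V
      rw [hγ₀]
      exact hClV (fun i => f (γ₀, i)) (hblk f hf γ₀)
  -- restriction
  set R : ((K × Γ) × I → ℝ) →ₗ[ℝ] ((K × Γ) × X → ℝ) :=
    LinearMap.funLeft ℝ ℝ (fun r : (K × Γ) × X => (r.1, ξ r.2)) with hR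
  have hRV : ∀ c ∈ V', R c ∈ resV V' ξ := fun c hc => Submodule.mem_map_of_mem hc
  have hcl : ∀ f : X → ℝ, (fun r : (K × Γ) × X => f r.2) ∈ resV V' ξ := by
    intro f
    obtain ⟨g, hg, hgf⟩ := hξ f
    refine mem_resV.2 ⟨_, h0a g hg, ?_⟩
    funext r
    exact hgf r.2
  -- the balanced columns
  set W : Submodule ℝ ((K × Γ) × I → ℝ) := (tuBal (resV V' ξ)).comap R with hW
  have hWmem : ∀ c, c ∈ V' → Bal (resV V' ξ : Set ((K × Γ) × X → ℝ)) (R c) → c ∈ W :=
    fun c hc hb => ⟨hRV c hc, hb⟩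
  -- (1)
  have h1 : ∀ f ∈ V, ∀ h, (fun r : (K × Γ) × I => f (φ r.1.1 h r.1.2, r.2)) ∈ W := by
    intro f hf h
    refine hWmem _ (h0c f hf h) ?_
    have hb := hU (fun r : Γ × X => f (r.1, ξ r.2)) (mem_resV.2 ⟨f, hf, rfl⟩)
    refine Bal.comap (V' := (resV V' ξ : Set ((K × Γ) × X → ℝ)))
      (fun r : (K × Γ) × X => (φ r.1.1 h r.1.2, r.2)) ?_ hb
    intro c hc
    obtain ⟨d, hd, rfl⟩ := mem_resV.1 hc
    exact hRV _ (h0c d hd h)
  -- (2)
  have h2 : ∀ f ∈ V, (∀ γ, f (γ, q) = 0) → ∀ κ,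
      (fun r : (K × Γ) × I => if r.1.1 = κ then f (r.1.2, r.2) else 0) ∈ W := by
    intro f hf hf0 κ
    refine hWmem _ (h0b f hf hf0 κ) ?_
    obtain ⟨h, hh⟩ := hact κ
    set c1 : (K × Γ) × I → ℝ := fun r => if r.1.1 = κ then f (r.1.2, r.2) else 0 with hc1
    set c2 : (K × Γ) × I → ℝ := fun r => f (φ r.1.1 h r.1.2, r.2) with hc2
    have hsub : R (c2 - c1) ∈ resV V' ξ := hRV _ (V'.sub_mem (h0c f hf h) (h0b f hf hf0 κ))
    refine Bal.split (c₁ := R c1) (c₂ := R (c2 - c1)) (hRV _ (h0b f hf hf0 κ)) hsub ?_ ?_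
    · rintro ⟨⟨κ', γ⟩, x⟩
      by_cases hκ : κ' = κ
      · right
        change f (φ κ' h γ, ξ x) - (if κ' = κ then f (γ, ξ x) else 0) = 0
        rw [if_pos hκ, hκ, hφ κ h hh]
        simp
      · left
        change (if κ' = κ then f (γ, ξ x) else 0) = 0
        rw [if_neg hκ]
    · rw [← map_add, add_sub_cancel]
      exact (h1 f hf h).2
  -- (3)
  have h3 : ∀ c ∈ V', (∀ κ γ, c ((κ, γ), q) = 0) → c ∈ W := by
    intro c hc hc0
    have e : c = ∑ κ : K, (fun r : (K × Γ) × I => if r.1.1 = κ then c ((κ, r.1.2), r.2) else 0) := by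
      funext r
      obtain ⟨⟨κ, γ⟩, i⟩ := r
      rw [Finset.sum_apply]
      simp
    rw [e]
    refine Submodule.sum_mem _ (fun κ _ => ?_)
    exact h2 (fun r : Γ × I => c ((κ, r.1), r.2)) (((hV' c).1 hc).1 κ) (fun γ => hc0 κ γ) κ
  -- the restriction to the class `q`
  let Rq : ((K × Γ) × I → ℝ) →ₗ[ℝ] (K → Γ → ℝ) :=
    { toFun := fun c κ γ => c ((κ, γ), q)
      map_add' := fun _ _ => rfl
      map_smul' := fun _ _ => rfl }
  have hfin : VN ≤ (V' ⊓ W).map Rq → ∀ c ∈ resV V' ξ, Bal (resV V' ξ : Set ((K × Γ) × X → ℝ)) c := by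
    intro hle c hc
    obtain ⟨d, hd, rfl⟩ := mem_resV.1 hc
    obtain ⟨d', ⟨hd'1, hd'2⟩, hdd'⟩ := hle ((hV' d).1 hd).2
    have h4 : d - d' ∈ W := by
      refine h3 _ (V'.sub_mem hd hd'1) (fun κ γ => ?_)
      have := congrFun (congrFun hdd' κ) γ
      change d' ((κ, γ), q) = d ((κ, γ), q) at this
      rw [Pi.sub_apply, this, sub_self]
    have h5 := W.add_mem h4 hd'2
    rw [sub_add_cancel] at h5
    exact h5.2
  refine hfin (hgen.trans (Submodule.span_le.2 ?_))
  rintro f (⟨g, hg, h, rfl⟩ | hf)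
  · obtain ⟨c, hc, rfl⟩ := mem_clsV.1 hg
    exact ⟨_, ⟨h0c c hc h, h1 c hc h⟩, rfl⟩
  -- (4)
  obtain ⟨U, cs, hfU, hUVN, hcs, hperm⟩ := hf
  have hF : ∀ c : Γ → ℝ, ∃ F : Γ × I → ℝ, c ∈ cs → F ∈ V ∧ (fun γ => F (γ, q)) = c := by
    intro c
    by_cases hc : c ∈ cs
    · obtain ⟨F, hF, hFc⟩ := mem_clsV.1 (hcs c hc)
      exact ⟨F, fun _ => ⟨hF, hFc⟩⟩
    · exact ⟨0, fun h => (hc h).elim⟩
  choose F hF using hF
  have hM : ∀ c : Γ → ℝ, ∃ M : List (Γ × I → ℝ), c ∈ cs → (∀ m ∈ M, m ∈ V) ∧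
      ∀ x γ γ', ((F c :: M).map (fun m => m (γ, ξ x))).Perm
        ((F c :: M).map (fun m => m (γ', ξ x))) := by
    intro c
    by_cases hc : c ∈ cs
    · obtain ⟨L, hL, hb⟩ := hU (fun r : Γ × X => F c (r.1, ξ r.2)) (mem_resV.2 ⟨F c, (hF c hc).1, rfl⟩)
      obtain ⟨M, hM, hML⟩ := tu_list_lift (g := fun (m : Γ × I → ℝ) (r : Γ × X) => m (r.1, ξ r.2))
        (p := fun m => m ∈ V) L (fun b hb => by
          obtain ⟨d, hd, hdb⟩ := mem_resV.1 (hL b hb)
          exact ⟨d, hd, hdb⟩)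
      refine ⟨M, fun _ => ⟨hM, fun x γ γ' => ?_⟩⟩
      have h5 := hb (γ, x) (γ', x)
      rw [← hML] at h5
      simpa [List.map_map, Function.comp_def] using h5
    · exact ⟨[], fun h => (hc h).elim⟩
  choose M hM using hM
  choose ks hks using hperm
  -- the lists `T κ`
  set T : K → List (Γ × I → ℝ) := fun κ => (List.replicate (a κ).card (cs.map F)).flatten ++
    (ks κ).map (fun k => (fun _ : Γ × I => k)) with hT
  have hTV : ∀ κ, ∀ t ∈ T κ, t ∈ V := by
    intro κ t ht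
    rcases List.mem_append.1 ht with ht | ht
    · obtain ⟨l, hl, htl⟩ := List.mem_flatten.1 ht
      rw [List.eq_of_mem_replicate hl] at htl
      obtain ⟨c, hc, rfl⟩ := List.mem_map.1 htl
      exact (hF c hc).1
    · obtain ⟨k, -, rfl⟩ := List.mem_map.1 ht
      exact hClV _ (hconstCl k)
  have hTq : ∀ κ, (T κ).map (fun (t : Γ × I → ℝ) (γ : Γ) => t (γ, q)) =
      (List.replicate (a κ).card cs).flatten ++ (ks κ).map (fun k => (fun _ : Γ => k)) := by
    intro κ
    rw [hT]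
    simp only [List.map_append, List.map_flatten, List.map_replicate, List.map_map]
    congr 3
    conv_rhs => rw [← List.map_id cs]
    exact List.map_congr_left (fun c hc => (hF c hc).2)
  have hU' : ∀ κ, ∃ l : List (Γ × I → ℝ), l.Perm (T κ) ∧
      l.map (fun (t : Γ × I → ℝ) (γ : Γ) => t (γ, q)) = U.map (fun u => u κ) := by
    intro κ
    refine tu_perm_lift _ _ ?_
    rw [hTq]
    exact hks κ
  choose U' hU'1 hU'2 using hU'
  have hlen : ∀ κ, (U' κ).length = U.length := by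
    intro κ
    have := congrArg List.length (hU'2 κ)
    simpa using this
  -- the columns
  set col : ℕ → (K × Γ) × I → ℝ := fun l r => (U' r.1.1).getD l 0 (r.1.2, r.2) with hcol
  have hcolq : ∀ l, (fun κ γ => col l ((κ, γ), q)) = U.getD l 0 := by
    intro l
    funext κ
    have e1 : ((U' κ).map (fun (t : Γ × I → ℝ) (γ : Γ) => t (γ, q))).getD l 0 =
        (U.map (fun u => u κ)).getD l 0 := by rw [hU'2 κ]
    have e2 : ((U' κ).map (fun (t : Γ × I → ℝ) (γ : Γ) => t (γ, q))).getD l 0 =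
        fun γ => (U' κ).getD l 0 (γ, q) := by
      simp only [List.getD_eq_getElem?_getD, List.getElem?_map]
      cases (U' κ)[l]? <;> rfl
    have e3 : (U.map (fun u => u κ)).getD l 0 = U.getD l 0 κ := by
      simp only [List.getD_eq_getElem?_getD, List.getElem?_map]
      cases U[l]? <;> rfl
    rw [e2, e3] at e1
    exact e1
  have hcolV : ∀ l, col l ∈ V' := by
    intro l
    rw [hV']
    refine ⟨fun κ => ?_, ?_⟩
    · change (fun r : Γ × I => (U' κ).getD l 0 (r.1, r.2)) ∈ V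
      by_cases hl : l < (U' κ).length
      · rw [List.getD_eq_getElem _ _ hl]
        exact hTV κ _ ((hU'1 κ).subset (List.getElem_mem hl))
      · rw [List.getD_eq_default _ _ (not_lt.1 hl)]
        exact V.zero_mem
    · rw [hcolq]
      by_cases hl : l < U.length
      · rw [List.getD_eq_getElem _ _ hl]
        exact hUVN _ (List.getElem_mem hl)
      · rw [List.getD_eq_default _ _ (not_lt.1 hl)]
        exact VN.zero_mem
  -- the list
  set L : List ((K × Γ) × X → ℝ) := (List.range U.length).map (fun l => R (col l)) ++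
    (Finset.univ : Finset H).toList.flatMap (fun h => cs.flatMap (fun c => (M c).map
      (fun m => fun r : (K × Γ) × X => m (φ r.1.1 h r.1.2, ξ r.2)))) with hLdef
  have hLV : ∀ c ∈ L, c ∈ resV V' ξ := by
    intro c hc
    rcases List.mem_append.1 hc with hc | hc
    · obtain ⟨l, -, rfl⟩ := List.mem_map.1 hc
      exact hRV _ (hcolV l)
    · obtain ⟨h, -, hc⟩ := List.mem_flatMap.1 hc
      obtain ⟨c', hc', hc⟩ := List.mem_flatMap.1 hc
      obtain ⟨m, hm, rfl⟩ := List.mem_map.1 hc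
      exact hRV _ (h0c m ((hM c' hc').1 m hm) h)
  have hrow : ∀ κ γ x, (((L.map (fun c => c ((κ, γ), x))) : List ℝ) : Multiset ℝ) =
      (a κ).card • ((cs.map (fun c => F c (γ, ξ x)) : List ℝ) : Multiset ℝ) + (ks κ : Multiset ℝ) +
        ∑ h : H, (cs.map (fun c => (((M c).map (fun m => m (φ κ h γ, ξ x)) : List ℝ) : Multiset ℝ))).sum := by
    intro κ γ x
    rw [hLdef, List.map_append, ← Multiset.coe_add]
    congr 1
    · have e1 : ((List.range U.length).map (fun l => R (col l))).map (fun c => c ((κ, γ), x)) =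
          (U' κ).map (fun t => t (γ, ξ x)) := by
        conv_rhs => rw [← tu_range_getD (U' κ) 0, hlen κ]
        rw [List.map_map, List.map_map]
        rfl
      rw [e1, Multiset.coe_eq_coe.2 ((hU'1 κ).map (fun t => t (γ, ξ x))), hT]
      simp only [List.map_append, List.map_flatten, List.map_replicate, List.map_map]
      rw [← Multiset.coe_add, tu_coe_replicate]
      congr 2
      have e2 : ((fun t : Γ × I → ℝ => t (γ, ξ x)) ∘ fun k => fun _ : Γ × I => k) = id := rfl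
      rw [e2, List.map_id]
    · rw [List.map_flatMap, tu_coe_flatMap, Finset.sum_map_toList]
      refine Finset.sum_congr rfl (fun h _ => ?_)
      rw [List.map_flatMap, tu_coe_flatMap]
      congr 1
      refine List.map_congr_left (fun c _ => ?_)
      rw [List.map_map]
      rfl
  have hsplit : ∀ κ γ x, (((L.map (fun c => c ((κ, γ), x))) : List ℝ) : Multiset ℝ) =
      (ks κ : Multiset ℝ) + (a κ).card • (cs.map (fun c =>
        (((F c :: M c).map (fun m => m (γ, ξ x)) : List ℝ) : Multiset ℝ))).sum +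
        ∑ h ∈ (a κ)ᶜ, (cs.map (fun c => (((M c).map (fun m => m (φ κ h γ, ξ x)) : List ℝ) : Multiset ℝ))).sum := by
    intro κ γ x
    rw [hrow, ← Finset.sum_add_sum_compl (a κ)]
    have e1 : ∑ h ∈ a κ, (cs.map (fun c => (((M c).map (fun m => m (φ κ h γ, ξ x)) : List ℝ) : Multiset ℝ))).sum =
        (a κ).card • (cs.map (fun c => (((M c).map (fun m => m (γ, ξ x)) : List ℝ) : Multiset ℝ))).sum := by
      rw [← Finset.sum_const]
      refine Finset.sum_congr rfl (fun h hh => ?_)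
      rw [hφ κ h hh]
      rfl
    have e2 : (cs.map (fun c => (((F c :: M c).map (fun m => m (γ, ξ x)) : List ℝ) : Multiset ℝ))).sum =
        ((cs.map (fun c => F c (γ, ξ x)) : List ℝ) : Multiset ℝ) +
          (cs.map (fun c => (((M c).map (fun m => m (γ, ξ x)) : List ℝ) : Multiset ℝ))).sum := by
      rw [tu_coe_map, ← List.sum_map_add]
      congr 1
    rw [e1, e2, smul_add]
    abel
  have hbcb : ∀ κ x γ γ', (L.map (fun c => c ((κ, γ), x))).Perm (L.map (fun c => c ((κ, γ'), x))) := by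
    intro κ x γ γ'
    rw [← Multiset.coe_eq_coe, hsplit, hsplit]
    congr 1
    · congr 3
      refine List.map_congr_left (fun c hc => ?_)
      exact Multiset.coe_eq_coe.2 ((hM c hc).2 x γ γ')
    · refine Finset.sum_congr rfl (fun h hh => ?_)
      obtain ⟨γ₀, hγ₀⟩ := hφ' κ h (Finset.mem_compl.1 hh)
      rw [hγ₀]
  have hloc : ∀ f ∈ {f : X → ℝ | ∃ g ∈ Cl, g q = 0 ∧ ∀ y, g (ξ y) = f y}, ∀ κ,
      (fun r : (K × Γ) × X => if r.1.1 = κ then f r.2 else 0) ∈ resV V' ξ := by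
    rintro f ⟨g, hg, hgq, hgf⟩ κ
    refine mem_resV.2 ⟨_, h0b (fun r : Γ × I => g r.2) (hClV g hg) (fun _ => hgq) κ, ?_⟩
    funext r
    simp only [hgf]
  have hall := bal_of_bcb (resV V' ξ) hcl {f : X → ℝ | ∃ g ∈ Cl, g q = 0 ∧ ∀ y, g (ξ y) = f y}
    hloc hcorr L hLV hbcb
  obtain ⟨l, hl, hlf⟩ := List.getElem_of_mem hfU
  refine ⟨col l, ⟨hcolV l, hWmem _ (hcolV l) (hall _ ?_)⟩, ?_⟩
  · exact List.mem_append_left _ (List.mem_map.2 ⟨l, List.mem_range.2 hl, rfl⟩)
  · change (fun κ γ => col l ((κ, γ), q)) = f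
    rw [hcolq, List.getD_eq_getElem _ _ hl, hlf]

end Vale.Agent.Lib.P058
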