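import Vale.Agent.Lib.P058C.Cert
import Vale.Agent.Lib.P058C.NW
import Vale.Agent.Lib.P058C.Amal
import Vale.Agent.Lib.P058C.Shift
import Vale.Agent.Lib.P058C.TU
import Vale.Agent.Lib.P058C.TSep

/-!
# P058C, module SysStep: one step of the tower

PROOF.  1. `x γ = T.v γ q`, `VQ = clsV T.V q` (`c ∈ VQ ↔ ∃ w, ∀ γ, c γ = ⟪w, x γ⟫`), `ω γ γ' = T.β.B (x γ) (x γ')`; the
diagonal is `κ₀ + T.s`.  From `hq`, by `Bal.comap` and `Un.comap` along `γ ↦ (γ, ())`, the hypotheses of `certificate`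
hold for the rows `Γ` and `VQ`; `1 ∈ VQ` by `T.cl`.  So `InK VQ ω`.
2. `hZ` gives `ιZ, βZ, Z, κZ`; `nwit` gives `W : NWit T.Γ VQ ω Z dist`.  `W.K` is nonempty (from `W.ram (fun _ => True)`,
otherwise `e z : K × Γ` for `z ∈ Z`).  `swp W.s = W.s`: from `W.gram κ γ γ` and `SForm.symm'`.  (`W.H` is nonempty by
`W.hact`.)
3. `shift` for `R = T.Γ × I`, `x (γ, i) = T.v γ i`, `s = W.s` (a vector `w` with `⟪w, T.v γ i⟫ = 1` exists by `T.cl`,
`hone`, `T.hV`): `β⁺`, `v⁺ γ i`, `β⁺.B (v⁺ γ i) (v⁺ γ' i') = T.β.B (T.v γ i) (T.v γ' i') + W.s`, same columns.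
4. `amal` for `β⁺`, `v⁺`, `q`, `W.β`, `W.p` (`h` is `W.gram`): `ι''`, `β''`, `v''`.
5. `T'`: `Γ = W.K × T.Γ`, `ι''`, `β''`, `v''`, `s = T.s + W.s`,
`V' = {c | ∃ w, ∀ r, c r = ⟪w, v'' r.1 r.2⟫}` (a submodule).  By `amal` and `shift`: `c ∈ V'` iff every block
`(γ, i) ↦ c ((κ, γ), i)` is in `T.V`, and `(κ, γ) ↦ c ((κ, γ), q)` is in
`VN = {f | ∃ u, f = fun κ γ => ⟪u, W.p κ γ⟫}` (a submodule of `W.K → T.Γ → ℝ`).
`blk`: from `T.blk`.  `cl`: for `f ∈ Cl` blocks are in `T.V` by `T.cl`; on the class `q` the column is the constant `f q`,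
in `VN` by `W.pull` for the constant function `f q ∈ VQ`, any `h`.
6. `GoodRows` for `ξ`: `tower_bal` and `tower_sep` (classical decidability) with `a = W.a`, `φ = W.φ`, `hgen` = `W.gen`
(for `u ∈ VN`), `hpull` = `W.pull`, `hVN`: `gram_col` for `⟪v⁺ γ q, v⁺ γ' q⟫ = ⟪W.p κ γ, W.p κ γ'⟫`
(apply `mu` to `W.gram`), giving `w` with `⟪w, v⁺ γ q⟫ = ⟪u, W.p κ γ⟫`, and the equality of columns in `shift`.
7. `Ded`.  Let `χ`, `Kc` (`card ≤ r + 1`), `k₀ ∈ Kc`, `χ (κ, γ) i = k₀` for `i ∈ Y \ {q}`.  Apply `W.ram` to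
`χN y = ∃ κ γ, W.p κ γ = y ∧ χ (κ, γ) q = k₀`.  If `W.p κ' γ' = W.p κ γ` then
`v'' (κ', γ') q = v'' (κ, γ) q` (inner products, second claim of `amal`), so they have equal colours.
First alternative: a `κ` with `χ (κ, γ) q = k₀` for all `γ`; then `χ' γ i = χ (κ, γ) i` satisfies the hypotheses of
`hded` for `Y` (if `T.v γ i = T.v γ' i'` then `v'' (κ, γ) i = v'' (κ, γ') i'` since the distance is
determined by the forms, `SForm.dist_sq`); `g i = (γ_i, i')` gives `((κ, γ_i), i')`; distances inside a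
block are those of `T`.
Second alternative: `e : Z → W.K × T.Γ`, `χ (e z) q ≠ k₀`.  Colour `z ∈ Z` by `χ (e z) q ∈ Kc.erase k₀`, a set with
at most `r` elements (extend the colouring by `0` outside `Z`).  `hZ` gives `f : I → Z`; `g i = (e (f i), q)`,
`dist (v'' (e z) q) (v'' (e z') q) = dist (W.p (e z)) (W.p (e z')) = dist z z'`.
-/

namespace Vale.Agent.Lib.P058

theorem sys_step {I : Type} {C : I → I → TT} {Cl : Submodule ℝ (I → ℝ)}
    (hone : (fun _ => (1 : ℝ)) ∈ Cl) (κ₀ : TT) (hdiag : ∀ i, C i i = κ₀) (T : Sys C Cl) (q : I)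
    (hq : GoodRows (resV T.V (fun _ : Unit => q))) (r : ℕ) (Y : Set I)
    (hded : T.Ded (r + 1) Y) (hZ : HRc C r) :
    ∃ T' : Sys C Cl, T'.Ded (r + 1) (Y \ {q}) ∧
      ∀ (X : Type) [Fintype X] (ξ : X → I), (∀ f : X → ℝ, ∃ g ∈ Cl, ∀ x, g (ξ x) = f x) →
        Corr Cl q ξ → (∀ x, ∃ g ∈ Cl, g (ξ x) ≠ g q) → GoodRows (resV T.V ξ) →
        GoodRows (resV T'.V ξ) := by
  sorry

end Vale.Agent.Lib.P058
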