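import Vale.Agent.Lib.P058C.Tower

/-!
# P058C, module Top: the induction over the number of colours

PROOF of `hr_zero`: `Z = {0}`, no colour.

PROOF of `hr_succ`.  `C i j = β.B (a i) (a j)`.
1. Basis: `exists_linearIndependent'` for `a`: an injective `ξ : X → I` with `a ∘ ξ` linearly independent and
`span (range (a ∘ ξ)) = span (range a)`; `X` is finite (`I` is).  `a i = ∑ x, L i x • a (ξ x)`, with
`L (ξ y) x = if x = y then 1 else 0`; `∑ x, L i x = 1` by `hone`.  For every `f : X → ℝ` there is `w` with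
`⟪w, a (ξ x)⟫ = f x` (linear independence).
2. `qs` = list of all `i` not in the range of `ξ` (`Finset.univ.toList.filter`), `tower`: a system `T`,
`T.Ded (r + 1) (range ξ)`, `GoodRows (resV T.V ξ)`.  Rows `J = T.Γ × X` (nonempty: `X` is nonempty because `I` is and
`a i ≠ 0` by `hone`), points `v_J (γ, x) = T.v γ (ξ x)`, columns `resV T.V ξ`, diagonal `κ + T.s`.  `certificate`:
`InK (resV T.V ξ) ω`, `ω j j' = T.β.B (v_J j) (v_J j')`, and `rz_of_inK` gives `cs` and `Rz ω cs`.
3. In every copy: `T.v γ i = ∑ x, L i x • T.v γ (ξ x)`: the norm of the difference is determined by `mu` of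
`T.gram`; since `∑ x, L i x = 1` the constant `T.s` cancels and the norm is that of
`a i - ∑ x, L i x • a (ξ x) = 0` (cf. `norm_comb_eq` in module P058/Affine).
4. Let `W : Wit J ω cs` be monochromatic for the colours `Fin (r + 1)`.  For `κ' : W.K`, `γ`, `i` let
`F κ' γ i = ∑ x, L i x • W.w κ' (γ, x)`; `F κ' γ (ξ x) = W.w κ' (γ, x)`.
`Z' = ` the set of all `F κ' γ i` (a finite set, nonempty because `W.K` is, by `W.Mono`).
* `W.β.B (F κ' γ i) (F κ' γ i) = ∑ x y, tp (L i x) 1 * tp 1 (L i y) * (C (ξ x) (ξ y) + T.s + W.s)`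
  `= C i i + T.s + W.s` (`SForm.sum_left`, `SForm.sum_right`; the same computation in `A`;
  `∑ x y, tp (L i x) (L i y) = tp 1 1`), so the form is constant on `Z'`.
* `dist (F κ' γ i) (F κ' γ' i') = dist (T.v γ i) (T.v γ' i')`: `F κ' γ i - F κ' γ' i'` is a combination with
  coefficient sum `0` of the points `W.w κ' j`, and the same combination of the `v_J j` is
  `T.v γ i - T.v γ' i'` by 3; the squared distances of the `W.w κ' j` and the `v_J j` agree (`W.gram`,
  `SForm.dist_sq`); `norm_comb_eq`.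
5. Let `χ`, `Kc` (`card ≤ r + 1`) be a colouring of `Z'`.  `W.Mono (Fin (r + 1))`: compose `χ` with an injection of `Kc`
into `Fin (r + 1)` (colour `0` outside `Z'`): a copy `κ'` with `χ (W.w κ' j) = k₀` for all `j`, `k₀ ∈ Kc`.
The colouring `(γ, i) ↦ χ (F κ' γ i)` of `T` satisfies the hypotheses of `T.Ded` with `Y = range ξ`:
get `g`; `f i = F κ' (g i).1 (g i).2`.
-/

namespace Vale.Agent.Lib.P058

theorem hr_zero {I : Type} (C : I → I → TT) : HRc C 0 := by
  sorry

theorem hr_succ {I ι : Type} [Fintype ι] [Finite I] [Nonempty I] (β : SForm (EuclideanSpace ℝ ι))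
    (a : I → EuclideanSpace ℝ ι) (κ : TT) (hκ : ∀ i, β.B (a i) (a i) = κ)
    (hone : (fun _ => (1 : ℝ)) ∈ colA a) (hinj : Function.Injective a) (r : ℕ)
    (hZ : HRc (fun i j => β.B (a i) (a j)) r) : HRc (fun i j => β.B (a i) (a j)) (r + 1) := by
  sorry

theorem hr_all {I ι : Type} [Fintype ι] [Finite I] [Nonempty I] (β : SForm (EuclideanSpace ℝ ι))
    (a : I → EuclideanSpace ℝ ι) (κ : TT) (hκ : ∀ i, β.B (a i) (a i) = κ)
    (hone : (fun _ => (1 : ℝ)) ∈ colA a) (hinj : Function.Injective a) (r : ℕ) :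
    HRc (fun i j => β.B (a i) (a j)) r := by
  induction r with
  | zero => exact hr_zero _
  | succ r ih => exact hr_succ β a κ hκ hone hinj r ih

end Vale.Agent.Lib.P058
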