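import Vale.Agent.Lib.P058C.SysStep
import Vale.Agent.Lib.P058C.CorrG

/-!
# P058C, module Tower: the tower over the points outside a basis

PROOF.  `C i j = β.B (a i) (a j)`, `Cl = colA a`; `‖a i‖ = √(mu κ)` for all `i` (`SForm.real'`).
Induction on the list `qs`.  `[]`: `base_sys` (`{i | i ∉ []} = univ`).  For a point `q'` the functions on `Unit` are
restrictions of constants (`hone`).
`q :: qs`: let `T` be the system for `qs`.  `sys_step` with `Y = {i | i ∉ qs}` (and `q ∉ qs`) gives `T'` with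
`Ded (r + 1) (Y \ {q})`, `Y \ {q} = {i | i ∉ q :: qs}`.  `GoodRows` for `ξ' = fun _ : Unit => q'`, `q' ∉ q :: qs`, and for `ξ`:
`corr_of_sphere` (`a (ξ x) ≠ a q` by `hinj`, `ξ x ≠ q`), and for `i ≠ q` there is `g ∈ colA a` with `g i ≠ g q`
(`w = a i - a q`).
-/

namespace Vale.Agent.Lib.P058

theorem tower {I ι X : Type} [Fintype ι] [Fintype X] (β : SForm (EuclideanSpace ℝ ι))
    (a : I → EuclideanSpace ℝ ι) (κ : TT) (hκ : ∀ i, β.B (a i) (a i) = κ)
    (hone : (fun _ => (1 : ℝ)) ∈ colA a) (hinj : Function.Injective a) (ξ : X → I)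
    (hfun : ∀ f : X → ℝ, ∃ g ∈ colA a, ∀ x, g (ξ x) = f x) (r : ℕ)
    (hZ : HRc (fun i j => β.B (a i) (a j)) r) (qs : List I) (hnd : qs.Nodup)
    (hqs : ∀ q ∈ qs, ∀ x, ξ x ≠ q) :
    ∃ T : Sys (fun i j => β.B (a i) (a j)) (colA a), T.Ded (r + 1) {i | i ∉ qs} ∧
      (∀ q', q' ∉ qs → GoodRows (resV T.V (fun _ : Unit => q'))) ∧ GoodRows (resV T.V ξ) := by
  sorry

end Vale.Agent.Lib.P058
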